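import Vale.Agent.P061Z.Defs
import Vale.Agent.P264Z.Brouwer

/-! # P061: a covering lemma on the simplex, and a minimax lemma -/

namespace Vale.Agent.P061Z

open Finset

namespace KyFan

variable {I : Type} [Fintype I]

/-- Normalising a nonnegative vector with positive sum. -/
theorem norm_mem (w : I → ℝ) (hw : ∀ i, 0 ≤ w i) (hs : 0 < ∑ j, w j) :
    (fun i => w i / ∑ j, w j) ∈ stdSimplex ℝ I := by
  refine ⟨fun i => div_nonneg (hw i) hs.le, ?_⟩
  rw [← Finset.sum_div, div_self hs.ne']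

/-- Weights for the retraction on the simplex. -/
noncomputable def wt (x : I → ℝ) (i : I) : ℝ := max (x i) 0 + |1 - ∑ j, max (x j) 0|

theorem wt_nonneg (x : I → ℝ) (i : I) : 0 ≤ wt x i :=
  add_nonneg (le_max_right _ _) (abs_nonneg _)

theorem wt_sum_pos [Nonempty I] (x : I → ℝ) : 0 < ∑ j, wt x j := by
  rcases (Finset.sum_nonneg fun j (_ : j ∈ (univ : Finset I)) => wt_nonneg x j).lt_or_eq with h | h
  · exact h
  exfalso
  have h0 : ∀ j, wt x j = 0 := fun j =>
    (Finset.sum_eq_zero_iff_of_nonneg fun j _ => wt_nonneg x j).1 h.symm j (mem_univ j)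
  have h1 : ∀ j, max (x j) 0 = 0 := fun j => by
    have := h0 j
    unfold wt at this
    have a1 : 0 ≤ max (x j) 0 := le_max_right _ _
    have a2 := abs_nonneg (1 - ∑ j, max (x j) 0)
    linarith
  obtain ⟨i⟩ := ‹Nonempty I›
  have := h0 i
  unfold wt at this
  simp [h1] at this

theorem wt_continuous (i : I) : Continuous fun x : I → ℝ => wt x i := by
  unfold wt
  fun_prop

/-- A retraction of the whole space on the simplex. -/
noncomputable def retr (x : I → ℝ) : I → ℝ := fun i => wt x i / ∑ j, wt x j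

theorem retr_mem [Nonempty I] (x : I → ℝ) : retr x ∈ stdSimplex ℝ I :=
  norm_mem _ (wt_nonneg x) (wt_sum_pos x)

theorem retr_continuous [Nonempty I] : Continuous (retr : (I → ℝ) → I → ℝ) := by
  refine continuous_pi fun i => ?_
  exact (wt_continuous i).div (continuous_finsetSum _ fun j _ => wt_continuous j)
    fun x => (wt_sum_pos x).ne'

theorem retr_eq {x : I → ℝ} (hx : x ∈ stdSimplex ℝ I) : retr x = x := by
  have h1 : ∀ j, max (x j) 0 = x j := fun j => max_eq_left (hx.1 j)
  have h2 : ∀ j, wt x j = x j := fun j => by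
    unfold wt
    simp [h1, hx.2]
  funext i
  unfold retr
  simp [h2, hx.2]

theorem norm_le_one {x : I → ℝ} (hx : x ∈ stdSimplex ℝ I) : ‖x‖ ≤ 1 := by
  refine (pi_norm_le_iff_of_nonneg zero_le_one).2 fun i => ?_
  rw [Real.norm_eq_abs, abs_of_nonneg (hx.1 i), ← hx.2]
  exact Finset.single_le_sum (fun j _ => hx.1 j) (mem_univ i)

/-- Fixed point theorem on the simplex. -/
theorem fixed [Nonempty I] (g : (I → ℝ) → I → ℝ) (hg : ContinuousOn g (stdSimplex ℝ I))
    (hm : ∀ t ∈ stdSimplex ℝ I, g t ∈ stdSimplex ℝ I) : ∃ t ∈ stdSimplex ℝ I, g t = t := by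
  have hc : Continuous fun x : I → ℝ => g (retr x) :=
    hg.comp_continuous retr_continuous retr_mem
  obtain ⟨x, -, hx⟩ := Vale.Agent.P264Z.exists_zero_of_sphere (E := I → ℝ) (r := 2) two_pos
    (f := fun x => x - g (retr x)) (continuous_id.sub hc).continuousOn (by
      intro x hx t ht h
      have e : x = t • g (retr x) := by
        have : (1 - t) • x + t • (x - g (retr x)) = x - t • g (retr x) := by
          rw [smul_sub, sub_smul, one_smul]; abel
        rw [this] at h
        exact sub_eq_zero.1 h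
      have h1 : ‖g (retr x)‖ ≤ 1 := norm_le_one (hm _ (retr_mem x))
      have h2 : ‖x‖ ≤ 1 := by
        rw [e, norm_smul, Real.norm_eq_abs, abs_of_nonneg ht.1]
        calc t * ‖g (retr x)‖ ≤ 1 * 1 := mul_le_mul ht.2 h1 (norm_nonneg _) zero_le_one
          _ = 1 := one_mul _
      linarith)
  have e : x = g (retr x) := sub_eq_zero.1 hx
  have hxm : x ∈ stdSimplex ℝ I := by rw [e]; exact hm _ (retr_mem x)
  refine ⟨x, hxm, ?_⟩
  rw [retr_eq hxm] at e
  exact e.symm

end KyFan

theorem kyfan {I : Type} [Fintype I] [DecidableEq I] [Nonempty I] (f : (I → ℝ) → I → ℝ)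
    (hf : ∀ i, ContinuousOn (fun t => f t i) (stdSimplex ℝ I))
    (hpos : ∀ t ∈ stdSimplex ℝ I, ∃ i, 0 < f t i) :
    ∃ t ∈ stdSimplex ℝ I, ∀ i, 0 < t i → 0 < f t i := by
  have hs : ∀ t ∈ stdSimplex ℝ I, 0 < ∑ j, max (f t j) 0 := fun t ht => by
    obtain ⟨i, hi⟩ := hpos t ht
    exact Finset.sum_pos' (fun j _ => le_max_right _ _) ⟨i, mem_univ i, lt_max_of_lt_left hi⟩
  have hm : ∀ j, ContinuousOn (fun t => max (f t j) 0) (stdSimplex ℝ I) := fun j =>
    (hf j).sup continuousOn_const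
  obtain ⟨t, ht, e⟩ := KyFan.fixed (fun t i => max (f t i) 0 / ∑ j, max (f t j) 0)
    (continuousOn_pi.2 fun i => (hm i).div (continuousOn_finsetSum _ fun j _ => hm j)
      fun t ht => (hs t ht).ne')
    (fun t ht => KyFan.norm_mem _ (fun i => le_max_right _ _) (hs t ht))
  refine ⟨t, ht, fun i hi => ?_⟩
  have e1 : max (f t i) 0 / ∑ j, max (f t j) 0 = t i := congrFun e i
  by_contra hcon
  rw [max_eq_right (not_lt.1 hcon), zero_div] at e1
  exact hi.ne e1

theorem minimax {I : Type} [Fintype I] [DecidableEq I] [Nonempty I] (C : Set (I → ℝ))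
    (hC : Convex ℝ C) (β : ℝ) (h : ∀ μ ∈ stdSimplex ℝ I, ∃ c ∈ C, ∑ i, μ i * c i ≤ β)
    (ε : ℝ) (hε : 0 < ε) : ∃ c ∈ C, ∀ i, c i ≤ β + ε := by
  by_contra hcon
  push Not at hcon
  set s : Set (I → ℝ) := Set.pi Set.univ fun _ => Set.Iio (β + ε) with hs
  have hsc : Convex ℝ s := convex_pi fun _ _ => convex_Iio _
  have hso : IsOpen s := isOpen_set_pi Set.finite_univ fun _ _ => isOpen_Iio
  have hd : Disjoint s C := Set.disjoint_left.2 fun c hc hc' => by
    obtain ⟨i, hi⟩ := hcon c hc'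
    exact absurd (hc i (Set.mem_univ i)) (not_lt.2 hi.le)
  obtain ⟨φ, r, h1, h2⟩ := geometric_hahn_banach_open hsc hso hC hd
  set w : I → ℝ := fun i => φ (Pi.single i 1) with hw
  have hφ : ∀ a : I → ℝ, φ a = ∑ i, w i * a i := fun a => by
    conv_lhs => rw [← Finset.univ_sum_single a]
    rw [map_sum]
    refine Finset.sum_congr rfl fun i _ => ?_
    have : (Pi.single i (a i) : I → ℝ) = a i • (Pi.single i (1 : ℝ) : I → ℝ) := by
      rw [← Pi.single_smul', smul_eq_mul, mul_one]
    rw [this, map_smul, smul_eq_mul, mul_comm]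
  have hβ : (fun _ : I => β) ∈ s := fun i _ => by
    show β < β + ε
    linarith
  have hw0 : ∀ i, 0 ≤ w i := fun i => by
    by_contra hneg
    push Not at hneg
    have hlt := h1 _ hβ
    set lam : ℝ := (r - φ (fun _ : I => β)) / (-w i) with hlam
    have hl0 : 0 ≤ lam := div_nonneg (by linarith) (by linarith)
    have hmem : ((fun _ : I => β) - lam • (Pi.single i (1 : ℝ) : I → ℝ)) ∈ s := fun j _ => by
      show β - lam * (Pi.single i (1 : ℝ) : I → ℝ) j < β + ε
      have : 0 ≤ (Pi.single i (1 : ℝ) : I → ℝ) j := by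
        rw [Pi.single_apply]; split_ifs <;> norm_num
      nlinarith [mul_nonneg hl0 this]
    have := h1 _ hmem
    rw [map_sub, map_smul, smul_eq_mul] at this
    have e : lam * (-w i) = r - φ (fun _ : I => β) := div_mul_cancel₀ _ (by linarith)
    have e2 : φ (Pi.single i 1) = w i := rfl
    rw [e2] at this
    linarith
  have hS : 0 < ∑ j, w j := by
    rcases (Finset.sum_nonneg fun j (_ : j ∈ (univ : Finset I)) => hw0 j).lt_or_eq with h0 | h0
    · exact h0
    exfalso
    have hz : ∀ j, w j = 0 := fun j =>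
      (Finset.sum_eq_zero_iff_of_nonneg fun j _ => hw0 j).1 h0.symm j (mem_univ j)
    obtain ⟨c, hc, -⟩ := h _ (KyFan.retr_mem (0 : I → ℝ))
    have a1 := h1 _ hβ
    have a2 := h2 c hc
    rw [hφ] at a1 a2
    simp [hz] at a1 a2
    linarith
  obtain ⟨c, hc, hcβ⟩ := h _ (KyFan.norm_mem w hw0 hS)
  have a1 := h1 _ hβ
  have a2 := h2 c hc
  rw [hφ] at a1 a2
  have a3 : ∑ i, w i / (∑ j, w j) * c i = (∑ i, w i * c i) / ∑ j, w j := by
    rw [Finset.sum_div]
    exact Finset.sum_congr rfl fun i _ => by ring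
  rw [a3, div_le_iff₀ hS] at hcβ
  rw [← Finset.sum_mul] at a1
  linarith

end Vale.Agent.P061Z
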