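import Vale.Agent.P061Z.ChainD
import Vale.Agent.P061Z.KyFan

/-! # P061: one weighting for a chain of partitions -/

namespace Vale.Agent.P061Z

open Finset

variable {V E : Type} [Fintype V] [DecidableEq V] [Fintype E] [DecidableEq E]

namespace Chain

/-- The semimetric of a family of cuts with multiplicities `n`. -/
def cutMet (n : Finset V → ℕ) (a b : V) : ℕ := ∑ S, if Sep S a b then n S else 0

theorem cutMet_isMet (n : Finset V → ℕ) : IsMet (cutMet n) := by
  refine ⟨fun a => ?_, fun a b => ?_, fun a b c => ?_⟩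
  · unfold cutMet Sep
    simp
  · unfold cutMet
    refine Finset.sum_congr rfl fun S _ => ?_
    have : Sep S a b ↔ Sep S b a := by unfold Sep; tauto
    simp only [this]
  · unfold cutMet
    rw [← Finset.sum_add_distrib]
    refine Finset.sum_le_sum fun S _ => ?_
    by_cases h : Sep S a c
    · have : Sep S a b ∨ Sep S b c := by unfold Sep at *; tauto
      rw [if_pos h]
      rcases this with h1 | h1
      · rw [if_pos h1]; omega
      · rw [if_pos h1]; omega
    · rw [if_neg h]; omega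

theorem sum_D_cutMet (n : Finset V → ℕ) (D : V → V → ℝ) :
    ∑ a, ∑ b, D a b * (cutMet n a b : ℝ) = ∑ S, (n S : ℝ) * cutD D S := by
  unfold cutMet cutD
  simp only [Nat.cast_sum, Finset.mul_sum]
  rw [Finset.sum_comm (s := (univ : Finset (Finset V)))]
  refine Finset.sum_congr rfl fun a _ => ?_
  rw [Finset.sum_comm (s := (univ : Finset (Finset V)))]
  refine Finset.sum_congr rfl fun b _ => Finset.sum_congr rfl fun S _ => ?_
  split_ifs <;> simp [mul_comm]

omit [DecidableEq E] in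
theorem sum_edge_cutMet (u v : E → V) (n : Finset V → ℕ) :
    ∑ e, (cutMet n (u e) (v e) : ℝ) = ∑ S, (n S : ℝ) * ((cutE u v univ S).card : ℝ) := by
  unfold cutMet cutE
  simp only [Nat.cast_sum]
  rw [Finset.sum_comm]
  refine Finset.sum_congr rfl fun S _ => ?_
  rw [Finset.card_filter, Nat.cast_sum, Finset.mul_sum]
  refine Finset.sum_congr rfl fun e _ => ?_
  split_ifs <;> simp

theorem cutD_nonneg {D : V → V → ℝ} (hD : ∀ a b, 0 ≤ D a b) (S : Finset V) : 0 ≤ cutD D S := by
  unfold cutD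
  refine Finset.sum_nonneg fun a _ => Finset.sum_nonneg fun b _ => ?_
  split_ifs
  · exact hD a b
  · exact le_rfl

theorem cutD_comb (D D' : V → V → ℝ) (s t : ℝ) (S : Finset V) :
    cutD (fun a b => s * D a b + t * D' a b) S = s * cutD D S + t * cutD D' S := by
  unfold cutD
  simp only [Finset.mul_sum, ← Finset.sum_add_distrib]
  refine Finset.sum_congr rfl fun a _ => Finset.sum_congr rfl fun b _ => ?_
  split_ifs <;> simp

theorem res_comb (u v : E → V) {D D' : V → V → ℝ} (hD : ∀ a b, 0 ≤ D a b)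
    (hD' : ∀ a b, 0 ≤ D' a b) {s t : ℝ} (hs : 0 ≤ s) (ht : 0 ≤ t) (hst : s + t = 1) (e : E) :
    res u v (fun a b => s * D a b + t * D' a b) e ≤ s * res u v D e + t * res u v D' e := by
  have hm : (![s, t] : Fin 2 → ℝ) ∈ stdSimplex ℝ (Fin 2) := by
    refine ⟨fun i => ?_, by simpa [Fin.sum_univ_two] using hst⟩
    fin_cases i
    · simpa using hs
    · simpa using ht
  have := res_convex u v (![D, D'] : Fin 2 → V → V → ℝ) (fun i a b => by
    fin_cases i
    · simpa using hD a b
    · simpa using hD' a b) hm e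
  simpa [Fin.sum_univ_two] using this

end Chain

open Chain in
theorem chain (u v : E → V) (m : ℕ) (hm : 16 ≤ m)
    (hpc : PC u v univ ((m : ℝ) ^ 4)) (𝒦 : Finset (V → ℕ))
    (hch : ∀ π ∈ 𝒦, ∀ π' ∈ 𝒦, Ref π π' ∨ Ref π' π)
    (hec : ∀ π ∈ 𝒦, PartsEC u v π ((m : ℝ) ^ 4)) :
    ∃ D : V → V → ℝ, DOK u v 200 D ∧
      ∀ π ∈ 𝒦, ∑ e ∈ crossE u v univ π, res u v D e ≤ 14 / m * (crossE u v univ π).card := by
  set C : Set (Finset V → ℝ) := {c | ∃ D : V → V → ℝ, (∀ a b, 0 ≤ D a b) ∧
    (∀ π ∈ 𝒦, ∑ e ∈ crossE u v univ π, res u v D e ≤ 14 / m * (crossE u v univ π).card) ∧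
    ∀ S, c S = cutD D S - 200 * ((cutE u v univ S).card : ℝ)} with hCdef
  have hC : Convex ℝ C := by
    rintro c ⟨D, hD, hr, hc⟩ c' ⟨D', hD', hr', hc'⟩ s t hs ht hst
    refine ⟨fun a b => s * D a b + t * D' a b,
      fun a b => add_nonneg (mul_nonneg hs (hD a b)) (mul_nonneg ht (hD' a b)),
      fun π hπ => ?_, fun S => ?_⟩
    · calc ∑ e ∈ crossE u v univ π, res u v (fun a b => s * D a b + t * D' a b) e
          ≤ ∑ e ∈ crossE u v univ π, (s * res u v D e + t * res u v D' e) :=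
            Finset.sum_le_sum fun e _ => res_comb u v hD hD' hs ht hst e
        _ = s * ∑ e ∈ crossE u v univ π, res u v D e +
              t * ∑ e ∈ crossE u v univ π, res u v D' e := by
            rw [Finset.sum_add_distrib, Finset.mul_sum, Finset.mul_sum]
        _ ≤ s * (14 / m * (crossE u v univ π).card) + t * (14 / m * (crossE u v univ π).card) :=
            add_le_add (mul_le_mul_of_nonneg_left (hr π hπ) hs)
              (mul_le_mul_of_nonneg_left (hr' π hπ) ht)
        _ = 14 / m * (crossE u v univ π).card := by rw [← add_mul, hst, one_mul]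
    · rw [cutD_comb]
      simp only [Pi.add_apply, Pi.smul_apply, smul_eq_mul, hc, hc']
      have : t = 1 - s := by linarith
      subst this
      ring
  set K0 : ℝ := 200 * ∑ S, ((cutE u v univ S).card : ℝ) +
    8 * m * (Fintype.card E : ℝ) * (Fintype.card E + 1) with hK0
  obtain ⟨T, hT⟩ := exists_nat_gt (max (2 * K0) 0)
  have hT0 : (0 : ℝ) < T := lt_of_le_of_lt (le_max_right _ _) hT
  have hTK : 2 * K0 < T := lt_of_le_of_lt (le_max_left _ _) hT
  obtain ⟨c, ⟨D, hD, hr, hc⟩, hcb⟩ := minimax C hC (1 / 2) (fun μ hμ => by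
    set n : Finset V → ℕ := fun S => ⌈(T : ℝ) * μ S⌉₊ with hn
    obtain ⟨D, hD, hcost, hr⟩ := chain_metric u v (cutMet_isMet n) m hm hpc 𝒦 hch hec
    refine ⟨fun S => cutD D S - 200 * ((cutE u v univ S).card : ℝ), ⟨D, hD, hr, fun S => rfl⟩, ?_⟩
    rw [sum_D_cutMet, sum_edge_cutMet] at hcost
    have h1 : ∑ S, (T : ℝ) * μ S * cutD D S ≤ ∑ S, (n S : ℝ) * cutD D S :=
      Finset.sum_le_sum fun S _ =>
        mul_le_mul_of_nonneg_right (Nat.le_ceil _) (cutD_nonneg hD S)
    have h2 : ∑ S, (n S : ℝ) * ((cutE u v univ S).card : ℝ) ≤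
        ∑ S, ((T : ℝ) * μ S + 1) * ((cutE u v univ S).card : ℝ) :=
      Finset.sum_le_sum fun S _ => mul_le_mul_of_nonneg_right
        (Nat.ceil_lt_add_one (mul_nonneg hT0.le (hμ.1 S))).le (Nat.cast_nonneg _)
    have h3 : (T : ℝ) * ∑ S, μ S * (cutD D S - 200 * ((cutE u v univ S).card : ℝ)) =
        ∑ S, (T : ℝ) * μ S * cutD D S -
          200 * ∑ S, ((T : ℝ) * μ S + 1) * ((cutE u v univ S).card : ℝ) +
          200 * ∑ S, ((cutE u v univ S).card : ℝ) := by
      simp only [Finset.mul_sum, ← Finset.sum_sub_distrib, ← Finset.sum_add_distrib]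
      exact Finset.sum_congr rfl fun S _ => by ring
    have h4 : (T : ℝ) * ∑ S, μ S * (cutD D S - 200 * ((cutE u v univ S).card : ℝ)) ≤
        T * (1 / 2) := by
      rw [h3]; linarith
    exact le_of_mul_le_mul_left h4 hT0) (1 / 2) (by norm_num)
  refine ⟨D, ⟨hD, fun S => ?_⟩, hr⟩
  have := hcb S
  rw [hc] at this
  linarith

end Vale.Agent.P061Z
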