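import Vale.Agent.P061Z.White

/-! # P061: effective resistances -/

namespace Vale.Agent.P061Z

open Finset

variable {V E : Type} [Fintype V] [DecidableEq V] [Fintype E] [DecidableEq E]

namespace Res

omit [Fintype V] [DecidableEq V] [DecidableEq E] in
theorem qE_nonneg (u v : E → V) (x : V → ℝ) : 0 ≤ ∑ e, (x (u e) - x (v e)) ^ 2 :=
  sum_nonneg fun _ _ => sq_nonneg _

omit [DecidableEq V] in
theorem qD_nonneg {D : V → V → ℝ} (hD : ∀ a b, 0 ≤ D a b) (x : V → ℝ) :
    0 ≤ ∑ a, ∑ b, D a b * (x a - x b) ^ 2 :=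
  sum_nonneg fun a _ => sum_nonneg fun b _ => mul_nonneg (hD a b) (sq_nonneg _)

omit [DecidableEq V] in
theorem qI_nonneg (x : V → ℝ) : 0 ≤ (1 / (Fintype.card V : ℝ)) * ∑ a, x a ^ 2 :=
  mul_nonneg (by positivity) (sum_nonneg fun _ _ => sq_nonneg _)

omit [DecidableEq V] [DecidableEq E] in
theorem qB_nonneg (u v : E → V) {D : V → V → ℝ} (hD : ∀ a b, 0 ≤ D a b) (x : V → ℝ) :
    0 ≤ qB u v D x :=
  add_nonneg (add_nonneg (qE_nonneg u v x) (qD_nonneg hD x)) (qI_nonneg x)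

omit [DecidableEq V] [DecidableEq E] in
theorem sumK_le_qB (u v : E → V) {D : V → V → ℝ} (hD : ∀ a b, 0 ≤ D a b) (K : Finset E)
    (x : V → ℝ) : ∑ e ∈ K, (x (u e) - x (v e)) ^ 2 ≤ qB u v D x := by
  have h1 : ∑ e ∈ K, (x (u e) - x (v e)) ^ 2 ≤ ∑ e, (x (u e) - x (v e)) ^ 2 :=
    sum_le_sum_of_subset_of_nonneg (subset_univ _) fun _ _ _ => sq_nonneg _
  have h2 := qD_nonneg hD x
  have h3 := qI_nonneg x
  unfold qB
  linarith

omit [DecidableEq V] [DecidableEq E] in
theorem sq_le_qB (u v : E → V) {D : V → V → ℝ} (hD : ∀ a b, 0 ≤ D a b) (e : E)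
    (x : V → ℝ) : (x (u e) - x (v e)) ^ 2 ≤ qB u v D x := by
  simpa using sumK_le_qB u v hD {e} x

omit [DecidableEq V] [DecidableEq E] in
theorem term_le_qB (u v : E → V) {D : V → V → ℝ} (hD : ∀ a b, 0 ≤ D a b) (a b : V)
    (x : V → ℝ) : D a b * (x a - x b) ^ 2 ≤ qB u v D x := by
  have h1 : D a b * (x a - x b) ^ 2 ≤ ∑ b, D a b * (x a - x b) ^ 2 :=
    single_le_sum (f := fun b => D a b * (x a - x b) ^ 2)
      (fun b _ => mul_nonneg (hD a b) (sq_nonneg _)) (mem_univ b)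
  have h2 : ∑ b, D a b * (x a - x b) ^ 2 ≤ ∑ a, ∑ b, D a b * (x a - x b) ^ 2 :=
    single_le_sum (f := fun a => ∑ b, D a b * (x a - x b) ^ 2)
      (fun a _ => sum_nonneg fun b _ => mul_nonneg (hD a b) (sq_nonneg _)) (mem_univ a)
  have h3 := qE_nonneg u v x
  have h4 := qI_nonneg x
  unfold qB
  linarith

omit [DecidableEq V] [DecidableEq E] in
theorem sumsq_le_qB (u v : E → V) {D : V → V → ℝ} (hD : ∀ a b, 0 ≤ D a b) (x : V → ℝ) :
    ∑ a, x a ^ 2 ≤ (Fintype.card V : ℝ) * qB u v D x := by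
  rcases Nat.eq_zero_or_pos (Fintype.card V) with h | h
  · have : IsEmpty V := Fintype.card_eq_zero_iff.1 h
    simp
  · have hn : (0 : ℝ) < Fintype.card V := by exact_mod_cast h
    have h1 : (1 / (Fintype.card V : ℝ)) * ∑ a, x a ^ 2 ≤ qB u v D x := by
      have h2 := qD_nonneg hD x
      have h3 := qE_nonneg u v x
      unfold qB
      linarith
    have h2 := mul_le_mul_of_nonneg_left h1 hn.le
    rwa [← mul_assoc, mul_one_div_cancel hn.ne', one_mul] at h2

omit [DecidableEq V] [DecidableEq E] in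
theorem qB_smul (u v : E → V) (D : V → V → ℝ) (s : ℝ) (x : V → ℝ) :
    qB u v D (fun a => s * x a) = s ^ 2 * qB u v D x := by
  unfold qB
  simp only [mul_add, mul_sum]
  refine congrArg₂ (· + ·) (congrArg₂ (· + ·) ?_ ?_) ?_
  · exact sum_congr rfl fun _ _ => by ring
  · exact sum_congr rfl fun _ _ => sum_congr rfl fun _ _ => by ring
  · exact sum_congr rfl fun _ _ => by ring

omit [DecidableEq V] [DecidableEq E] in
theorem le_of_sq (u v : E → V) {D : V → V → ℝ} (hD : ∀ a b, 0 ≤ D a b) (e : E) {ρ : ℝ}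
    (hρ : 0 ≤ ρ) (x : V → ℝ) (h : (x (u e) - x (v e)) ^ 2 ≤ ρ * qB u v D x) :
    2 * (x (u e) - x (v e)) - qB u v D x ≤ ρ := by
  have hq := qB_nonneg u v hD x
  have h1 : (2 * (x (u e) - x (v e))) ^ 2 ≤ (ρ + qB u v D x) ^ 2 := by
    nlinarith [sq_nonneg (ρ - qB u v D x)]
  have h2 := abs_le_of_sq_le_sq' h1 (add_nonneg hρ hq)
  linarith [h2.2]

omit [DecidableEq V] [DecidableEq E] in
theorem bdd (u v : E → V) {D : V → V → ℝ} (hD : ∀ a b, 0 ≤ D a b) (e : E) :
    BddAbove (Set.range fun x : V → ℝ => 2 * (x (u e) - x (v e)) - qB u v D x) := by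
  refine ⟨1, ?_⟩
  rintro _ ⟨x, rfl⟩
  exact le_of_sq u v hD e zero_le_one x (by rw [one_mul]; exact sq_le_qB u v hD e x)

omit [DecidableEq V] [DecidableEq E] in
theorem le_res (u v : E → V) {D : V → V → ℝ} (hD : ∀ a b, 0 ≤ D a b) (e : E) (x : V → ℝ) :
    2 * (x (u e) - x (v e)) - qB u v D x ≤ res u v D e :=
  le_ciSup (bdd u v hD e) x

omit [DecidableEq V] [DecidableEq E] in
/-- A bound on the square of the edge functional bounds the resistance. -/
theorem res_le_of_sq (u v : E → V) {D : V → V → ℝ} (hD : ∀ a b, 0 ≤ D a b) (e : E) {ρ : ℝ}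
    (hρ : 0 ≤ ρ) (h : ∀ x : V → ℝ, (x (u e) - x (v e)) ^ 2 ≤ ρ * qB u v D x) :
    res u v D e ≤ ρ :=
  ciSup_le fun x => le_of_sq u v hD e hρ x (h x)

omit [DecidableEq V] [DecidableEq E] in
theorem qB_sum (u v : E → V) {I : Type} [Fintype I] (D : I → V → V → ℝ) (t : I → ℝ)
    (x : V → ℝ) :
    qB u v (fun a b => ∑ i, t i * D i a b) x =
      ∑ e, (x (u e) - x (v e)) ^ 2 + ∑ i, t i * (∑ a, ∑ b, D i a b * (x a - x b) ^ 2) +
        (1 / (Fintype.card V : ℝ)) * ∑ a, x a ^ 2 := by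
  unfold qB
  refine congrArg₂ (· + ·) (congrArg₂ (· + ·) rfl ?_) rfl
  calc ∑ a, ∑ b, (∑ i, t i * D i a b) * (x a - x b) ^ 2
      = ∑ a, ∑ b, ∑ i, t i * (D i a b * (x a - x b) ^ 2) := by
        refine sum_congr rfl fun a _ => sum_congr rfl fun b _ => ?_
        rw [sum_mul]
        exact sum_congr rfl fun _ _ => by ring
    _ = ∑ a, ∑ i, ∑ b, t i * (D i a b * (x a - x b) ^ 2) :=
        sum_congr rfl fun a _ => sum_comm
    _ = ∑ i, ∑ a, ∑ b, t i * (D i a b * (x a - x b) ^ 2) := sum_comm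
    _ = _ := by
        refine sum_congr rfl fun i _ => ?_
        rw [mul_sum]
        exact sum_congr rfl fun a _ => by rw [mul_sum]

omit [DecidableEq V] in
theorem qD_le {D : V → V → ℝ} (hD : ∀ a b, 0 ≤ D a b) (x : V → ℝ) :
    ∑ a, ∑ b, D a b * (x a - x b) ^ 2 ≤ (4 * ∑ a, ∑ b, D a b) * ∑ a, x a ^ 2 := by
  have h1 : ∀ a, x a ^ 2 ≤ ∑ a, x a ^ 2 := fun a =>
    single_le_sum (f := fun a => x a ^ 2) (fun _ _ => sq_nonneg _) (mem_univ a)
  generalize ∑ a, x a ^ 2 = y at h1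
  rw [mul_sum, sum_mul]
  refine sum_le_sum fun a _ => ?_
  rw [mul_sum, sum_mul]
  refine sum_le_sum fun b _ => ?_
  have h2 : (x a - x b) ^ 2 ≤ 4 * y := by
    nlinarith [h1 a, h1 b, sq_nonneg (x a + x b)]
  calc D a b * (x a - x b) ^ 2 ≤ D a b * (4 * y) :=
        mul_le_mul_of_nonneg_left h2 (hD a b)
    _ = _ := by ring

omit [Fintype V] [DecidableEq V] in
theorem mix_nonneg {I : Type} [Fintype I] {D : I → V → V → ℝ} (hD : ∀ i a b, 0 ≤ D i a b)
    {t : I → ℝ} (ht : t ∈ stdSimplex ℝ I) (a b : V) : 0 ≤ ∑ i, t i * D i a b :=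
  sum_nonneg fun i _ => mul_nonneg (ht.1 i) (hD i a b)

end Res

open Res

theorem qB_isPD (u v : E → V) {D : V → V → ℝ} (hD : ∀ a b, 0 ≤ D a b) : IsPD (qB u v D) := by
  refine isPD_of_sq (J := (E ⊕ V × V) ⊕ V) univ
    (Sum.elim (Sum.elim (fun _ => 1) fun p => D p.1 p.2) fun _ => 1 / (Fintype.card V : ℝ)) ?_
    (Sum.elim (Sum.elim (bE u v) (bE Prod.fst Prod.snd)) fun a => LinearMap.proj a) _ ?_ ?_
  · rintro ((e | p) | a) _
    · exact zero_le_one
    · exact hD _ _
    · simp only [Sum.elim_inr]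
      positivity
  · intro x
    rw [Fintype.sum_sum_type, Fintype.sum_sum_type, Fintype.sum_prod_type]
    simp only [Sum.elim_inl, Sum.elim_inr, bE_apply, one_mul, LinearMap.proj_apply]
    unfold qB
    rw [mul_sum]
  · intro x hx
    have h := sumsq_le_qB u v hD x
    rw [hx, mul_zero] at h
    funext a
    have h1 : x a ^ 2 ≤ ∑ a, x a ^ 2 :=
      single_le_sum (f := fun a => x a ^ 2) (fun _ _ => sq_nonneg _) (mem_univ a)
    exact pow_eq_zero_iff (two_ne_zero) |>.1 (le_antisymm (h1.trans h) (sq_nonneg _))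

theorem res_nonneg (u v : E → V) {D : V → V → ℝ} (hD : ∀ a b, 0 ≤ D a b) (e : E) :
    0 ≤ res u v D e := by
  have h := le_res u v hD e (fun _ => 0)
  have h0 : qB u v D (fun _ => 0) = 0 := by simp [qB]
  rw [h0] at h
  simpa using h

theorem res_le_one (u v : E → V) {D : V → V → ℝ} (hD : ∀ a b, 0 ≤ D a b) (e : E) :
    res u v D e ≤ 1 :=
  res_le_of_sq u v hD e zero_le_one fun x => by rw [one_mul]; exact sq_le_qB u v hD e x

theorem sq_le_res (u v : E → V) {D : V → V → ℝ} (hD : ∀ a b, 0 ≤ D a b) (e : E) (x : V → ℝ) :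
    (x (u e) - x (v e)) ^ 2 ≤ res u v D e * qB u v D x := by
  have hq := qB_nonneg u v hD x
  have hb := sq_le_qB u v hD e x
  rcases hq.eq_or_lt with h | h
  · rw [← h] at hb ⊢
    simpa using hb
  · have h1 := le_res u v hD e (fun a => (x (u e) - x (v e)) / qB u v D x * x a)
    rw [qB_smul] at h1
    have h2 : 2 * ((x (u e) - x (v e)) / qB u v D x * x (u e) -
        (x (u e) - x (v e)) / qB u v D x * x (v e)) -
        ((x (u e) - x (v e)) / qB u v D x) ^ 2 * qB u v D x =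
        (x (u e) - x (v e)) ^ 2 / qB u v D x := by
      field_simp
      ring
    rw [h2, div_le_iff₀ h] at h1
    exact h1

theorem res_convex (u v : E → V) {I : Type} [Fintype I] (D : I → V → V → ℝ)
    (hD : ∀ i a b, 0 ≤ D i a b) {t : I → ℝ} (ht : t ∈ stdSimplex ℝ I) (e : E) :
    res u v (fun a b => ∑ i, t i * D i a b) e ≤ ∑ i, t i * res u v (D i) e := by
  refine ciSup_le fun x => ?_
  have h1 : 2 * (x (u e) - x (v e)) - qB u v (fun a b => ∑ i, t i * D i a b) x =
      ∑ i, t i * (2 * (x (u e) - x (v e)) - qB u v (D i) x) := by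
    rw [qB_sum]
    unfold qB
    simp only [mul_sub (t _), mul_add (t _), sum_sub_distrib, sum_add_distrib, ← sum_mul, ht.2,
      one_mul]
  rw [h1]
  exact sum_le_sum fun i _ => mul_le_mul_of_nonneg_left (le_res u v (hD i) e x) (ht.1 i)

theorem res_continuousOn (u v : E → V) {I : Type} [Fintype I] (D : I → V → V → ℝ)
    (hD : ∀ i a b, 0 ≤ D i a b) (e : E) :
    ContinuousOn (fun t : I → ℝ => res u v (fun a b => ∑ i, t i * D i a b) e)
      (stdSimplex ℝ I) := by
  set C : ℝ := ∑ i, (4 * ∑ a, ∑ b, D i a b) * (Fintype.card V : ℝ) with hC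
  have hC0 : 0 ≤ C := sum_nonneg fun i _ => mul_nonneg
    (mul_nonneg (by norm_num) (sum_nonneg fun a _ => sum_nonneg fun b _ => hD i a b))
    (Nat.cast_nonneg _)
  have key : ∀ t ∈ stdSimplex ℝ I, ∀ t' ∈ stdSimplex ℝ I,
      res u v (fun a b => ∑ i, t' i * D i a b) e ≤
        res u v (fun a b => ∑ i, t i * D i a b) e + C * dist t' t := by
    intro t ht t' ht'
    have hDt := mix_nonneg hD ht
    have hDt' := mix_nonneg hD ht'
    have hr0 := res_nonneg u v hDt e
    have hr1 := res_le_one u v hDt e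
    have hd : 0 ≤ C * dist t' t := mul_nonneg hC0 dist_nonneg
    refine res_le_of_sq u v hDt' e (add_nonneg hr0 hd) fun x => ?_
    have hq' := qB_nonneg u v hDt' x
    have h1 : qB u v (fun a b => ∑ i, t i * D i a b) x ≤
        qB u v (fun a b => ∑ i, t' i * D i a b) x +
          C * dist t' t * qB u v (fun a b => ∑ i, t' i * D i a b) x := by
      have h2 : ∀ i, t i * (∑ a, ∑ b, D i a b * (x a - x b) ^ 2) ≤
          t' i * (∑ a, ∑ b, D i a b * (x a - x b) ^ 2) +
            (4 * ∑ a, ∑ b, D i a b) * (Fintype.card V : ℝ) * dist t' t *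
              qB u v (fun a b => ∑ i, t' i * D i a b) x := by
        intro i
        have h3 : t i - t' i ≤ dist t' t := by
          have h4 := dist_le_pi_dist t' t i
          rw [Real.dist_eq, abs_le] at h4
          linarith [h4.1]
        have h4 := qD_nonneg (hD i) x
        have h5 := qD_le (hD i) x
        have h6 := sumsq_le_qB u v hDt' x
        have h7 : 0 ≤ 4 * ∑ a, ∑ b, D i a b :=
          mul_nonneg (by norm_num) (sum_nonneg fun a _ => sum_nonneg fun b _ => hD i a b)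
        have h8 := h5.trans (mul_le_mul_of_nonneg_left h6 h7)
        have h9 := mul_le_mul h3 h8 h4 dist_nonneg
        nlinarith
      have h3 := sum_le_sum fun i (_ : i ∈ (univ : Finset I)) => h2 i
      rw [sum_add_distrib, ← sum_mul, ← sum_mul, ← hC] at h3
      have h4 := qB_sum u v D t x
      have h5 := qB_sum u v D t' x
      linarith
    have h2 := sq_le_res u v hDt e x
    have h3 := mul_le_mul_of_nonneg_left h1 hr0
    have h4 := mul_le_mul_of_nonneg_right hr1 (mul_nonneg hd hq')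
    nlinarith
  refine (LipschitzOnWith.of_le_add_mul ⟨C, hC0⟩ fun t' ht' t ht => ?_).continuousOn
  exact key t ht t' ht'

/-- If both ends of each edge of `K` are tied to `Z` by weight `L`, the resistances of `K` sum to
at most `|Z| + 4 |K| / L`. -/
theorem res_trace (u v : E → V) {D : V → V → ℝ} (hD : ∀ a b, 0 ≤ D a b) (K : Finset E)
    (Z : Finset V) (L : ℝ) (hL : 0 < L)
    (h : ∀ e ∈ K, (∃ z ∈ Z, L ≤ D (u e) z) ∧ ∃ z ∈ Z, L ≤ D (v e) z) :
    ∑ e ∈ K, res u v D e ≤ Z.card + 4 / L * K.card := by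
  set p : (V → ℝ) →ₗ[ℝ] (Z → ℝ) := LinearMap.funLeft ℝ ℝ (Subtype.val : Z → V) with hp
  have hker : ∀ x ∈ LinearMap.ker p, ∀ z ∈ Z, x z = 0 := fun x hx z hz =>
    congrFun (LinearMap.mem_ker.1 hx) ⟨z, hz⟩
  have hend : ∀ x ∈ LinearMap.ker p, ∀ a, (∃ z ∈ Z, L ≤ D a z) → L * x a ^ 2 ≤ qB u v D x := by
    rintro x hx a ⟨z, hz, hLz⟩
    have h1 := term_le_qB u v hD a z x
    rw [hker x hx z hz, sub_zero] at h1
    exact (mul_le_mul_of_nonneg_right hLz (sq_nonneg _)).trans h1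
  obtain ⟨ρ, hρ0, hρ, hsum⟩ := trace_bound K (qB_isPD u v hD) (bE u v)
    (fun x => sumK_le_qB u v hD K x) (LinearMap.ker p) (4 / L) (by positivity) (by
      intro e he x hx
      have h1 := hend x hx _ (h e he).1
      have h2 := hend x hx _ (h e he).2
      rw [bE_apply, div_mul_eq_mul_div, le_div_iff₀ hL]
      nlinarith [mul_nonneg hL.le (sq_nonneg (x (u e) + x (v e)))])
  have hrank : (Fintype.card V : ℝ) - Module.finrank ℝ (LinearMap.ker p) ≤ Z.card := by
    have h1 := LinearMap.finrank_range_add_finrank_ker p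
    have h2 : Module.finrank ℝ (LinearMap.range p) ≤ Module.finrank ℝ (Z → ℝ) :=
      Submodule.finrank_le _
    rw [Module.finrank_fintype_fun_eq_card] at h1 h2
    rw [Fintype.card_coe] at h2
    have h3 : Fintype.card V ≤ Z.card + Module.finrank ℝ (LinearMap.ker p) := by omega
    have h4 : (Fintype.card V : ℝ) ≤ Z.card + Module.finrank ℝ (LinearMap.ker p) := by
      exact_mod_cast h3
    linarith
  have h1 : ∑ e ∈ K, res u v D e ≤ ∑ e ∈ K, ρ e :=
    sum_le_sum fun e he => res_le_of_sq u v hD e (hρ0 e) fun x => hρ e he x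
  linarith

/-- The form on an indicator vector. -/
theorem qB_indicator (u v : E → V) (D : V → V → ℝ) (S : Finset V) :
    qB u v D (fun a => if a ∈ S then 1 else 0) ≤ (cutE u v univ S).card + cutD D S + 1 := by
  have hsq : ∀ a b : V, ((if a ∈ S then (1 : ℝ) else 0) - (if b ∈ S then 1 else 0)) ^ 2 =
      if Sep S a b then 1 else 0 := by
    intro a b
    unfold Sep
    by_cases ha : a ∈ S <;> by_cases hb : b ∈ S <;> simp [ha, hb]
  unfold qB cutD cutE
  simp only [hsq]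
  have h1 : ∑ e, (if Sep S (u e) (v e) then (1 : ℝ) else 0) =
      ((univ.filter fun e => Sep S (u e) (v e)).card : ℝ) := by
    rw [sum_boole]
  have h2 : ∑ a, ∑ b, D a b * (if Sep S a b then (1 : ℝ) else 0) =
      ∑ a, ∑ b, if Sep S a b then D a b else 0 :=
    sum_congr rfl fun a _ => sum_congr rfl fun b _ => by split_ifs <;> simp
  have h3 : (1 / (Fintype.card V : ℝ)) * ∑ a : V, (if a ∈ S then (1 : ℝ) else 0) ^ 2 ≤ 1 := by
    have h4 : ∑ a : V, (if a ∈ S then (1 : ℝ) else 0) ^ 2 ≤ Fintype.card V := by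
      calc ∑ a : V, (if a ∈ S then (1 : ℝ) else 0) ^ 2 ≤ ∑ _a : V, (1 : ℝ) :=
            sum_le_sum fun a _ => by split_ifs <;> norm_num
        _ = _ := by simp
    rw [one_div, inv_mul_eq_div]
    exact div_le_one_of_le₀ h4 (Nat.cast_nonneg _)
  rw [h1, h2]
  linarith

end Vale.Agent.P061Z
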