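import Vale.Agent.P061Z.Level
import Vale.Agent.P061Z.Res

/-! # P061: one weighting for a chain of partitions, against a fixed metric -/

namespace Vale.Agent.P061Z

open Finset

variable {V E : Type} [Fintype V] [DecidableEq V] [Fintype E] [DecidableEq E]

namespace ChainD

theorem exists_least {α : Type} (r : α → α → Prop) (htr : ∀ a b c, r a b → r b c → r a c)
    (s : Finset α) (hne : s.Nonempty) (h : ∀ a ∈ s, ∀ b ∈ s, r a b ∨ r b a) :
    ∃ x ∈ s, ∀ y ∈ s, r x y := by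
  induction hne using Finset.Nonempty.cons_induction with
  | singleton a =>
    refine ⟨a, mem_singleton_self a, fun y hy => ?_⟩
    rw [mem_singleton.1 hy]
    exact (or_self_iff).1 (h a (mem_singleton_self a) a (mem_singleton_self a))
  | cons a s ha hs ih =>
    obtain ⟨x, hx, hx'⟩ := ih fun b hb c hc => h b (mem_cons_of_mem hb) c (mem_cons_of_mem hc)
    rcases h a (mem_cons_self _ _) x (mem_cons_of_mem hx) with h1 | h1
    · refine ⟨a, mem_cons_self _ _, fun y hy => ?_⟩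
      rcases mem_cons.1 hy with rfl | hy
      · exact (or_self_iff).1 (h y (mem_cons_self _ _) y (mem_cons_self _ _))
      · exact htr _ _ _ h1 (hx' y hy)
    · refine ⟨x, mem_cons_of_mem hx, fun y hy => ?_⟩
      rcases mem_cons.1 hy with rfl | hy
      · exact h1
      · exact hx' y hy

omit [DecidableEq V] in
theorem two_le_nparts {π : V → ℕ} {a b : V} (h : π a ≠ π b) : 2 ≤ nparts π :=
  one_lt_card.2 ⟨_, mem_image_of_mem π (mem_univ a), _, mem_image_of_mem π (mem_univ b), h⟩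

omit [DecidableEq E] in
theorem partsEC_top {u v : E → V} {κ : ℝ} (hκ : 0 ≤ κ) (hpc : PC u v univ κ) :
    PartsEC u v (fun _ => 0) κ := by
  intro S a b _ ha hb
  have h1 := hpc fun x => if x ∈ S then 1 else 0
  have h2 : (2 : ℝ) ≤ nparts fun x => if x ∈ S then 1 else 0 := by
    exact_mod_cast two_le_nparts (a := a) (b := b) (by simp [ha, hb])
  refine le_trans (by nlinarith) (h1.trans (Nat.cast_le.2 (card_le_card fun e he => ?_)))
  simp only [crossE, mem_filter, mem_univ, true_and, Sep] at he ⊢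
  intro h
  exact he (by simp only [h])

theorem pow_four_le {m : ℕ} (hm : 16 ≤ m) : m ^ 4 ≤ 2 ^ m := by
  induction m, hm using Nat.le_induction with
  | base => norm_num
  | succ n hn ih =>
    have h1 : 16 * n ^ 3 ≤ n ^ 4 := by rw [pow_succ' n 3]; exact Nat.mul_le_mul_right _ hn
    have h2 : n ^ 2 ≤ n ^ 3 := Nat.pow_le_pow_right (by omega) (by omega)
    have h3 : n ≤ n ^ 2 := Nat.le_self_pow (by omega) n
    calc (n + 1) ^ 4 = n ^ 4 + 4 * n ^ 3 + 6 * n ^ 2 + 4 * n + 1 := by ring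
      _ ≤ 2 ^ (n + 1) := by rw [pow_succ 2 n]; omega

theorem arith {m N N' p σ l R Z dr k : ℝ} (hm : 16 ≤ m) (hN : 0 < N) (hσ : 0 ≤ σ)
    (hN' : m ^ 4 * N' ≤ N) (hp : m ^ 4 * p ≤ 2 * N)
    (hl1 : m ^ 4 * σ * m / N + 1 ≤ l) (hl2 : l ≤ m ^ 4 * σ * m / N + 2)
    (hR1 : 43 * σ * m ^ 2 / N + 1 ≤ R) (hk : k ≤ N)
    (h1 : l * dr ≤ m ^ 4 * σ + l * N')
    (h2 : R * Z ≤ R * p + 3 * σ + (2 * l + 12 * R + 1) * (2 * p + 16 * N')) :
    Z + 4 / m * k + dr ≤ 7 / m * N := by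
  have hm0 : 0 < m := by linarith
  have hκ : 0 < m ^ 4 := by positivity
  obtain ⟨t, ht⟩ : ∃ t, t = N / m ^ 4 := ⟨_, rfl⟩
  obtain ⟨s, hs⟩ : ∃ s, s = N / m := ⟨_, rfl⟩
  have ht0 : 0 < t := by rw [ht]; positivity
  have hs0 : 0 < s := by rw [hs]; positivity
  have a1 : N' ≤ t := by rw [ht, le_div_iff₀' hκ]; exact hN'
  have a2 : p ≤ 2 * t := by rw [ht, ← mul_div_assoc, le_div_iff₀' hκ]; exact hp
  have a3 : 0 ≤ m ^ 4 * σ * m / N := by positivity
  have a4 : 0 ≤ 43 * σ * m ^ 2 / N := by positivity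
  have a5 : m ^ 4 * σ * m / N * s = m ^ 4 * σ := by rw [hs]; field_simp
  have a6 : m ^ 4 * σ * m / N * t = σ * m := by rw [ht]; field_simp
  have a7 : 43 * σ * m ^ 2 / N * s = 43 * (σ * m) := by rw [hs]; field_simp
  have a8 : 343 * t ≤ s := by
    have e : s = m ^ 3 * t := by rw [hs, ht]; field_simp
    have : (16 : ℝ) ^ 3 ≤ m ^ 3 := by gcongr
    rw [e]
    exact mul_le_mul_of_nonneg_right (by linarith) ht0.le
  have b1 : dr ≤ s + t := by
    refine le_of_mul_le_mul_left ?_ (show 0 < l by linarith)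
    have c1 : m ^ 4 * σ * m / N * s ≤ l * s := mul_le_mul_of_nonneg_right (by linarith) hs0.le
    have c2 : l * N' ≤ l * t := mul_le_mul_of_nonneg_left a1 (by linarith)
    linarith
  have b2 : Z ≤ s + 342 * t := by
    refine le_of_mul_le_mul_left ?_ (show 0 < R by linarith)
    have c1 : 43 * σ * m ^ 2 / N * s ≤ R * s := mul_le_mul_of_nonneg_right (by linarith) hs0.le
    have c2 : R * p ≤ R * (2 * t) := mul_le_mul_of_nonneg_left a2 (by linarith)
    have c3 : (2 * l + 12 * R + 1) * (2 * p + 16 * N') ≤ (2 * l + 12 * R + 1) * (20 * t) :=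
      mul_le_mul_of_nonneg_left (by linarith) (by linarith)
    have c4 : l * t ≤ (m ^ 4 * σ * m / N + 2) * t := mul_le_mul_of_nonneg_right hl2 ht0.le
    have c5 : 1 * t ≤ R * t := mul_le_mul_of_nonneg_right (by linarith) ht0.le
    have c6 : σ * 1 ≤ σ * m := mul_le_mul_of_nonneg_left (by linarith) hσ
    linarith
  have b3 : 4 / m * k ≤ 4 * s := by
    rw [hs, ← mul_div_assoc, div_mul_eq_mul_div]
    gcongr
  have b4 : 7 / m * N = 7 * s := by rw [hs]; ring
  linarith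

theorem step (u v : E → V) {d : V → V → ℕ} (hd : IsMet d) {m : ℕ} (hm : 16 ≤ m)
    (hpc : PC u v univ ((m : ℝ) ^ 4)) {π π' : V → ℕ} (href : Ref π π')
    (hec : PartsEC u v π' ((m ^ 4 : ℕ) : ℝ)) (hN : 0 < (crossE u v univ π).card)
    (hN' : m ^ 4 * (crossE u v univ π').card ≤ (crossE u v univ π).card) :
    ∃ D₀ : V → V → ℝ, (∀ a b, 0 ≤ D₀ a b) ∧
      ∑ a, ∑ b, D₀ a b * d a b ≤
        172 * m ^ 3 * (Psi u v d (m ^ 4) π - Psi u v d (m ^ 4) π') + 8 * m * Fintype.card E ∧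
      ∀ D : V → V → ℝ, (∀ a b, D₀ a b ≤ D a b) →
        ∑ e ∈ crossE u v univ π, res u v D e ≤ 7 / m * (crossE u v univ π).card := by
  have hm' : (16 : ℝ) ≤ m := by exact_mod_cast hm
  have hm0 : (0 : ℝ) < m := by linarith
  obtain ⟨N, hNe⟩ : ∃ N : ℝ, N = (crossE u v univ π).card := ⟨_, rfl⟩
  obtain ⟨σ, hσe⟩ : ∃ σ, σ = Psi u v d (m ^ 4) π - Psi u v d (m ^ 4) π' := ⟨_, rfl⟩
  have hN0 : 0 < N := by rw [hNe]; exact_mod_cast hN
  obtain ⟨h0, K, Z, hK, hZ, h1, h2⟩ := level u v hd (m ^ 4) (by positivity) href hec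
    (⌈(m : ℝ) ^ 4 * σ * m / N⌉₊ + 1) (⌈43 * σ * (m : ℝ) ^ 2 / N⌉₊ + 1) (Nat.succ_pos _)
  rw [← hσe] at h1 h2 ⊢
  have hσ : 0 ≤ σ := by rw [hσe]; exact sub_nonneg.2 h0
  obtain ⟨R, hR⟩ : ∃ R, R = ⌈43 * σ * (m : ℝ) ^ 2 / N⌉₊ + 1 := ⟨_, rfl⟩
  rw [← hR] at hZ h2
  have hR1 : 43 * σ * (m : ℝ) ^ 2 / N + 1 ≤ R := by
    rw [hR, Nat.cast_succ]
    exact add_le_add_left (Nat.le_ceil _) _
  have hR2 : (R : ℝ) ≤ 43 * σ * (m : ℝ) ^ 2 / N + 2 := by
    have := Nat.ceil_lt_add_one (show 0 ≤ 43 * σ * (m : ℝ) ^ 2 / N by positivity)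
    rw [hR, Nat.cast_succ]
    linarith
  have hKN : (K.card : ℝ) ≤ N := by rw [hNe]; exact_mod_cast card_le_card hK
  have hNE : N ≤ Fintype.card E := by rw [hNe]; exact_mod_cast card_le_univ _
  have hp : (m : ℝ) ^ 4 * nparts π ≤ 2 * N := by
    obtain ⟨e, he⟩ := card_pos.1 hN
    have h3 : (2 : ℝ) ≤ nparts π := by exact_mod_cast two_le_nparts (mem_filter.1 he).2
    have h4 := hpc π
    have h5 : (0 : ℝ) < (m : ℝ) ^ 4 := by positivity
    rw [← hNe] at h4
    nlinarith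
  have : Nonempty V := ⟨u (card_pos.1 hN).choose⟩
  choose! zu hzu hdu using fun e he => (hZ e he).1
  choose! zv hzv hdv using fun e he => (hZ e he).2
  have hnn : ∀ (a b x y : V), (0 : ℝ) ≤ if a = x then if b = y then (m : ℝ) else 0 else 0 :=
    fun a b x y => by split_ifs <;> positivity
  have hD₀ : ∀ a b : V, (0 : ℝ) ≤ ∑ e ∈ K, ((if a = u e then if b = zu e then (m : ℝ) else 0 else 0) +
      if a = v e then if b = zv e then (m : ℝ) else 0 else 0) :=
    fun a b => sum_nonneg fun e _ => add_nonneg (hnn _ _ _ _) (hnn _ _ _ _)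
  refine ⟨fun a b => ∑ e ∈ K, ((if a = u e then if b = zu e then (m : ℝ) else 0 else 0) +
    if a = v e then if b = zv e then (m : ℝ) else 0 else 0), hD₀, ?_, fun D hD => ?_⟩
  · calc _ = ∑ e ∈ K, ((m : ℝ) * d (u e) (zu e) + m * d (v e) (zv e)) := by
          simp only [sum_mul]
          rw [sum_congr rfl fun a _ => sum_comm, sum_comm]
          refine sum_congr rfl fun e _ => ?_
          simp [add_mul, sum_add_distrib, ite_mul]
      _ ≤ K.card * (m * (4 * R)) := by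
          rw [← nsmul_eq_mul]
          refine sum_le_card_nsmul _ _ _ fun e he => ?_
          have h3 : (d (u e) (zu e) : ℝ) ≤ 2 * R := by exact_mod_cast (hdu e he).le
          have h4 : (d (v e) (zv e) : ℝ) ≤ 2 * R := by exact_mod_cast (hdv e he).le
          rw [← mul_add]
          exact mul_le_mul_of_nonneg_left (by linarith) hm0.le
      _ ≤ N * (m * (4 * (43 * σ * (m : ℝ) ^ 2 / N + 2))) := by gcongr
      _ = 172 * m ^ 3 * σ + 8 * m * N := by field_simp; ring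
      _ ≤ _ := by gcongr
  · have hD' : ∀ a b, 0 ≤ D a b := fun a b => (hD₀ a b).trans (hD a b)
    have h3 := res_trace u v hD' K Z m hm0 fun e he => by
      refine ⟨⟨zu e, hzu e he, le_trans ?_ (hD _ _)⟩, zv e, hzv e he, le_trans ?_ (hD _ _)⟩
      · refine le_trans ?_ (single_le_sum
          (fun e _ => add_nonneg (hnn _ _ (u e) (zu e)) (hnn _ _ (v e) (zv e))) he)
        rw [if_pos rfl, if_pos rfl]
        exact le_add_of_nonneg_right (hnn _ _ _ _)
      · refine le_trans ?_ (single_le_sum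
          (fun e _ => add_nonneg (hnn _ _ (u e) (zu e)) (hnn _ _ (v e) (zv e))) he)
        rw [if_pos (rfl : v e = v e), if_pos (rfl : zv e = zv e)]
        exact le_add_of_nonneg_left (hnn _ _ _ _)
    have h4 : ∑ e ∈ crossE u v univ π \ K, res u v D e ≤ (crossE u v univ π \ K).card := by
      simpa using sum_le_card_nsmul _ _ (1 : ℝ) fun e (_ : e ∈ crossE u v univ π \ K) =>
        res_le_one u v hD' e
    have h5 := Nat.ceil_lt_add_one (show 0 ≤ (m : ℝ) ^ 4 * σ * m / N by positivity)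
    have h6 := Nat.le_ceil ((m : ℝ) ^ 4 * σ * m / N)
    have h7 : (m : ℝ) ^ 4 * (crossE u v univ π').card ≤ N := by
      rw [hNe]; exact_mod_cast hN'
    rw [Nat.cast_pow] at h1
    have h8 := arith hm' hN0 hσ h7 hp (by rw [Nat.cast_succ]; linarith)
      (by rw [Nat.cast_succ]; linarith) hR1 hKN h1 h2
    rw [← sum_sdiff hK, ← hNe]
    linarith

end ChainD

open ChainD in
theorem chain_metric (u v : E → V) {d : V → V → ℕ} (hd : IsMet d) (m : ℕ) (hm : 16 ≤ m)
    (hpc : PC u v univ ((m : ℝ) ^ 4)) (𝒦 : Finset (V → ℕ))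
    (hch : ∀ π ∈ 𝒦, ∀ π' ∈ 𝒦, Ref π π' ∨ Ref π' π)
    (hec : ∀ π ∈ 𝒦, PartsEC u v π ((m : ℝ) ^ 4)) :
    ∃ D : V → V → ℝ, (∀ a b, 0 ≤ D a b) ∧
      ∑ a, ∑ b, D a b * d a b ≤ 200 * ∑ e, (d (u e) (v e) : ℝ) +
        8 * m * (Fintype.card E : ℝ) * (Fintype.card E + 1) ∧
      ∀ π ∈ 𝒦, ∑ e ∈ crossE u v univ π, res u v D e ≤ 14 / m * (crossE u v univ π).card := by
  have hm' : (16 : ℝ) ≤ m := by exact_mod_cast hm
  have hm0 : (0 : ℝ) < m := by linarith
  have hκ : 0 < m ^ 4 := by positivity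
  have htop : (crossE u v univ fun _ => 0).card = 0 := by simp [crossE]
  have hec' : ∀ π ∈ insert (fun _ => 0) 𝒦, PartsEC u v π ((m ^ 4 : ℕ) : ℝ) := by
    intro π hπ
    rw [Nat.cast_pow]
    rcases mem_insert.1 hπ with rfl | h
    · exact partsEC_top (by positivity) hpc
    · exact hec π h
  have hQ := fun g : ℕ => exists_least (Ref (V := V)) (fun _ _ _ h h' a b e => h' a b (h a b e))
    ((insert (fun _ => 0) 𝒦).filter fun π => (crossE u v univ π).card < 2 ^ (g + 1))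
    ⟨_, mem_filter.2 ⟨mem_insert_self _ _, htop.trans_lt (Nat.two_pow_pos _)⟩⟩ fun π h π' h' => by
      rcases mem_insert.1 (mem_filter.1 h).1 with rfl | h1
      · exact Or.inr fun _ _ _ => rfl
      rcases mem_insert.1 (mem_filter.1 h').1 with rfl | h2
      · exact Or.inl fun _ _ _ => rfl
      exact hch π h1 π' h2
  choose Q hQ1 hQ2 using hQ
  simp only [mem_filter] at hQ1 hQ2
  obtain ⟨Q', hQ'⟩ : ∃ Q' : ℕ → V → ℕ, ∀ g, Q' g = if m + 1 ≤ g then Q (g - (m + 1)) else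
    fun _ => 0 := ⟨_, fun _ => rfl⟩
  have hQ'1 : ∀ g, Q' g ∈ insert (fun _ => 0) 𝒦 := fun g => by
    rw [hQ']
    split_ifs
    · exact (hQ1 _).1
    · exact mem_insert_self _ _
  have hQ'2 : ∀ g, 2 ^ m * (crossE u v univ (Q' g)).card ≤ 2 ^ g := fun g => by
    rw [hQ']
    split_ifs with h
    · refine (Nat.mul_le_mul_left _ (hQ1 _).2.le).trans (le_of_eq ?_)
      rw [← pow_add]
      congr 1
      omega
    · rw [htop]
      exact Nat.zero_le _
  have href : ∀ g, Ref (Q g) (Q' g) := fun g => hQ2 g _ ⟨hQ'1 g,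
    ((Nat.le_mul_of_pos_left _ (Nat.two_pow_pos m)).trans (hQ'2 g)).trans_lt
      (Nat.pow_lt_pow_right one_lt_two g.lt_succ_self)⟩
  have hσ : ∀ g, 0 ≤ Psi u v d (m ^ 4) (Q g) - Psi u v d (m ^ 4) (Q' g) := fun g =>
    sub_nonneg.2 (level u v hd _ hκ (href g) (hec' _ (hQ'1 g)) 1 1 one_pos).1
  have hD : ∀ g, ∃ D₀ : V → V → ℝ, (∀ a b, 0 ≤ D₀ a b) ∧
      ∑ a, ∑ b, D₀ a b * d a b ≤ 172 * m ^ 3 *
        (Psi u v d (m ^ 4) (Q g) - Psi u v d (m ^ 4) (Q' g)) + 8 * m * Fintype.card E ∧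
      (2 ^ g ≤ (crossE u v univ (Q g)).card → ∀ D : V → V → ℝ, (∀ a b, D₀ a b ≤ D a b) →
        ∑ e ∈ crossE u v univ (Q g), res u v D e ≤ 7 / m * (crossE u v univ (Q g)).card) := by
    intro g
    by_cases h : 2 ^ g ≤ (crossE u v univ (Q g)).card
    · obtain ⟨D₀, h1, h2, h3⟩ := step u v hd hm hpc (href g) (hec' _ (hQ'1 g))
        ((Nat.two_pow_pos g).trans_le h)
        ((Nat.mul_le_mul_right _ (pow_four_le hm)).trans ((hQ'2 g).trans h))
      exact ⟨D₀, h1, h2, fun _ => h3⟩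
    · refine ⟨fun _ _ => 0, fun _ _ => le_rfl, ?_, fun h' => (h h').elim⟩
      have := hσ g
      simp only [zero_mul, sum_const_zero]
      positivity
  choose D hD1 hD2 hD3 using hD
  obtain ⟨G, hG⟩ : ∃ G, G = Fintype.card E + 1 := ⟨_, rfl⟩
  refine ⟨fun a b => ∑ g ∈ range G, D g a b, fun a b => sum_nonneg fun g _ => hD1 g a b, ?_,
    fun π hπ => ?_⟩
  · obtain ⟨L, hL⟩ : ∃ L : ℝ, L = ∑ e, (d (u e) (v e) : ℝ) := ⟨_, rfl⟩
    have hL0 : 0 ≤ L := by rw [hL]; positivity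
    have t1 := sum_range_add (fun g => Psi u v d (m ^ 4) (Q' g)) (m + 1) G
    have t2 := sum_range_add (fun g => Psi u v d (m ^ 4) (Q' g)) G (m + 1)
    have t3 : ∑ g ∈ range G, Psi u v d (m ^ 4) (Q' (m + 1 + g)) =
        ∑ g ∈ range G, Psi u v d (m ^ 4) (Q g) := sum_congr rfl fun g _ => by
      rw [hQ', if_pos (Nat.le_add_right _ _), Nat.add_sub_cancel_left]
    have t4 : 0 ≤ ∑ g ∈ range (m + 1), Psi u v d (m ^ 4) (Q' g) :=
      sum_nonneg fun g _ => psi_nonneg u v d _ _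
    have t5 : ∑ g ∈ range (m + 1), Psi u v d (m ^ 4) (Q' (G + g)) ≤ (m + 1) * (L / m ^ 4) := by
      have := sum_le_card_nsmul (range (m + 1)) _ _ fun g _ =>
        psi_le u v hd _ hκ (hec' _ (hQ'1 (G + g)))
      rwa [card_range, nsmul_eq_mul, ← hL, Nat.cast_succ, Nat.cast_pow] at this
    rw [add_comm G] at t2
    have t6 : 172 * (m : ℝ) ^ 3 * ((m + 1) * (L / m ^ 4)) ≤ 200 * L := by
      have e : 172 * (m : ℝ) ^ 3 * ((m + 1) * (L / m ^ 4)) = 172 * (m + 1) / m * L := by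
        field_simp
      rw [e]
      refine mul_le_mul_of_nonneg_right ?_ hL0
      rw [div_le_iff₀ hm0]
      linarith
    calc _ = ∑ g ∈ range G, ∑ a, ∑ b, D g a b * d a b := by
          simp only [sum_mul]
          rw [sum_congr rfl fun a _ => sum_comm, sum_comm]
      _ ≤ _ := sum_le_sum fun g _ => hD2 g
      _ = 172 * m ^ 3 * (∑ g ∈ range G, Psi u v d (m ^ 4) (Q g) -
            ∑ g ∈ range G, Psi u v d (m ^ 4) (Q' g)) +
            8 * m * (Fintype.card E : ℝ) * (Fintype.card E + 1) := by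
          rw [sum_add_distrib, ← mul_sum, sum_sub_distrib, sum_const, card_range, nsmul_eq_mul, hG]
          push_cast
          ring
      _ ≤ _ := by
          rw [← hL]
          refine add_le_add_left (le_trans ?_ t6) _
          exact mul_le_mul_of_nonneg_left (by linarith) (by positivity)
  · rcases Nat.eq_zero_or_pos (crossE u v univ π).card with h0 | h0
    · rw [card_eq_zero.1 h0]
      simp
    obtain ⟨g, hg1, hg2⟩ : ∃ g, 2 ^ g ≤ (crossE u v univ π).card ∧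
        (crossE u v univ π).card < 2 ^ (g + 1) :=
      ⟨_, Nat.pow_log_le_self 2 h0.ne', Nat.lt_pow_succ_log_self one_lt_two _⟩
    have hsub : crossE u v univ π ⊆ crossE u v univ (Q g) := fun e he =>
      mem_filter.2 ⟨mem_univ _, fun h => (mem_filter.1 he).2
        (hQ2 g π ⟨mem_insert_of_mem hπ, hg2⟩ _ _ h)⟩
    have hgG : g ∈ range G := by
      have h1 := Nat.lt_two_pow_self (n := g)
      have h2 := card_le_univ (crossE u v univ π)
      rw [mem_range]
      omega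
    have h1 := hD3 g (hg1.trans (card_le_card hsub)) (fun a b => ∑ g ∈ range G, D g a b)
      fun a b => single_le_sum (fun g _ => hD1 g a b) hgG
    have h2 : ((crossE u v univ (Q g)).card : ℝ) ≤ 2 * (crossE u v univ π).card := by
      have h3 := (hQ1 g).2
      rw [pow_succ] at h3
      exact_mod_cast (by omega : (crossE u v univ (Q g)).card ≤ 2 * (crossE u v univ π).card)
    calc _ ≤ _ := sum_le_sum_of_subset_of_nonneg hsub fun e _ _ =>
          res_nonneg u v (fun a b => sum_nonneg fun g _ => hD1 g a b) e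
      _ ≤ _ := h1
      _ ≤ 7 / m * (2 * (crossE u v univ π).card) := by gcongr
      _ = _ := by ring

end Vale.Agent.P061Z
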