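import Mathlib

/-!
# P061: working definitions

Edges carry two end maps `u v : E → V`; partitions of `V` are labellings `π : V → ℕ`.
-/

namespace Vale.Agent.P061Z

open Finset

section Graph

variable {V E : Type} [Fintype V] [DecidableEq V] [Fintype E] [DecidableEq E]

/-- `S` separates `a` and `b`. -/
def Sep (S : Finset V) (a b : V) : Prop := ¬ (a ∈ S ↔ b ∈ S)

instance (S : Finset V) (a b : V) : Decidable (Sep S a b) := by unfold Sep; infer_instance

/-- The edges of `A` cut by `S`. -/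
def cutE (u v : E → V) (A : Finset E) (S : Finset V) : Finset E :=
  A.filter fun e => Sep S (u e) (v e)

/-- The edges of `A` whose ends lie in different parts of `π`. -/
def crossE (u v : E → V) (A : Finset E) (π : V → ℕ) : Finset E :=
  A.filter fun e => π (u e) ≠ π (v e)

/-- The number of parts of `π`. -/
def nparts (π : V → ℕ) : ℕ := (univ.image π).card

/-- Partition connectivity: each partition into `q` parts is crossed by `κ (q - 1)` edges
of `A`. -/
def PC (u v : E → V) (A : Finset E) (κ : ℝ) : Prop :=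
  ∀ π : V → ℕ, κ * ((nparts π : ℝ) - 1) ≤ ((crossE u v A π).card : ℝ)

/-- `π` refines `π'`. -/
def Ref (π π' : V → ℕ) : Prop := ∀ a b, π a = π b → π' a = π' b

/-- Every part of `π` induces a `κ`-edge-connected subgraph. -/
def PartsEC (u v : E → V) (π : V → ℕ) (κ : ℝ) : Prop :=
  ∀ (S : Finset V) (a b : V), π a = π b → a ∈ S → b ∉ S →
    κ ≤ ((univ.filter fun e => π (u e) = π a ∧ π (v e) = π a ∧ Sep S (u e) (v e)).card : ℝ)

/-- The form `L_G + L_D + I / n`. -/
noncomputable def qB (u v : E → V) (D : V → V → ℝ) (x : V → ℝ) : ℝ :=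
  ∑ e, (x (u e) - x (v e)) ^ 2 + ∑ a, ∑ b, D a b * (x a - x b) ^ 2 +
    (1 / (Fintype.card V : ℝ)) * ∑ a, x a ^ 2

/-- Effective resistance of the edge `e` for the form `qB u v D`. -/
noncomputable def res (u v : E → V) (D : V → V → ℝ) (e : E) : ℝ :=
  ⨆ x : V → ℝ, (2 * (x (u e) - x (v e)) - qB u v D x)

/-- The weight of `D` across the cut `S`. -/
def cutD (D : V → V → ℝ) (S : Finset V) : ℝ :=
  ∑ a, ∑ b, if Sep S a b then D a b else 0

/-- `D` is a nonnegative weighting whose cuts are at most `M` times those of the graph,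
plus one. -/
def DOK (u v : E → V) (M : ℝ) (D : V → V → ℝ) : Prop :=
  (∀ a b, 0 ≤ D a b) ∧ ∀ S, cutD D S ≤ M * ((cutE u v univ S).card : ℝ) + 1

/-- `d` is a semimetric with natural values. -/
def IsMet (d : V → V → ℕ) : Prop :=
  (∀ a, d a a = 0) ∧ (∀ a b, d a b = d b a) ∧ ∀ a b c, d a c ≤ d a b + d b c

/-- `S` splits `W`. -/
def Splits (S W : Finset V) : Prop := (∃ a ∈ W, a ∈ S) ∧ ∃ b ∈ W, b ∉ S

instance (S W : Finset V) : Decidable (Splits S W) := by unfold Splits; infer_instance

/-- The cuts `S` and `T` do not cross. -/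
def CrossFree (S T : Finset V) : Prop := Disjoint S T ∨ S ⊆ T ∨ T ⊆ S ∨ S ∪ T = univ

/-- A packing for `W`: a cross-free family of cuts splitting `W` and dominated by `d`. -/
def IsPack (d : V → V → ℕ) (W : Finset V) {J : Type} (s : Finset J) (S : J → Finset V) : Prop :=
  (∀ j ∈ s, Splits (S j) W) ∧ (∀ i ∈ s, ∀ j ∈ s, CrossFree (S i) (S j)) ∧
    ∀ a b, (s.filter fun j => Sep (S j) a b).card ≤ d a b

/-- The largest size of a packing for `W`. -/
noncomputable def pv (d : V → V → ℕ) (W : Finset V) : ℕ :=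
  sSup {m : ℕ | ∃ S : ℕ → Finset V, IsPack d W (range m) S}

/-- The ends, in the part `x`, of the edges crossing `π`. -/
def endsIn (u v : E → V) (π : V → ℕ) (x : ℕ) : Finset V :=
  univ.filter fun a => π a = x ∧ ∃ e, π (u e) ≠ π (v e) ∧ (a = u e ∨ a = v e)

/-- The potential of a partition. -/
noncomputable def Psi (u v : E → V) (d : V → V → ℕ) (κ : ℕ) (π : V → ℕ) : ℝ :=
  ∑ x ∈ univ.image π, (pv d (endsIn u v π x) : ℝ) +
    (∑ e ∈ crossE u v univ π, (d (u e) (v e) : ℝ)) / κ

/-- The functional `x ↦ x (u e) - x (v e)`. -/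
def bE (u v : E → V) (e : E) : (V → ℝ) →ₗ[ℝ] ℝ where
  toFun x := x (u e) - x (v e)
  map_add' x y := by simp only [Pi.add_apply]; ring
  map_smul' c x := by simp only [Pi.smul_apply, smul_eq_mul, RingHom.id_apply]; ring

omit [Fintype V] [DecidableEq V] [Fintype E] [DecidableEq E] in
@[simp] theorem bE_apply (u v : E → V) (e : E) (x : V → ℝ) :
    bE u v e x = x (u e) - x (v e) := rfl

end Graph

/-- `Q` is a positive definite quadratic form, written as a sum of squares of coordinates. -/
def IsPD {n : Type} [Fintype n] (Q : (n → ℝ) → ℝ) : Prop :=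
  ∃ P : (n → ℝ) ≃ₗ[ℝ] (n → ℝ), ∀ x, Q x = ∑ j, (P x j) ^ 2

end Vale.Agent.P061Z
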