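import Vale.Agent.P061Z.Halve

/-! # P061: iterating the halving lemma -/

namespace Vale.Agent.P061Z

open Finset

namespace Iter

section

variable {V E : Type} [Fintype V] [DecidableEq V] [Fintype E] [DecidableEq E]

omit [DecidableEq E] in
theorem conn_of_pc {u v : E → V} {k : ℝ} (hk : 0 < k) (h : PC u v univ k) (S : Finset V)
    (h1 : S.Nonempty) (h2 : S ≠ univ) : (cutE u v univ S).Nonempty := by
  obtain ⟨a, ha⟩ := h1
  obtain ⟨b, hb⟩ : ∃ b, b ∉ S := by
    by_contra hcon
    push Not at hcon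
    exact h2 (eq_univ_of_forall hcon)
  have h3 := h fun x => if x ∈ S then 1 else 0
  have h4 : 2 ≤ nparts fun x => if x ∈ S then 1 else 0 := by
    refine one_lt_card.2 ⟨1, mem_image.2 ⟨a, mem_univ _, by simp [ha]⟩, 0,
      mem_image.2 ⟨b, mem_univ _, by simp [hb]⟩, one_ne_zero⟩
  have h5 : (2 : ℝ) ≤ nparts fun x => if x ∈ S then 1 else 0 := by exact_mod_cast h4
  have h6 : (0 : ℝ) < (crossE u v univ fun x => if x ∈ S then 1 else 0).card :=
    lt_of_lt_of_le (mul_pos hk (by linarith)) h3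
  obtain ⟨e, he⟩ := card_pos.1 (by exact_mod_cast h6 :
    0 < (crossE u v univ fun x => if x ∈ S then 1 else 0).card)
  refine ⟨e, mem_filter.2 ⟨mem_univ _, ?_⟩⟩
  have h7 := (mem_filter.1 he).2
  by_cases c1 : u e ∈ S <;> by_cases c2 : v e ∈ S <;> simp [Sep, c1, c2] at h7 ⊢

omit [Fintype E] [DecidableEq E] in
theorem map_univ_sub (H : Finset E) :
    (univ : Finset {e // e ∈ H}).map (Function.Embedding.subtype _) = H := by
  rw [univ_eq_attach, attach_map_val]

omit [Fintype V] [Fintype E] [DecidableEq E] in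
theorem card_cutE_map (u v : E → V) (H : Finset E) (A : Finset {e // e ∈ H}) (S : Finset V) :
    (cutE u v (A.map (Function.Embedding.subtype _)) S).card
      = (cutE (fun e : {e // e ∈ H} => u e) (fun e => v e) A S).card := by
  unfold cutE
  rw [filter_map, card_map]
  rfl

omit [Fintype E] [DecidableEq V] in
theorem pc_sub {u v : E → V} {H : Finset E} {κ : ℝ} (h : PC u v H κ) :
    PC (fun e : {e // e ∈ H} => u e) (fun e => v e) univ κ := by
  intro π
  refine (h π).trans (le_of_eq ?_)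
  conv_lhs => rw [← map_univ_sub H]
  unfold crossE
  rw [filter_map, card_map]
  rfl

end

theorem exists_root {k : ℝ} (hk : 0 < k) : ∃ t : ℝ, 0 < t ∧ t ^ 12 = k :=
  ⟨k ^ ((12 : ℕ) : ℝ)⁻¹, Real.rpow_pos_of_pos hk _, Real.rpow_inv_natCast_pow hk.le (by norm_num)⟩

/-- The gain function. -/
noncomputable def gain (C t : ℝ) : ℝ := max 1 (2 - 1280 * C / t)

theorem gain_step {C t t' x : ℝ} (hC : 0 < C) (ht : 1312 * C ≤ t) (ht' : 0 < t')
    (htt : t' * (21 / 20) ≤ t) (hx : x = 4 * C / t) :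
    gain C t' * (1 / 2 + x) ≤ gain C t * (1 / 2 - x) := by
  have ht0 : 0 < t := by linarith
  obtain ⟨y, hy⟩ : ∃ y, y = C / t := ⟨_, rfl⟩
  have hy0 : 0 < y := by rw [hy]; positivity
  have hy1 : 1312 * y ≤ 1 := by
    rw [hy, ← mul_div_assoc, div_le_one ht0]; exact ht
  have hxy : x = 4 * y := by rw [hx, hy]; ring
  have h1 : 2 - 1280 * y ≤ gain C t := by
    unfold gain
    rw [hy, ← mul_div_assoc]
    exact le_max_right _ _
  have h2 : 1344 * y ≤ 1280 * C / t' := by
    rw [hy, ← mul_div_assoc, div_le_div_iff₀ ht0 ht']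
    nlinarith
  have h3 : gain C t' ≤ max 1 (2 - 1344 * y) := max_le_max le_rfl (by linarith)
  have h4 := mul_le_mul_of_nonneg_right h1 (by linarith : 0 ≤ 1 / 2 - x)
  have h5 := mul_le_mul_of_nonneg_right h3 (by linarith : 0 ≤ 1 / 2 + x)
  refine h5.trans (le_trans ?_ h4)
  rw [hxy]
  rcases le_total 1 (2 - 1344 * y) with h | h
  · rw [max_eq_right h]; nlinarith
  · rw [max_eq_left h]; nlinarith

theorem one_le_gain (C t : ℝ) : 1 ≤ gain C t := le_max_left _ _

theorem gain_le_two {C t : ℝ} (hC : 0 < C) (ht : 0 < t) : gain C t ≤ 2 := by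
  have : 0 < 1280 * C / t := by positivity
  exact max_le one_le_two (by linarith)

theorem iter_aux {C : ℝ} (hC : 0 < C)
    (hH : ∀ (V E : Type) [Fintype V] [DecidableEq V] [Fintype E]
      [DecidableEq E] [Nonempty V] (u v : E → V) (k : ℝ) (s : ℕ), 3 ≤ s → 2 * (s : ℝ) ^ 12 ≤ k →
      PC u v univ k → ∃ H : Finset E, PC u v H ((1 / 2 - C / s) * k) ∧
        ∀ S, ((cutE u v H S).card : ℝ) ≤ (1 / 2 + C / s) * (cutE u v univ S).card)
    (V : Type) [Fintype V] [DecidableEq V] [Nonempty V] (N : ℕ) :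
    ∀ t : ℝ, 0 < t → t ^ 12 ≤ N → ∀ (E : Type) [Fintype E] [DecidableEq E] (u v : E → V),
      PC u v univ (t ^ 12) →
      ∃ H : Finset E, (∀ S : Finset V, S.Nonempty → S ≠ univ → (cutE u v H S).Nonempty) ∧
        ∀ S, ((cutE u v H S).card : ℝ)
          ≤ (1312 * C + 6) ^ 12 * gain C t / t ^ 12 * (cutE u v univ S).card := by
  induction N with
  | zero =>
    intro t ht h
    exact absurd h (by simpa using pow_pos ht 12)
  | succ N ih =>
    intro t ht hN E _ _ u v hpc
    have hk : 0 < t ^ 12 := pow_pos ht 12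
    rcases le_total t (1312 * C + 6) with hsm | hbig
    · refine ⟨univ, conn_of_pc hk hpc, fun S => le_mul_of_one_le_left (Nat.cast_nonneg _) ?_⟩
      rw [le_div_iff₀ hk, one_mul]
      exact (pow_le_pow_left₀ ht.le hsm 12).trans
        (le_mul_of_one_le_right (by positivity) (one_le_gain C t))
    · obtain ⟨s, hs⟩ : ∃ s : ℕ, s = ⌊t / 2⌋₊ := ⟨_, rfl⟩
      have hs1 : (s : ℝ) ≤ t / 2 := hs ▸ Nat.floor_le (by positivity)
      have hs2 : t / 2 < s + 1 := hs ▸ Nat.lt_floor_add_one _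
      have hs3 : 3 ≤ s := hs ▸ Nat.le_floor (by push_cast; linarith)
      have hs4 : t / 4 ≤ s := by linarith
      have hs5 : 2 * (s : ℝ) ^ 12 ≤ t ^ 12 := by
        have := pow_le_pow_left₀ (Nat.cast_nonneg s) hs1 12
        rw [div_pow] at this
        linarith
      obtain ⟨H₁, h1, h2⟩ := hH V E u v _ s hs3 hs5 hpc
      obtain ⟨x, hx⟩ : ∃ x, x = 4 * C / t := ⟨_, rfl⟩
      have hx0 : 0 < x := by rw [hx]; positivity
      have hx1 : x ≤ 1 / 4 := by
        rw [hx, div_le_iff₀ ht]; linarith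
      have hxs : C / s ≤ x := by
        rw [hx, div_le_div_iff₀ (by linarith) ht]
        nlinarith
      have hk' : 0 < (1 / 2 - x) * t ^ 12 := mul_pos (by linarith) hk
      obtain ⟨t', ht', htk⟩ := exists_root hk'
      have hhalf : t' ^ 12 ≤ t ^ 12 / 2 := by rw [htk]; nlinarith
      have h12 : (2 : ℝ) ≤ t ^ 12 :=
        le_trans (by norm_num) (pow_le_pow_left₀ (by norm_num : (0 : ℝ) ≤ 2) (by linarith) 12)
      have htt : t' * (21 / 20) ≤ t := by
        refine le_of_pow_le_pow_left₀ (by norm_num : 12 ≠ 0) ht.le ?_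
        rw [mul_pow]
        have : ((21 : ℝ) / 20) ^ 12 ≤ 2 := by norm_num
        nlinarith [pow_pos ht' 12]
      have hpc' : PC u v H₁ (t' ^ 12) := Halve.pc_anti h1
        (htk.le.trans (mul_le_mul_of_nonneg_right (by linarith) hk.le))
      obtain ⟨H₂, h3, h4⟩ := ih t' ht' (by push_cast at hN; linarith) {e // e ∈ H₁} _ _
        (pc_sub hpc')
      refine ⟨H₂.map (Function.Embedding.subtype _), fun S a b => ?_, fun S => ?_⟩
      · rw [← card_pos, card_cutE_map, card_pos]
        exact h3 S a b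
      · rw [card_cutE_map]
        refine (h4 S).trans ?_
        rw [← card_cutE_map, map_univ_sub]
        have h5 := (h2 S).trans (mul_le_mul_of_nonneg_right
          (by linarith : 1 / 2 + C / s ≤ 1 / 2 + x) (Nat.cast_nonneg _))
        have hg' : 0 ≤ gain C t' := zero_le_one.trans (one_le_gain _ _)
        refine (mul_le_mul_of_nonneg_left h5 (by positivity)).trans ?_
        rw [← mul_assoc]
        refine mul_le_mul_of_nonneg_right ?_ (Nat.cast_nonneg _)
        rw [htk, div_mul_eq_mul_div, div_le_div_iff₀ hk' hk]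
        have h6 := mul_le_mul_of_nonneg_left (gain_step hC (by linarith) ht' htt hx)
          (by positivity : 0 ≤ (1312 * C + 6) ^ 12 * t ^ 12)
        linarith

end Iter

/-- A thin connected spanning edge set. -/
theorem thin_connected : ∃ C : ℝ, 0 < C ∧ ∀ (V E : Type) [Fintype V] [DecidableEq V] [Fintype E]
    [DecidableEq E] [Nonempty V] (u v : E → V) (k : ℝ), 0 < k → PC u v univ k →
    ∃ H : Finset E, (∀ S : Finset V, S.Nonempty → S ≠ univ → (cutE u v H S).Nonempty) ∧
      ∀ S, ((cutE u v H S).card : ℝ) ≤ C / k * (cutE u v univ S).card := by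
  obtain ⟨C, hC, hH⟩ := halve
  refine ⟨(1312 * C + 6) ^ 12 * 2, by positivity, ?_⟩
  intro V E _ _ _ _ _ u v k hk hpc
  obtain ⟨t, ht, rfl⟩ := Iter.exists_root hk
  obtain ⟨H, h1, h2⟩ := Iter.iter_aux hC hH V ⌈t ^ 12⌉₊ t ht (Nat.le_ceil _) E u v hpc
  refine ⟨H, h1, fun S => (h2 S).trans (mul_le_mul_of_nonneg_right ?_ (Nat.cast_nonneg _))⟩
  exact div_le_div_of_nonneg_right
    (mul_le_mul_of_nonneg_left (Iter.gain_le_two hC ht) (by positivity)) hk.le

end Vale.Agent.P061Z
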