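import Vale.Agent.P061Z.Stmt
import Vale.Agent.P061Z.Iter

/-! # P061: from a thin connected edge set to a thin spanning tree -/

namespace Vale.Agent.P061Z.Final

open Finset

variable {V E : Type} [Fintype V] [DecidableEq V] [Fintype E] [DecidableEq E]

omit [Fintype E] [DecidableEq E] in
theorem cut_eq {ends : E → Sym2 V} {u v : E → V} (h : ∀ e, ends e = s(u e, v e)) (A : Finset E)
    (S : Finset V) : cut ends A S = cutE u v A S := by
  unfold cut cutE
  refine filter_congr fun e _ => ?_
  rw [h e]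
  constructor
  · rintro ⟨a, ha, b, hb, hab⟩
    rcases Sym2.eq_iff.1 hab with ⟨h1, h2⟩ | ⟨h1, h2⟩ <;> simp [Sep, h1, h2, ha, hb]
  · intro hs
    by_cases c1 : u e ∈ S
    · exact ⟨u e, c1, v e, fun c2 => hs ⟨fun _ => c2, fun _ => c1⟩, rfl⟩
    · have c2 : v e ∈ S := by
        by_contra c2
        exact hs ⟨fun c => absurd c c1, fun c => absurd c c2⟩
      exact ⟨v e, c2, u e, c1, Sym2.eq_swap⟩

theorem pc_of_cut [Nonempty V] {u v : E → V} {k : ℝ} (hk : 0 ≤ k)
    (h : ∀ S : Finset V, S.Nonempty → S ≠ univ → k ≤ (cutE u v univ S).card) :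
    PC u v univ (k / 2) := by
  intro π
  by_cases h1 : nparts π ≤ 1
  · have h2 : (nparts π : ℝ) ≤ 1 := by exact_mod_cast h1
    exact (mul_nonpos_of_nonneg_of_nonpos (by linarith) (by linarith)).trans (Nat.cast_nonneg _)
  have hlow : ∀ x ∈ univ.image π, k ≤ (cutE u v univ (univ.filter fun a => π a = x)).card := by
    intro x hx
    obtain ⟨a, -, ha⟩ := mem_image.1 hx
    refine h _ ⟨a, mem_filter.2 ⟨mem_univ _, ha⟩⟩ fun hU => h1 ?_
    refine card_le_one.2 fun y hy z hz => ?_
    obtain ⟨b, -, rfl⟩ := mem_image.1 hy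
    obtain ⟨c, -, rfl⟩ := mem_image.1 hz
    have hall : ∀ a, π a = x := fun a =>
      (mem_filter.1 (hU.symm ▸ mem_univ a : a ∈ univ.filter fun a => π a = x)).2
    rw [hall b, hall c]
  have hup : ∀ x, (cutE u v univ (univ.filter fun a => π a = x)).card
      ≤ ((crossE u v univ π).filter fun e => π (u e) = x).card
        + ((crossE u v univ π).filter fun e => π (v e) = x).card := by
    intro x
    refine le_trans (card_le_card fun e he => ?_) (card_union_le _ _)
    have h2 := (mem_filter.1 he).2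
    simp only [Sep, mem_filter, mem_univ, true_and] at h2
    simp only [crossE, mem_union, mem_filter, mem_univ, true_and]
    by_cases c1 : π (u e) = x
    · have c2 : π (v e) ≠ x := fun c2 => h2 ⟨fun _ => c2, fun _ => c1⟩
      exact Or.inl ⟨fun c => c2 (c ▸ c1), c1⟩
    · have c2 : π (v e) = x := by
        by_contra c2
        exact h2 ⟨fun c => absurd c c1, fun c => absurd c c2⟩
      exact Or.inr ⟨fun c => c1 (c ▸ c2), c2⟩
  have e1 := card_eq_sum_card_fiberwise (s := crossE u v univ π) (t := univ.image π)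
    (f := fun e => π (u e)) fun e _ => mem_coe.2 (mem_image_of_mem π (mem_univ _))
  have e2 := card_eq_sum_card_fiberwise (s := crossE u v univ π) (t := univ.image π)
    (f := fun e => π (v e)) fun e _ => mem_coe.2 (mem_image_of_mem π (mem_univ _))
  have h3 : ∑ x ∈ univ.image π, (cutE u v univ (univ.filter fun a => π a = x)).card
      ≤ (crossE u v univ π).card + (crossE u v univ π).card := by
    refine (sum_le_sum fun x _ => hup x).trans (le_of_eq ?_)
    rw [sum_add_distrib, ← e1, ← e2]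
  have h4 : (nparts π : ℝ) * k ≤ ∑ x ∈ univ.image π,
      ((cutE u v univ (univ.filter fun a => π a = x)).card : ℝ) := by
    have := card_nsmul_le_sum (univ.image π) _ k hlow
    rwa [nsmul_eq_mul] at this
  have h5 : ∑ x ∈ univ.image π, ((cutE u v univ (univ.filter fun a => π a = x)).card : ℝ)
      ≤ (crossE u v univ π).card + (crossE u v univ π).card := by exact_mod_cast h3
  linarith

omit [Fintype E] [DecidableEq E] in
theorem connected_of_cut [Nonempty V] {ends : E → Sym2 V} {H : Finset E}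
    (h : ∀ S : Finset V, S.Nonempty → S ≠ univ → (cut ends H S).Nonempty) :
    (SimpleGraph.fromEdgeSet (ends '' (H : Set E))).Connected := by
  classical
  refine ⟨fun a b => ?_⟩
  by_contra hab
  obtain ⟨e, he⟩ := h (univ.filter fun c =>
    (SimpleGraph.fromEdgeSet (ends '' (H : Set E))).Reachable a c)
    ⟨a, mem_filter.2 ⟨mem_univ _, SimpleGraph.Reachable.refl a⟩⟩
    fun hU => hab (mem_filter.1 (hU ▸ mem_univ b)).2
  obtain ⟨heH, x, hx, y, hy, hxy⟩ := mem_filter.1 he
  refine hy (mem_filter.2 ⟨mem_univ _, (mem_filter.1 hx).2.trans (SimpleGraph.Adj.reachable ?_)⟩)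
  exact (SimpleGraph.fromEdgeSet_adj _).2 ⟨⟨e, mem_coe.2 heH, hxy⟩, fun c => hy (c ▸ hx)⟩

omit [DecidableEq V] [Fintype E] [DecidableEq E] in
theorem exists_tree {ends : E → Sym2 V} {H : Finset E}
    (h : (SimpleGraph.fromEdgeSet (ends '' (H : Set E))).Connected) :
    ∃ T ⊆ H, IsSpanningTree ends T := by
  classical
  obtain ⟨G, hG, hT⟩ := h.exists_isTree_le
  have hs : Set.SurjOn ends (H : Set E) G.edgeSet := fun z hz => by
    have := SimpleGraph.edgeSet_mono hG hz
    rw [SimpleGraph.edgeSet_fromEdgeSet] at this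
    exact this.1
  obtain ⟨s, hsH, hb⟩ := hs.exists_bijOn_subset
  have hcoe : ((H.filter fun e => e ∈ s : Finset E) : Set E) = s := by
    ext e
    simp only [coe_filter, Set.mem_ofPred_eq]
    exact ⟨fun c => c.2, fun c => ⟨hsH c, c⟩⟩
  refine ⟨H.filter fun e => e ∈ s, filter_subset _ _, ?_, ?_, ?_⟩
  · rw [← hT.card_edgeFinset]
    congr 1
    refine Set.BijOn.finsetCard_eq ends ?_
    rw [hcoe, SimpleGraph.coe_edgeFinset]
    exact hb
  · rw [hcoe]
    exact hb.injOn
  · rw [hcoe, hb.image_eq, SimpleGraph.fromEdgeSet_edgeSet]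
    exact hT

theorem thin_tree : ∃ C : ℝ, ∀ k : ℕ, 1 ≤ k → ∀ (V E : Type) [Fintype V] [DecidableEq V]
    [Fintype E] [DecidableEq E] (ends : E → Sym2 V),
    2 ≤ Fintype.card V → EdgeConnected ends k →
    ∃ T : Finset E, IsSpanningTree ends T ∧ ∀ S : Finset V,
      ((cut ends T S).card : ℝ) ≤ C / k * (cut ends univ S).card := by
  obtain ⟨C, -, hC⟩ := thin_connected
  refine ⟨2 * C, fun k hk V E _ _ _ _ ends hV hec => ?_⟩
  have : Nonempty V := Fintype.card_pos_iff.1 (by omega)
  have hex : ∀ e, ∃ p : V × V, ends e = s(p.1, p.2) := fun e =>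
    Sym2.ind (fun a b => ⟨(a, b), rfl⟩) (ends e)
  choose p hp using hex
  have hk0 : (0 : ℝ) < k := by exact_mod_cast hk
  obtain ⟨H, h1, h2⟩ := hC V E (fun e => (p e).1) (fun e => (p e).2) (k / 2) (by positivity)
    (pc_of_cut hk0.le fun S a b => by
      rw [← cut_eq hp]
      exact_mod_cast hec S a b)
  obtain ⟨T, hTH, hT⟩ := exists_tree (ends := ends) (H := H)
    (connected_of_cut fun S a b => by rw [cut_eq hp]; exact h1 S a b)
  refine ⟨T, hT, fun S => ?_⟩
  rw [cut_eq hp, cut_eq hp]
  have h3 : ((cutE (fun e => (p e).1) (fun e => (p e).2) T S).card : ℝ)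
      ≤ (cutE (fun e => (p e).1) (fun e => (p e).2) H S).card := by
    exact_mod_cast card_le_card (Halve.cutE_mono _ _ hTH S)
  refine h3.trans ((h2 S).trans (le_of_eq ?_))
  congr 1
  field_simp

end Vale.Agent.P061Z.Final
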