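import Vale.Agent.P061Z.Flats
import Vale.Agent.P061Z.KyFan
import Vale.Agent.P061Z.Res

/-! # P061: a weighting whose low-resistance edges are well connected -/

namespace Vale.Agent.P061Z

open Finset

variable {V E : Type} [Fintype V] [DecidableEq V] [Fintype E] [DecidableEq E]

namespace Fix

/-- The weight of the edge set `F` for the resistances `r`. -/
noncomputable def lam (η : ℝ) (F : Finset E) (r : E → ℝ) : ℝ :=
  (∏ e ∈ F, max 0 (2 * η - r e)) * (∏ e ∈ Fᶜ, max 0 (r e - η)) *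
    ∏ e ∈ F, ∏ e' ∈ Fᶜ, max 0 (r e' - r e)

theorem lam_nonneg (η : ℝ) (F : Finset E) (r : E → ℝ) : 0 ≤ lam η F r :=
  mul_nonneg (mul_nonneg (prod_nonneg fun _ _ => le_max_left _ _)
    (prod_nonneg fun _ _ => le_max_left _ _))
    (prod_nonneg fun _ _ => prod_nonneg fun _ _ => le_max_left _ _)

theorem max_ne {x : ℝ} (h : max 0 x ≠ 0) : 0 < x := by
  by_contra h1
  exact h (max_eq_left (not_lt.1 h1))

theorem lam_pos {η : ℝ} {F : Finset E} {r : E → ℝ} (h : 0 < lam η F r) :
    (∀ e ∈ F, r e < 2 * η) ∧ (∀ e, e ∉ F → η < r e) ∧ ∀ e ∈ F, ∀ e', e' ∉ F → r e < r e' := by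
  have h1 := h.ne'
  unfold lam at h1
  simp only [ne_eq, mul_eq_zero, not_or] at h1
  obtain ⟨⟨h2, h3⟩, h4⟩ := h1
  refine ⟨fun e he => ?_, fun e he => ?_, fun e he e' he' => ?_⟩
  · exact sub_pos.1 (max_ne (prod_ne_zero_iff.1 h2 e he))
  · exact sub_pos.1 (max_ne (prod_ne_zero_iff.1 h3 e (mem_compl.2 he)))
  · exact sub_pos.1 (max_ne (prod_ne_zero_iff.1 (prod_ne_zero_iff.1 h4 e he) e' (mem_compl.2 he')))

theorem lam_low {η : ℝ} (hη : 0 < η) (r : E → ℝ) :
    0 < lam η (univ.filter fun e => r e ≤ η) r := by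
  unfold lam
  refine mul_pos (mul_pos (prod_pos fun e he => ?_) (prod_pos fun e he => ?_))
    (prod_pos fun e he => prod_pos fun e' he' => ?_)
  · have := (mem_filter.1 he).2
    exact lt_max_of_lt_right (by linarith)
  · have : η < r e := by simpa using he
    exact lt_max_of_lt_right (by linarith)
  · have h1 := (mem_filter.1 he).2
    have : η < r e' := by simpa using he'
    exact lt_max_of_lt_right (by linarith)

theorem lam_chain {η : ℝ} {F F' : Finset E} {r : E → ℝ} (h : 0 < lam η F r)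
    (h' : 0 < lam η F' r) : F ⊆ F' ∨ F' ⊆ F := by
  by_contra hc
  rw [not_or, not_subset, not_subset] at hc
  obtain ⟨⟨e, h1, h2⟩, e', h3, h4⟩ := hc
  exact lt_asymm ((lam_pos h).2.2 e h1 e' h4) ((lam_pos h').2.2 e' h3 e h2)

theorem lam_cont {X : Type} [TopologicalSpace X] {s : Set X} (η : ℝ) (F : Finset E)
    {r : X → E → ℝ} (hr : ∀ e, ContinuousOn (fun t => r t e) s) :
    ContinuousOn (fun t => lam η F (r t)) s := by
  unfold lam
  refine ((continuousOn_finsetProd _ fun e _ => ?_).mul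
    (continuousOn_finsetProd _ fun e _ => ?_)).mul
    (continuousOn_finsetProd _ fun e _ => continuousOn_finsetProd _ fun e' _ => ?_)
  · exact continuousOn_const.sup (continuousOn_const.sub (hr e))
  · exact continuousOn_const.sup ((hr e).sub continuousOn_const)
  · exact continuousOn_const.sup ((hr e').sub (hr e))

omit [DecidableEq V] [Fintype E] [DecidableEq E] in
theorem pc_mono {u v : E → V} {F F' : Finset E} (h : F ⊆ F') {κ : ℝ} (hF : PC u v F κ) :
    PC u v F' κ := fun π =>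
  (hF π).trans (by exact_mod_cast card_le_card (filter_subset_filter _ h))

omit [DecidableEq E] in
theorem dok_convex {u v : E → V} {M : ℝ} {I : Type} [Fintype I] {D : I → V → V → ℝ}
    (hD : ∀ i, DOK u v M (D i)) {t : I → ℝ} (ht : t ∈ stdSimplex ℝ I) :
    DOK u v M fun a b => ∑ i, t i * D i a b := by
  refine ⟨fun a b => sum_nonneg fun i _ => mul_nonneg (ht.1 i) ((hD i).1 a b), fun S => ?_⟩
  have h1 : cutD (fun a b => ∑ i, t i * D i a b) S = ∑ i, t i * cutD (D i) S := by
    unfold cutD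
    simp only [mul_sum]
    rw [sum_comm (s := univ) (t := univ) (f := fun i a => ∑ b, t i * if Sep S a b then D i a b else 0)]
    refine sum_congr rfl fun a _ => ?_
    rw [sum_comm]
    refine sum_congr rfl fun b _ => ?_
    split_ifs <;> simp
  rw [h1]
  calc ∑ i, t i * cutD (D i) S ≤ ∑ i, t i * (M * ((cutE u v univ S).card : ℝ) + 1) :=
        sum_le_sum fun i _ => mul_le_mul_of_nonneg_left ((hD i).2 S) (ht.1 i)
    _ = _ := by rw [← sum_mul, ht.2, one_mul]

omit [DecidableEq V] in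
/-- Many crossing edges have a large resistance. -/
theorem sum_gt {u v : E → V} {k δ η ε : ℝ} (hδ1 : δ < 1) (hη : 0 < η) (hε : ε < δ * η)
    (hpc : PC u v univ k) {F : Finset E} {π : V → ℕ} {r : E → ℝ} (h0 : ∀ e, 0 ≤ r e)
    (h1 : ∀ e, e ∉ F → η < r e)
    (h2 : ((crossE u v F π).card : ℝ) < (1 - δ) * k * ((nparts π : ℝ) - 1)) :
    ε * (crossE u v univ π).card < ∑ e ∈ crossE u v univ π, r e := by
  have h3 : crossE u v F π ⊆ crossE u v univ π := filter_subset_filter _ (subset_univ _)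
  have h4 : ∑ e ∈ crossE u v univ π \ crossE u v F π, r e ≤ ∑ e ∈ crossE u v univ π, r e :=
    sum_le_sum_of_subset_of_nonneg sdiff_subset fun e _ _ => h0 e
  have h5 : (crossE u v univ π \ crossE u v F π).card • η ≤
      ∑ e ∈ crossE u v univ π \ crossE u v F π, r e := by
    refine card_nsmul_le_sum _ _ _ fun e he => (h1 e fun h => ?_).le
    rw [mem_sdiff] at he
    exact he.2 (mem_filter.2 ⟨h, (mem_filter.1 he.1).2⟩)
  rw [nsmul_eq_mul, card_sdiff_of_subset h3, Nat.cast_sub (card_le_card h3)] at h5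
  have h6 := mul_le_mul_of_nonneg_left (hpc π) (sub_pos.2 hδ1).le
  have h7 : (0 : ℝ) ≤ (crossE u v univ π).card := Nat.cast_nonneg _
  have h8 := mul_le_mul_of_nonneg_right hε.le h7
  have h9 : δ * (crossE u v univ π).card <
      (crossE u v univ π).card - (crossE u v F π).card := by linarith
  have h10 := mul_lt_mul_of_pos_right h9 hη
  linarith

end Fix

open _root_.Vale.Agent.P061Z.Fix in
theorem fix (u v : E → V) (k δ η ε M : ℝ) (hk : 0 < k) (hδ : 0 < δ) (hδ1 : δ < 1) (hη : 0 < η)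
    (hε : ε < δ * η) (hpc : PC u v univ k)
    (hC : ∀ 𝒦 : Finset (V → ℕ), (∀ π ∈ 𝒦, ∀ π' ∈ 𝒦, Ref π π' ∨ Ref π' π) →
      (∀ π ∈ 𝒦, PartsEC u v π ((1 - δ) * k)) →
      ∃ D : V → V → ℝ, DOK u v M D ∧
        ∀ π ∈ 𝒦, ∑ e ∈ crossE u v univ π, res u v D e ≤ ε * (crossE u v univ π).card) :
    ∃ D : V → V → ℝ, DOK u v M D ∧
      PC u v (univ.filter fun e => res u v D e ≤ 2 * η) ((1 - δ) * k) := by
  obtain ⟨P, hP1, hP2, hP3⟩ := flats u v ((1 - δ) * k) (mul_pos (sub_pos.2 hδ1) hk)
  have hex : ∀ K : Finset (Finset E), ∃ D : V → V → ℝ, DOK u v M D ∧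
      ((∀ F ∈ K, ∀ F' ∈ K, F ⊆ F' ∨ F' ⊆ F) → ∀ F ∈ K,
        ∑ e ∈ crossE u v univ (P F), res u v D e ≤ ε * (crossE u v univ (P F)).card) := by
    intro K
    by_cases hK : ∀ F ∈ K, ∀ F' ∈ K, F ⊆ F' ∨ F' ⊆ F
    · obtain ⟨D, h1, h2⟩ := hC (K.image P) (fun π hπ π' hπ' => by
        obtain ⟨F, hF, rfl⟩ := mem_image.1 hπ
        obtain ⟨F', hF', rfl⟩ := mem_image.1 hπ'
        exact (hK F hF F' hF').imp (hP1 F F') (hP1 F' F)) (fun π hπ => by
        obtain ⟨F, -, rfl⟩ := mem_image.1 hπ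
        exact hP2 F)
      exact ⟨D, h1, fun _ F hF => h2 _ (mem_image_of_mem P hF)⟩
    · obtain ⟨D, h1, -⟩ := hC ∅ (by simp) (by simp)
      exact ⟨D, h1, fun h => absurd h hK⟩
  choose D hD1 hD2 using hex
  by_contra hcon
  push Not at hcon
  set r : (Finset (Finset E) → ℝ) → E → ℝ :=
    fun t e => res u v (fun a b => ∑ K, t K * D K a b) e with hr
  have hrc : ∀ e, ContinuousOn (fun t => r t e) (stdSimplex ℝ (Finset (Finset E))) :=
    fun e => res_continuousOn u v D (fun K => (hD1 K).1) e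
  obtain ⟨t, ht, hpos⟩ := kyfan
    (fun t K => ∑ F, lam η F (r t) * ∑ e ∈ crossE u v univ (P F), (r t e - res u v (D K) e))
    (fun K => continuousOn_finsetSum _ fun F _ => (lam_cont η F hrc).mul
      (continuousOn_finsetSum _ fun e _ => (hrc e).sub continuousOn_const))
    (fun t ht => by
      have hok := dok_convex hD1 ht
      refine ⟨univ.filter fun F => 0 < lam η F (r t), ?_⟩
      have key : ∀ F, 0 < lam η F (r t) → 0 < ∑ e ∈ crossE u v univ (P F),
          (r t e - res u v (D (univ.filter fun F => 0 < lam η F (r t))) e) := by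
        intro F hF
        have h1 := hD2 (univ.filter fun F => 0 < lam η F (r t))
          (fun F hF F' hF' => lam_chain (mem_filter.1 hF).2 (mem_filter.1 hF').2) F
          (mem_filter.2 ⟨mem_univ _, hF⟩)
        have h2 : ¬ PC u v F ((1 - δ) * k) := fun h => hcon _ hok
          (pc_mono (fun e he => mem_filter.2 ⟨mem_univ _, ((lam_pos hF).1 e he).le⟩) h)
        have h3 := sum_gt hδ1 hη hε hpc (r := r t) (fun e => res_nonneg u v hok.1 e)
          (lam_pos hF).2.1 (hP3 F h2)
        rw [sum_sub_distrib]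
        linarith
      refine sum_pos' (fun F _ => ?_) ⟨_, mem_univ _, mul_pos (lam_low hη _) (key _ (lam_low hη _))⟩
      rcases (lam_nonneg η F (r t)).eq_or_lt with h | h
      · rw [← h, zero_mul]
      · exact (mul_pos h (key F h)).le)
  have h1 : 0 < ∑ K, t K * ∑ F, lam η F (r t) *
      ∑ e ∈ crossE u v univ (P F), (r t e - res u v (D K) e) := by
    obtain ⟨K, hK⟩ : ∃ K, 0 < t K := by
      by_contra h
      push Not at h
      have h2 := sum_nonpos (s := univ) fun K _ => h K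
      rw [ht.2] at h2
      linarith
    refine sum_pos' (fun K _ => ?_) ⟨K, mem_univ _, mul_pos hK (hpos K hK)⟩
    rcases (ht.1 K).eq_or_lt with h | h
    · rw [← h, zero_mul]
    · exact (mul_pos h (hpos K h)).le
  have h2 : ∑ K, t K * ∑ F, lam η F (r t) *
      ∑ e ∈ crossE u v univ (P F), (r t e - res u v (D K) e) =
      ∑ F, lam η F (r t) *
        ∑ e ∈ crossE u v univ (P F), (r t e - ∑ K, t K * res u v (D K) e) := by
    simp only [mul_sum]
    rw [sum_comm]
    refine sum_congr rfl fun F _ => ?_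
    rw [sum_comm]
    refine sum_congr rfl fun e _ => ?_
    have h3 : ∀ K, t K * (lam η F (r t) * (r t e - res u v (D K) e)) =
        lam η F (r t) * r t e * t K - lam η F (r t) * (t K * res u v (D K) e) := fun K => by ring
    simp only [h3]
    rw [sum_sub_distrib, ← mul_sum, ← mul_sum, ht.2, mul_one, mul_sub]
  rw [h2] at h1
  refine absurd h1 (not_lt.2 (sum_nonpos fun F _ => mul_nonpos_of_nonneg_of_nonpos
    (lam_nonneg _ _ _) (sum_nonpos fun e _ => sub_nonpos.2 ?_)))
  exact res_convex u v D (fun K => (hD1 K).1) ht e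

end Vale.Agent.P061Z
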