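import Vale.Agent.P061Z.Defs

/-! # P061: the canonical partition of an edge set -/

namespace Vale.Agent.P061Z

open Finset Module

variable {V E : Type} [Fintype V] [DecidableEq V] [Fintype E] [DecidableEq E]

namespace Flats

/-- The edge `e` does not vanish on the subspace `W`. -/
def Nv (u v : E → V) (W : Submodule ℝ (V → ℝ)) (e : E) : Prop := ∃ x ∈ W, x (u e) ≠ x (v e)

open Classical in
/-- The number of edges of `F` that do not vanish on `W`. -/
noncomputable def cnt (u v : E → V) (F : Finset E) (W : Submodule ℝ (V → ℝ)) : ℕ :=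
  (F.filter (Nv u v W)).card

/-- The function that is minimised. -/
noncomputable def gg (u v : E → V) (κ : ℝ) (F : Finset E) (W : Submodule ℝ (V → ℝ)) : ℝ :=
  cnt u v F W - κ * finrank ℝ W

omit [Fintype V] [DecidableEq V] [Fintype E] [DecidableEq E] in
theorem Nv.sup {u v : E → V} {W W' : Submodule ℝ (V → ℝ)} {e : E} (h : Nv u v (W ⊔ W') e) :
    Nv u v W e ∨ Nv u v W' e := by
  obtain ⟨x, hx, h1⟩ := h
  obtain ⟨y, hy, z, hz, rfl⟩ := Submodule.mem_sup.1 hx
  by_cases h2 : y (u e) = y (v e)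
  · refine Or.inr ⟨z, hz, fun h3 => h1 ?_⟩
    simp only [Pi.add_apply, h2, h3]
  · exact Or.inl ⟨y, hy, h2⟩

omit [Fintype V] [DecidableEq V] [Fintype E] [DecidableEq E] in
theorem Nv.mono {u v : E → V} {W W' : Submodule ℝ (V → ℝ)} (hW : W ≤ W') {e : E}
    (h : Nv u v W e) : Nv u v W' e := by
  obtain ⟨x, hx, h1⟩ := h
  exact ⟨x, hW hx, h1⟩

omit [DecidableEq V] [Fintype E] [DecidableEq E] in
theorem exists_opt (u v : E → V) (κ : ℝ) (F : Finset E) :
    ∃ W : Submodule ℝ (V → ℝ), (∀ W', gg u v κ F W ≤ gg u v κ F W') ∧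
      ∀ W', gg u v κ F W' ≤ gg u v κ F W → finrank ℝ W' ≤ finrank ℝ W := by
  classical
  have hd : ∀ W : Submodule ℝ (V → ℝ), finrank ℝ W ≤ finrank ℝ (V → ℝ) := fun W =>
    Submodule.finrank_le W
  have h1 : (Set.range (gg u v κ F)).Finite := by
    refine ((Set.finite_Iic F.card).prod (Set.finite_Iic (finrank ℝ (V → ℝ)))).image
      (fun p : ℕ × ℕ => (p.1 : ℝ) - κ * p.2) |>.subset ?_
    rintro _ ⟨W, rfl⟩
    exact ⟨(cnt u v F W, finrank ℝ W), ⟨card_filter_le _ _, hd W⟩, rfl⟩
  obtain ⟨_, ⟨W0, rfl⟩, h2⟩ := Set.exists_min_image _ id h1 ⟨_, ⊥, rfl⟩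
  have h3 : ((fun W : Submodule ℝ (V → ℝ) => finrank ℝ W) ''
      {W | gg u v κ F W ≤ gg u v κ F W0}).Finite := by
    refine (Set.finite_Iic (finrank ℝ (V → ℝ))).subset ?_
    rintro _ ⟨W, -, rfl⟩
    exact hd W
  obtain ⟨_, ⟨W, hW, rfl⟩, h4⟩ := Set.exists_max_image _ id h3 ⟨_, W0, le_refl (gg u v κ F W0), rfl⟩
  exact ⟨W, fun W' => le_trans hW (h2 _ ⟨W', rfl⟩),
    fun W' h => h4 _ ⟨W', le_trans h hW, rfl⟩⟩

/-- The functions that are constant on the parts of `π`. -/
noncomputable def pc (π : V → ℕ) : Submodule ℝ (V → ℝ) :=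
  LinearMap.range (LinearMap.funLeft ℝ ℝ
    fun a : V => (⟨π a, mem_image_of_mem π (mem_univ a)⟩ : (univ.image π : Finset ℕ)))

omit [DecidableEq V] in
theorem part_surj (π : V → ℕ) : Function.Surjective
    fun a : V => (⟨π a, mem_image_of_mem π (mem_univ a)⟩ : (univ.image π : Finset ℕ)) := by
  rintro ⟨x, hx⟩
  obtain ⟨a, -, rfl⟩ := mem_image.1 hx
  exact ⟨a, rfl⟩

omit [DecidableEq V] in
theorem finrank_pc (π : V → ℕ) : finrank ℝ (pc π) = nparts π := by
  unfold pc nparts
  rw [LinearMap.finrank_range_of_inj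
    (LinearMap.funLeft_injective_of_surjective ℝ ℝ _ (part_surj π))]
  simp

omit [DecidableEq V] in
theorem mem_pc {π : V → ℕ} {x : V → ℝ} : x ∈ pc π ↔ ∀ a b, π a = π b → x a = x b := by
  constructor
  · rintro ⟨y, rfl⟩ a b h
    simp only [LinearMap.funLeft_apply, h]
  · intro h
    refine ⟨fun p => x (part_surj π p).choose, ?_⟩
    funext a
    simp only [LinearMap.funLeft_apply]
    exact h _ _ (congrArg Subtype.val
      (part_surj π ⟨π a, mem_image_of_mem π (mem_univ a)⟩).choose_spec)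

omit [DecidableEq V] [Fintype E] [DecidableEq E] in
theorem nv_pc {u v : E → V} {π : V → ℕ} {e : E} : Nv u v (pc π) e ↔ π (u e) ≠ π (v e) := by
  constructor
  · rintro ⟨x, hx, h⟩ h1
    exact h (mem_pc.1 hx _ _ h1)
  · intro h
    exact ⟨fun a => π a, mem_pc.2 fun a b h1 => by rw [h1], fun h1 => h (Nat.cast_injective h1)⟩

omit [DecidableEq V] [Fintype E] [DecidableEq E] in
theorem cnt_pc (u v : E → V) (F : Finset E) (π : V → ℕ) :
    cnt u v F (pc π) = (crossE u v F π).card := by
  classical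
  unfold cnt crossE
  rw [filter_congr fun e _ => nv_pc]

open Classical in
/-- The labelling by the classes of points that are not separated by `W`. -/
noncomputable def lab (W : Submodule ℝ (V → ℝ)) (a : V) : ℕ :=
  Fintype.equivFin (Finset V) (univ.filter fun b => ∀ x ∈ W, x a = x b)

omit [DecidableEq V] in
theorem lab_eq {W : Submodule ℝ (V → ℝ)} {a b : V} :
    lab W a = lab W b ↔ ∀ x ∈ W, x a = x b := by
  classical
  unfold lab
  rw [Fin.val_inj, (Fintype.equivFin (Finset V)).injective.eq_iff, Finset.ext_iff]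
  simp only [mem_filter, mem_univ, true_and]
  constructor
  · intro h
    exact (h b).2 fun _ _ => rfl
  · intro h c
    exact forall₂_congr fun x hx => by rw [h x hx]

omit [DecidableEq V] [Fintype E] [DecidableEq E] in
theorem nv_lab {u v : E → V} {W : Submodule ℝ (V → ℝ)} {e : E} :
    Nv u v W e ↔ lab W (u e) ≠ lab W (v e) := by
  rw [Ne, lab_eq]
  unfold Nv
  push Not
  rfl

omit [DecidableEq V] [Fintype E] [DecidableEq E] in
theorem cnt_lab (u v : E → V) (F : Finset E) (W : Submodule ℝ (V → ℝ)) :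
    cnt u v F W = (crossE u v F (lab W)).card := by
  classical
  unfold cnt crossE
  rw [filter_congr fun e _ => nv_lab]

omit [DecidableEq V] in
theorem le_pc_lab (W : Submodule ℝ (V → ℝ)) : W ≤ pc (lab W) :=
  fun x hx => mem_pc.2 fun _ _ h => lab_eq.1 h x hx

omit [Fintype V] [DecidableEq V] in
theorem cnt_submod (u v : E → V) {F F' : Finset E} (h : F ⊆ F') (W W' : Submodule ℝ (V → ℝ)) :
    cnt u v F (W ⊔ W') + cnt u v F' (W ⊓ W') ≤ cnt u v F W + cnt u v F' W' := by
  classical
  have key : ∀ (A : Finset E) (U : Submodule ℝ (V → ℝ)),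
      cnt u v A U = ∑ e, if e ∈ A ∧ Nv u v U e then 1 else 0 := by
    intro A U
    rw [← card_filter]
    unfold cnt
    congr 1
    ext e
    simp only [mem_filter, mem_univ, true_and]
  simp only [key, ← sum_add_distrib]
  refine sum_le_sum fun e _ => ?_
  have h1 : Nv u v (W ⊔ W') e → Nv u v W e ∨ Nv u v W' e := Nv.sup
  have h2 : Nv u v (W ⊓ W') e → Nv u v W e ∧ Nv u v W' e := fun h3 =>
    ⟨h3.mono inf_le_left, h3.mono inf_le_right⟩
  have h3 : e ∈ F → e ∈ F' := fun h3 => h h3
  split_ifs <;> first | omega | tauto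

end Flats

open Flats in
theorem flats (u v : E → V) (κ : ℝ) (hκ : 0 < κ) :
    ∃ P : Finset E → V → ℕ, (∀ F F', F ⊆ F' → Ref (P F) (P F')) ∧
      (∀ F, PartsEC u v (P F) κ) ∧
      ∀ F, ¬ PC u v F κ → ((crossE u v F (P F)).card : ℝ) < κ * ((nparts (P F) : ℝ) - 1) := by
  classical
  choose W hW1 hW2 using exists_opt u v κ
  refine ⟨fun F => lab (W F), fun F F' h => ?_, fun F => ?_, fun F h => ?_⟩
  · have h1 : (cnt u v F (W F ⊔ W F') : ℝ) + cnt u v F' (W F ⊓ W F') ≤
        cnt u v F (W F) + cnt u v F' (W F') := by exact_mod_cast cnt_submod u v h _ _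
    have h2 : (finrank ℝ (W F ⊔ W F' : Submodule ℝ (V → ℝ)) : ℝ) +
        finrank ℝ (W F ⊓ W F' : Submodule ℝ (V → ℝ)) = finrank ℝ (W F) + finrank ℝ (W F') := by
      exact_mod_cast Submodule.finrank_sup_add_finrank_inf_eq (W F) (W F')
    have h3 := hW1 F' (W F ⊓ W F')
    have h4 : gg u v κ F (W F ⊔ W F') ≤ gg u v κ F (W F) := by
      unfold gg at h3 ⊢
      have h5 := congrArg (fun y => κ * y) h2
      simp only [mul_add] at h5
      linarith
    have h5 : W F = W F ⊔ W F' := Submodule.eq_of_le_of_finrank_le le_sup_left (hW2 F _ h4)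
    intro a b hab
    exact lab_eq.2 fun x hx => lab_eq.1 hab x (h5 ▸ Submodule.mem_sup_right hx)
  · intro S a b hab ha hb
    set χ : V → ℝ := fun c => if lab (W F) c = lab (W F) a ∧ c ∈ S then 1 else 0 with hχ
    have h1 : χ ∉ W F := by
      intro h
      have h2 := lab_eq.1 hab χ h
      simp [hχ, ha, hb] at h2
    have h2 : W F < W F ⊔ Submodule.span ℝ {χ} := by
      refine lt_of_le_of_ne le_sup_left fun h => h1 ?_
      rw [h]
      exact Submodule.mem_sup_right (Submodule.mem_span_singleton_self χ)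
    have h3 := Submodule.finrank_lt_finrank_of_lt h2
    have h4 : gg u v κ F (W F) < gg u v κ F (W F ⊔ Submodule.span ℝ {χ}) := by
      by_contra h
      exact absurd (hW2 F _ (not_lt.1 h)) (not_le.2 h3)
    have h5 : cnt u v F (W F ⊔ Submodule.span ℝ {χ}) ≤ cnt u v F (W F) +
        (univ.filter fun e => lab (W F) (u e) = lab (W F) a ∧ lab (W F) (v e) = lab (W F) a ∧
          Sep S (u e) (v e)).card := by
      unfold cnt
      refine le_trans (card_le_card fun e he => ?_) (card_union_le _ _)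
      rw [mem_filter] at he
      by_cases h6 : Nv u v (W F) e
      · exact mem_union_left _ (mem_filter.2 ⟨he.1, h6⟩)
      · refine mem_union_right _ (mem_filter.2 ⟨mem_univ _, ?_⟩)
        obtain ⟨x, hx, h7⟩ := he.2.sup.resolve_left h6
        obtain ⟨c, rfl⟩ := Submodule.mem_span_singleton.1 hx
        have h8 : χ (u e) ≠ χ (v e) := fun h => h7 (by simp only [Pi.smul_apply, h])
        rw [nv_lab, not_not] at h6
        simp only [hχ, h6] at h8
        unfold Sep
        rw [h6]
        by_cases h9 : lab (W F) (v e) = lab (W F) a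
        · refine ⟨h9, h9, fun h => h8 ?_⟩
          simp only [h]
        · simp [h9] at h8
    have h6 : (finrank ℝ (W F) : ℝ) + 1 ≤
        finrank ℝ (W F ⊔ Submodule.span ℝ {χ} : Submodule ℝ (V → ℝ)) := by exact_mod_cast h3
    have h7 := mul_le_mul_of_nonneg_left h6 hκ.le
    have h8 := (Nat.cast_le (α := ℝ)).2 h5
    unfold gg at h4
    push_cast at h8
    linarith
  · unfold PC at h
    push Not at h
    obtain ⟨π, hπ⟩ := h
    have h1 := hW1 F (pc π)
    have h2 : (finrank ℝ (W F) : ℝ) ≤ nparts (lab (W F)) := by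
      rw [← finrank_pc]
      exact_mod_cast Submodule.finrank_mono (le_pc_lab (W F))
    have h3 := mul_le_mul_of_nonneg_left h2 hκ.le
    unfold gg at h1
    rw [cnt_pc, finrank_pc, cnt_lab] at h1
    linarith

end Vale.Agent.P061Z
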