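import Vale.Agent.P061Z.White

/-! # P061: weights with small leverage -/

namespace Vale.Agent.P061Z

open Finset

namespace ForsterA

variable {J n : Type} [DecidableEq J] [Fintype n] [DecidableEq n]

omit [DecidableEq J] [DecidableEq n] in
/-- On a complement of the common kernel of the functionals of `T` every functional is
dominated by them. -/
theorem exists_compl (T : Finset J) (φ : J → (n → ℝ) →ₗ[ℝ] ℝ) :
    ∃ W N : Submodule ℝ (n → ℝ), (∀ j ∈ T, ∀ x ∈ W, φ j x = 0) ∧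
      Module.finrank ℝ W + Module.finrank ℝ N = Fintype.card n ∧
      ∀ j, ∃ C : ℝ, ∀ x ∈ N, (φ j x) ^ 2 ≤ C * ∑ i ∈ T, (φ i x) ^ 2 := by
  obtain ⟨N, hN⟩ := (⨅ i : T, LinearMap.ker (φ i)).exists_isCompl
  refine ⟨⨅ i : T, LinearMap.ker (φ i), N, fun j hj x hx => ?_, ?_, fun j => ?_⟩
  · exact (Submodule.mem_iInf _).1 hx ⟨j, hj⟩
  · rw [Submodule.finrank_add_eq_of_isCompl hN, Module.finrank_fintype_fun_eq_card]
  · have h : ⨅ i : T, LinearMap.ker ((φ i).domRestrict N) ≤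
        LinearMap.ker ((φ j).domRestrict N) := by
      intro x hx
      have h1 : (x : n → ℝ) ∈ (⨅ i : T, LinearMap.ker (φ i)) ⊓ N :=
        ⟨(Submodule.mem_iInf _).2 fun i => (Submodule.mem_iInf _).1 hx i, x.2⟩
      rw [hN.inf_eq_bot, Submodule.mem_bot] at h1
      simp [h1]
    obtain ⟨a, ha⟩ := (Submodule.mem_span_range_iff_exists_fun ℝ).1
      (mem_span_of_iInf_ker_le_ker h)
    refine ⟨∑ i, a i ^ 2, fun x hx => ?_⟩
    have h2 := congrArg (fun f => f ⟨x, hx⟩) ha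
    simp only [LinearMap.coe_sum, Finset.sum_apply, LinearMap.smul_apply,
      LinearMap.domRestrict_apply, smul_eq_mul] at h2
    rw [← h2, ← Finset.sum_coe_sort T]
    exact sum_mul_sq_le_sq_mul_sq _ _ _

omit [DecidableEq n] in
theorem exists_const (F : Finset J) (φ : J → (n → ℝ) →ₗ[ℝ] ℝ) :
    ∃ C : ℝ, 0 < C ∧ ∀ S ⊆ F, ∃ W N : Submodule ℝ (n → ℝ), (∀ j ∈ F \ S, ∀ x ∈ W, φ j x = 0) ∧
      Module.finrank ℝ W + Module.finrank ℝ N = Fintype.card n ∧
      ∀ j ∈ S, ∀ x ∈ N, (φ j x) ^ 2 ≤ C * ∑ i ∈ F \ S, (φ i x) ^ 2 := by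
  choose W N h1 h2 C h3 using fun S : Finset J => exists_compl (F \ S) φ
  obtain ⟨M, hM⟩ := ((F.powerset ×ˢ F).image fun z => C z.1 z.2).bddAbove
  refine ⟨max M 1, lt_max_of_lt_right one_pos, fun S hS => ⟨W S, N S, h1 S, h2 S, ?_⟩⟩
  intro j hj x hx
  refine (h3 S j x hx).trans (mul_le_mul_of_nonneg_right ?_ (sum_nonneg fun _ _ => sq_nonneg _))
  refine le_max_of_le_left (hM ?_)
  exact mem_coe.2 (mem_image.2 ⟨(S, j), mem_product.2 ⟨mem_powerset.2 hS, hS hj⟩, rfl⟩)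

omit [DecidableEq J] in
theorem exists_gap (F : Finset J) (k : J → ℕ) (G : ℕ) :
    ∃ m ≤ F.card, ∀ i ∈ F, k i ≤ m * G ∨ (m + 1) * G < k i := by
  by_contra h
  push Not at h
  have : Nonempty J := ⟨(h 0 (Nat.zero_le _)).choose⟩
  choose! f hf using h
  have h1 := Finset.card_le_card_of_injOn (s := range (F.card + 1)) (t := F) f
    (fun m hm => (hf m (Nat.lt_succ_iff.1 (mem_range.1 hm))).1) fun m hm m' hm' e => by
      have a1 := (hf m (Nat.lt_succ_iff.1 (mem_range.1 hm))).2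
      have a2 := (hf m' (Nat.lt_succ_iff.1 (mem_range.1 hm'))).2
      rw [e] at a1
      have b1 : m * G < (m' + 1) * G := a1.1.trans_le a2.2
      have b2 : m' * G < (m + 1) * G := a2.1.trans_le a1.2
      have c1 := lt_of_mul_lt_mul_right b1 (Nat.zero_le G)
      have c2 := lt_of_mul_lt_mul_right b2 (Nat.zero_le G)
      omega
  simp at h1

omit [DecidableEq J] [DecidableEq n] in
theorem eq_zero {F : Finset J} {φ : J → (n → ℝ) →ₗ[ℝ] ℝ} {κ : ℝ} (hκ : 0 < κ)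
    (hF : ∀ (W : Submodule ℝ (n → ℝ)) (t : Finset J), t ⊆ F →
      (∀ j ∈ F, j ∉ t → ∀ x ∈ W, φ j x = 0) → κ * (Module.finrank ℝ W : ℝ) ≤ t.card)
    {x : n → ℝ} (hx : ∀ j ∈ F, φ j x = 0) : x = 0 := by
  by_contra h0
  have h := hF (Submodule.span ℝ {x}) ∅ (empty_subset _) fun j hj _ y hy => by
    obtain ⟨a, rfl⟩ := Submodule.mem_span_singleton.1 hy
    simp [hx j hj]
  rw [finrank_span_singleton h0] at h
  simp at h
  linarith

end ForsterA

open ForsterA in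
theorem forster_vec {J n : Type} [DecidableEq J] [Fintype n] [DecidableEq n] (F : Finset J)
    (φ : J → (n → ℝ) →ₗ[ℝ] ℝ) (κ c : ℝ) (hκ : 0 < κ) (hc : 1 / κ < c)
    (hF : ∀ (W : Submodule ℝ (n → ℝ)) (t : Finset J), t ⊆ F →
      (∀ j ∈ F, j ∉ t → ∀ x ∈ W, φ j x = 0) → κ * (Module.finrank ℝ W : ℝ) ≤ t.card) :
    ∃ ω : J → ℝ, (∀ j, 0 < ω j) ∧
      ∀ j ∈ F, ∀ x, ω j * (φ j x) ^ 2 ≤ c * ∑ i ∈ F, ω i * (φ i x) ^ 2 := by
  have hκ' : 0 < 1 / κ := by positivity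
  have hc0 : 0 < c := hκ'.trans hc
  obtain ⟨θ, hθ0, hθ1, hθ⟩ : ∃ θ : ℝ, 0 < θ ∧ θ < 1 ∧ 1 / κ < θ * c := by
    obtain ⟨c', h1, h2⟩ := exists_between hc
    exact ⟨c' / c, div_pos (hκ'.trans h1) hc0, (div_lt_one hc0).2 h2, by
      rwa [div_mul_cancel₀ _ hc0.ne']⟩
  obtain ⟨C, hC0, hC⟩ := exists_const F φ
  obtain ⟨G, hG⟩ := exists_pow_lt_of_lt_one (div_pos (sub_pos.2 hθ) hC0) hθ1
  rw [lt_div_iff₀ hC0] at hG
  let A : (J → ℕ) → Prop := fun k => ∀ j ∈ F, 0 < k j →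
    ∃ x, θ * c * ∑ i ∈ F, θ ^ k i * (φ i x) ^ 2 < θ ^ k j * (φ j x) ^ 2
  have hbd : ∀ k, A k → ∀ j ∈ F, k j ≤ (F.card + 1) * G := by
    intro k hk j hj
    by_contra hlt
    push Not at hlt
    obtain ⟨m, hm, hgap⟩ := exists_gap F k G
    set S := F.filter fun i => (m + 1) * G < k i with hS
    have hSF : S ⊆ F := filter_subset _ _
    have hjS : j ∈ S := mem_filter.2 ⟨hj, lt_of_le_of_lt
      (Nat.mul_le_mul_right G (Nat.succ_le_succ hm)) hlt⟩
    obtain ⟨W, N, h1, h2, h3⟩ := hC S hSF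
    have h4 := hF W S hSF fun i hi hiS => h1 i (mem_sdiff.2 ⟨hi, hiS⟩)
    have hw : ∀ i, 0 < θ ^ k i := fun i => pow_pos hθ0 _
    have hnn : ∀ i x, 0 ≤ θ ^ k i * (φ i x) ^ 2 := fun i x => mul_nonneg (hw i).le (sq_nonneg _)
    have hPD : IsPD fun x => ∑ i ∈ F, θ ^ k i * (φ i x) ^ 2 :=
      isPD_of_sq F (fun i => θ ^ k i) (fun i _ => (hw i).le) φ _ (fun _ => rfl) fun x hx => by
        refine eq_zero hκ hF fun i hi => ?_
        have h5 := (sum_eq_zero_iff_of_nonneg fun i _ => hnn i x).1 hx i hi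
        exact (pow_eq_zero_iff two_ne_zero).1 ((mul_eq_zero.1 h5).resolve_left (hw i).ne')
    have hsq : ∀ i x, ((√(θ ^ k i) • φ i) x) ^ 2 = θ ^ k i * (φ i x) ^ 2 := fun i x => by
      rw [LinearMap.smul_apply, smul_eq_mul, mul_pow, Real.sq_sqrt (hw i).le]
    obtain ⟨ρ, -, h6, h7⟩ := trace_bound S hPD (fun i => √(θ ^ k i) • φ i)
      (fun x => by
        simp only [hsq]
        exact sum_le_sum_of_subset_of_nonneg hSF fun i _ _ => hnn i x)
      N (θ ^ G * C) (by positivity) fun i hi x hx => by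
        rw [hsq]
        have a1 : θ ^ k i ≤ θ ^ G * θ ^ (m * G) := by
          rw [← pow_add]
          refine pow_le_pow_of_le_one hθ0.le hθ1.le ?_
          have := (mem_filter.1 hi).2
          rw [add_mul, one_mul] at this
          omega
        have a2 : θ ^ (m * G) * ∑ l ∈ F \ S, (φ l x) ^ 2 ≤ ∑ l ∈ F, θ ^ k l * (φ l x) ^ 2 := by
          rw [mul_sum]
          refine (sum_le_sum fun l hl => ?_).trans
            (sum_le_sum_of_subset_of_nonneg (sdiff_subset (t := S)) fun l _ _ => hnn l x)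
          refine mul_le_mul_of_nonneg_right (pow_le_pow_of_le_one hθ0.le hθ1.le ?_) (sq_nonneg _)
          obtain ⟨hl1, hl2⟩ := mem_sdiff.1 hl
          exact (hgap l hl1).resolve_right fun h => hl2 (mem_filter.2 ⟨hl1, h⟩)
        calc θ ^ k i * (φ i x) ^ 2
            ≤ (θ ^ G * θ ^ (m * G)) * (C * ∑ l ∈ F \ S, (φ l x) ^ 2) :=
              mul_le_mul a1 (h3 i hi x hx) (sq_nonneg _) (by positivity)
          _ = θ ^ G * C * (θ ^ (m * G) * ∑ l ∈ F \ S, (φ l x) ^ 2) := by ring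
          _ ≤ _ := mul_le_mul_of_nonneg_left a2 (by positivity)
    have h8 : ∀ i ∈ S, θ * c ≤ ρ i := by
      intro i hi
      obtain ⟨x, hx⟩ := hk i (hSF hi) (lt_of_le_of_lt (Nat.zero_le _) (mem_filter.1 hi).2)
      have a1 := h6 i hi x
      rw [hsq] at a1
      exact (lt_of_mul_lt_mul_right (hx.trans_le a1) (sum_nonneg fun l _ => hnn l x)).le
    have h9 := card_nsmul_le_sum S ρ _ h8
    rw [nsmul_eq_mul] at h9
    have h10 : (Fintype.card n : ℝ) - Module.finrank ℝ N = Module.finrank ℝ W := by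
      rw [← h2]
      push_cast
      ring
    have h11 : (Module.finrank ℝ W : ℝ) ≤ 1 / κ * S.card := by
      rw [one_div, ← div_eq_inv_mul, le_div_iff₀ hκ]
      linarith
    have h12 : (0 : ℝ) < S.card := by exact_mod_cast card_pos.2 ⟨j, hjS⟩
    rw [h10] at h7
    nlinarith
  have hne : {s : ℕ | ∃ k, A k ∧ ∑ j ∈ F, k j = s}.Nonempty :=
    ⟨_, fun _ => 0, fun j _ h => absurd h (lt_irrefl 0), rfl⟩
  have hbd' : BddAbove {s : ℕ | ∃ k, A k ∧ ∑ j ∈ F, k j = s} := by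
    refine ⟨F.card * ((F.card + 1) * G), ?_⟩
    rintro s ⟨k, hk, rfl⟩
    exact sum_le_card_nsmul F k _ (hbd k hk)
  obtain ⟨k, hk, hks⟩ := Nat.sSup_mem hne hbd'
  refine ⟨fun j => θ ^ k j, fun j => pow_pos hθ0 _, fun j hj x => ?_⟩
  by_contra hlt
  push Not at hlt
  have hle : ∀ y, ∑ i ∈ F, θ ^ Function.update k j (k j + 1) i * (φ i y) ^ 2 ≤
      ∑ i ∈ F, θ ^ k i * (φ i y) ^ 2 := fun y => sum_le_sum fun i _ => by
    refine mul_le_mul_of_nonneg_right (pow_le_pow_of_le_one hθ0.le hθ1.le ?_) (sq_nonneg _)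
    by_cases hi : i = j
    · simp [hi]
    · simp [hi]
  have hA : A (Function.update k j (k j + 1)) := by
    intro i hi h0
    by_cases hij : i = j
    · subst hij
      refine ⟨x, (mul_le_mul_of_nonneg_left (hle x) (by positivity)).trans_lt ?_⟩
      rw [Function.update_self, pow_succ', mul_assoc, mul_assoc]
      exact mul_lt_mul_of_pos_left hlt hθ0
    · rw [Function.update_of_ne hij] at h0 ⊢
      obtain ⟨y, hy⟩ := hk i hi h0
      exact ⟨y, (mul_le_mul_of_nonneg_left (hle y) (by positivity)).trans_lt hy⟩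
  have h1 := le_csSup hbd' ⟨_, hA, rfl⟩
  rw [← hks, sum_update_of_mem hj, ← add_sum_erase F k hj, sdiff_singleton_eq_erase] at h1
  omega

end Vale.Agent.P061Z
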