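import Vale.Agent.P061Z.ForsterA

/-! # P061: a spectral certificate for partition connectivity -/

namespace Vale.Agent.P061Z

open Finset

variable {V E : Type} [Fintype V] [DecidableEq V] [Fintype E] [DecidableEq E]

namespace ForsterB

/-- Extension by zero at the root. -/
def ext0 (r : V) : ({a // a ≠ r} → ℝ) →ₗ[ℝ] (V → ℝ) where
  toFun y a := if h : a = r then 0 else y ⟨a, h⟩
  map_add' x y := by
    funext a
    by_cases h : a = r <;> simp [h]
  map_smul' c x := by
    funext a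
    by_cases h : a = r <;> simp [h]

omit [Fintype V] in
theorem ext0_root (r : V) (y : {a // a ≠ r} → ℝ) : ext0 r y r = 0 := dif_pos rfl

omit [Fintype V] in
theorem ext0_coe (r : V) (y : {a // a ≠ r} → ℝ) (a : {a // a ≠ r}) : ext0 r y a = y a :=
  dif_neg a.2

/-- The functions which are constant on the parts and vanish on the part of the root. -/
def pc (r : V) (π : V → ℕ) : Submodule ℝ ({a // a ≠ r} → ℝ) where
  carrier := {y | ∀ a b, π a = π b → ext0 r y a = ext0 r y b}
  zero_mem' := fun a b _ => by simp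
  add_mem' := fun {x y} hx hy a b h => by
    rw [map_add, Pi.add_apply, Pi.add_apply, hx a b h, hy a b h]
  smul_mem' := fun c x hx a b h => by
    rw [map_smul, Pi.smul_apply, Pi.smul_apply, hx a b h]

/-- Functions of the part. -/
def lift (r : V) (π : V → ℕ) :
    (((univ.image π).erase (π r) : Finset ℕ) → ℝ) →ₗ[ℝ] ({a // a ≠ r} → ℝ) where
  toFun g a := if h : π a = π r then 0 else g ⟨π a, mem_erase.2 ⟨h, mem_image_of_mem _ (mem_univ _)⟩⟩
  map_add' x y := by
    funext a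
    by_cases h : π a = π r <;> simp [h]
  map_smul' c x := by
    funext a
    by_cases h : π a = π r <;> simp [h]

theorem ext0_lift (r : V) (π : V → ℕ) (g : ((univ.image π).erase (π r) : Finset ℕ) → ℝ) (a : V) :
    ext0 r (lift r π g) a = if h : π a = π r then 0 else
      g ⟨π a, mem_erase.2 ⟨h, mem_image_of_mem _ (mem_univ _)⟩⟩ := by
  by_cases h : a = r
  · subst h
    rw [ext0_root, dif_pos rfl]
  · exact ext0_coe r _ ⟨a, h⟩

theorem finrank_pc (r : V) (π : V → ℕ) :
    (Module.finrank ℝ (pc r π) : ℝ) = (nparts π : ℝ) - 1 := by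
  have hinj : Function.Injective (lift r π) := by
    intro g g' h
    funext ⟨p, hp⟩
    obtain ⟨h1, h2⟩ := mem_erase.1 hp
    obtain ⟨a, -, rfl⟩ := mem_image.1 h2
    have h3 := ext0_lift r π g a
    rw [h, ext0_lift, dif_neg h1, dif_neg h1] at h3
    exact h3.symm
  have hr : LinearMap.range (lift r π) = pc r π := by
    ext y
    constructor
    · rintro ⟨g, rfl⟩ a b hab
      simp only [ext0_lift, hab]
    · intro hy
      have hex : ∀ p : ((univ.image π).erase (π r) : Finset ℕ), ∃ a, π a = p := fun p => by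
        obtain ⟨a, -, ha⟩ := mem_image.1 (mem_erase.1 p.2).2
        exact ⟨a, ha⟩
      choose s hs using hex
      refine ⟨fun p => ext0 r y (s p), funext fun a => ?_⟩
      rw [← ext0_coe r (lift r π _) a, ext0_lift, ← ext0_coe r y a]
      split_ifs with h
      · rw [hy _ _ h, ext0_root]
      · exact hy _ _ (hs _)
  rw [← hr, LinearMap.finrank_range_of_inj hinj, Module.finrank_fintype_fun_eq_card,
    Fintype.card_coe, card_erase_of_mem (mem_image_of_mem _ (mem_univ r)), nparts,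
    Nat.cast_sub (card_pos.2 ⟨π r, mem_image_of_mem _ (mem_univ r)⟩), Nat.cast_one]

theorem exists_label (r : V) (W : Submodule ℝ ({a // a ≠ r} → ℝ)) :
    ∃ π : V → ℕ, ∀ a b, π a = π b ↔ ∀ x ∈ W, ext0 r x a = ext0 r x b := by
  classical
  refine ⟨fun a => (Fintype.equivFin (Finset V)
    (univ.filter fun b => ∀ x ∈ W, ext0 r x a = ext0 r x b) : ℕ), fun a b => ?_⟩
  rw [Fin.val_inj, Equiv.apply_eq_iff_eq]
  constructor
  · intro h
    have h1 : b ∈ univ.filter fun c => ∀ x ∈ W, ext0 r x b = ext0 r x c :=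
      mem_filter.2 ⟨mem_univ _, fun _ _ => rfl⟩
    rw [← h] at h1
    exact (mem_filter.1 h1).2
  · intro h
    refine filter_congr fun c _ => forall₂_congr fun x hx => ?_
    rw [h x hx]

end ForsterB

open ForsterB in
theorem forster_graph [Nonempty V] (u v : E → V) (F : Finset E) (κ c : ℝ) (hκ : 0 < κ)
    (hc : 1 / κ < c) (hF : PC u v F κ) :
    ∃ (n : Type) (_ : Fintype n) (_ : DecidableEq n) (Q : (n → ℝ) → ℝ)
      (φ : E → (n → ℝ) →ₗ[ℝ] ℝ), IsPD Q ∧ (∀ e ∈ F, ∀ y, (φ e y) ^ 2 ≤ c * Q y) ∧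
      (∀ y, ∑ e ∈ F, (φ e y) ^ 2 ≤ Q y) ∧
      ∀ H ⊆ F, ∀ γ : ℝ, (∀ y, 1 / 2 * ∑ e ∈ F, (φ e y) ^ 2 - γ * Q y ≤ ∑ e ∈ H, (φ e y) ^ 2) →
        PC u v H ((1 / 2 - γ) / c) := by
  obtain ⟨r⟩ := ‹Nonempty V›
  have hc0 : 0 < c := lt_trans (by positivity) hc
  let ψ : E → ({a // a ≠ r} → ℝ) →ₗ[ℝ] ℝ := fun e => (bE u v e).comp (ext0 r)
  have hψ : ∀ e y, ψ e y = ext0 r y (u e) - ext0 r y (v e) := fun _ _ => rfl
  have hW : ∀ (W : Submodule ℝ ({a // a ≠ r} → ℝ)) (t : Finset E), t ⊆ F →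
      (∀ j ∈ F, j ∉ t → ∀ x ∈ W, ψ j x = 0) → κ * (Module.finrank ℝ W : ℝ) ≤ t.card := by
    intro W t _ ht
    obtain ⟨π, hπ⟩ := exists_label r W
    have h1 : W ≤ pc r π := fun x hx a b hab => (hπ a b).1 hab x hx
    have h2 : (Module.finrank ℝ W : ℝ) ≤ (nparts π : ℝ) - 1 := by
      rw [← finrank_pc r π]
      exact_mod_cast Submodule.finrank_mono h1
    have h3 : crossE u v F π ⊆ t := by
      intro e he
      obtain ⟨h4, h5⟩ := mem_filter.1 he
      by_contra h6
      exact h5 ((hπ _ _).2 fun x hx => sub_eq_zero.1 (ht e h4 h6 x hx))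
    calc κ * (Module.finrank ℝ W : ℝ) ≤ κ * ((nparts π : ℝ) - 1) :=
          mul_le_mul_of_nonneg_left h2 hκ.le
      _ ≤ _ := hF π
      _ ≤ _ := by exact_mod_cast card_le_card h3
  obtain ⟨ω, hω, h⟩ := forster_vec F ψ κ c hκ hc hW
  have hsq : ∀ e y, ((√(ω e) • ψ e) y) ^ 2 = ω e * (ψ e y) ^ 2 := fun e y => by
    rw [LinearMap.smul_apply, smul_eq_mul, mul_pow, Real.sq_sqrt (hω e).le]
  have hPD : IsPD fun y => ∑ e ∈ F, ω e * (ψ e y) ^ 2 :=
    isPD_of_sq F ω (fun e _ => (hω e).le) ψ _ (fun _ => rfl) fun x hx => by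
      refine ForsterA.eq_zero hκ hW fun i hi => ?_
      have h5 := (sum_eq_zero_iff_of_nonneg fun i _ =>
        mul_nonneg (hω i).le (sq_nonneg (ψ i x))).1 hx i hi
      exact (pow_eq_zero_iff two_ne_zero).1 ((mul_eq_zero.1 h5).resolve_left (hω i).ne')
  refine ⟨{a // a ≠ r}, inferInstance, inferInstance, fun y => ∑ e ∈ F, ω e * (ψ e y) ^ 2,
    fun e => √(ω e) • ψ e, hPD, fun e he y => ?_, fun y => ?_, fun H hH γ hγ π => ?_⟩
  · rw [hsq]
    exact h e he y
  · simp only [hsq]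
    exact le_rfl
  · have h1 := bessel_bound H (crossE u v H π) (filter_subset _ _) hPD (fun e => √(ω e) • ψ e)
      c (1 / 2 - γ) hc0.le (fun e he y => by rw [hsq]; exact h e (hH he) y) (pc r π)
      (fun e he he' x hx => by
        have h2 : π (u e) = π (v e) := by
          by_contra h3
          exact he' (mem_filter.2 ⟨he, h3⟩)
        rw [LinearMap.smul_apply, hψ, hx _ _ h2, sub_self, smul_zero])
      fun x _ => by
        have h2 := hγ x
        simp only [hsq] at h2 ⊢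
        linarith
    rw [finrank_pc] at h1
    rw [div_mul_eq_mul_div, div_le_iff₀ hc0]
    linarith

end Vale.Agent.P061Z
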