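import Vale.Agent.P061Z.Defs

/-! # P061: whitening lemmas -/

namespace Vale.Agent.P061Z

open Finset

namespace White

open scoped RealInnerProductSpace

section abs

variable {E : Type} [NormedAddCommGroup E] [InnerProductSpace ℝ E]

theorem le_of_sq_le {a c : ℝ} (ha : 0 ≤ a) (hc : 0 ≤ c) (h : a ^ 2 ≤ c * a) : a ≤ c := by
  rcases ha.eq_or_lt with h0 | h0
  · rwa [← h0]
  · exact le_of_mul_le_mul_right (by rwa [← sq]) h0

variable [FiniteDimensional ℝ E]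

theorem norm_proj (K : Submodule ℝ E) (x : E) : ‖K.orthogonalProjectionOnto x‖ ^ 2 =
    ∑ i, ⟪x, (stdOrthonormalBasis ℝ K i : E)⟫ ^ 2 := by
  rw [← (stdOrthonormalBasis ℝ K).sum_sq_inner_left]
  simp only [Submodule.inner_orthogonalProjectionOnto_eq_of_mem_right]

theorem norm_std (K : Submodule ℝ E) (i) : ‖(stdOrthonormalBasis ℝ K i : E)‖ = 1 :=
  (stdOrthonormalBasis ℝ K).orthonormal.1 i

theorem proj_le {K : Submodule ℝ E} {x : E} {γ : ℝ} (hγ : 0 ≤ γ)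
    (h : ∀ y ∈ K, ⟪x, y⟫ ^ 2 ≤ γ * ‖y‖ ^ 2) : ‖K.orthogonalProjectionOnto x‖ ^ 2 ≤ γ := by
  refine le_of_sq_le (sq_nonneg _) hγ ?_
  have h1 := h _ (K.orthogonalProjectionOnto x).2
  rwa [← Submodule.inner_orthogonalProjectionOnto_eq_of_mem_right, real_inner_self_eq_norm_sq]
    at h1

theorem trace_abs {J : Type} (s : Finset J) (U : J → E) (hs : ∀ y, ∑ j ∈ s, ⟪U j, y⟫ ^ 2 ≤ ‖y‖ ^ 2)
    (K : Submodule ℝ E) {γ : ℝ} (hγ : 0 ≤ γ) (hK : ∀ j ∈ s, ∀ y ∈ K, ⟪U j, y⟫ ^ 2 ≤ γ * ‖y‖ ^ 2) :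
    ∑ j ∈ s, ‖U j‖ ^ 2 ≤ (Module.finrank ℝ Kᗮ : ℝ) + γ * s.card := by
  have h1 : ∑ j ∈ s, ‖K.orthogonalProjectionOnto (U j)‖ ^ 2 ≤ γ * s.card := by
    refine (sum_le_card_nsmul s _ γ fun j hj => proj_le hγ (hK j hj)).trans_eq ?_
    rw [nsmul_eq_mul, mul_comm]
  have h2 : ∑ j ∈ s, ‖Kᗮ.orthogonalProjectionOnto (U j)‖ ^ 2 ≤ (Module.finrank ℝ Kᗮ : ℝ) := by
    simp only [norm_proj]
    rw [sum_comm]
    refine (sum_le_card_nsmul _ _ 1 fun i _ => (hs _).trans_eq ?_).trans_eq (by simp)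
    rw [norm_std, one_pow]
  rw [sum_congr rfl fun j _ => Submodule.norm_sq_eq_add_norm_sq_projection (U j) K, sum_add_distrib]
  linarith

theorem bessel_abs {J : Type} (t : Finset J) (U : J → E) {c β : ℝ} (hc : 0 ≤ c)
    (K : Submodule ℝ E) (hU : ∀ j ∈ t, ∀ y ∈ K, ⟪U j, y⟫ ^ 2 ≤ c * ‖y‖ ^ 2)
    (hK : ∀ y ∈ K, β * ‖y‖ ^ 2 ≤ ∑ j ∈ t, ⟪U j, y⟫ ^ 2) :
    β * (Module.finrank ℝ K : ℝ) ≤ c * t.card := by
  have h1 : ∑ j ∈ t, ‖K.orthogonalProjectionOnto (U j)‖ ^ 2 ≤ c * t.card := by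
    refine (sum_le_card_nsmul t _ c fun j hj => proj_le hc (hU j hj)).trans_eq ?_
    rw [nsmul_eq_mul, mul_comm]
  refine le_trans ?_ h1
  simp only [norm_proj]
  rw [sum_comm]
  refine le_trans (le_of_eq ?_) (card_nsmul_le_sum _ _ β fun i _ => ?_)
  · simp [mul_comm]
  · have h2 := hK _ (stdOrthonormalBasis ℝ K i).2
    rwa [norm_std, one_pow, mul_one] at h2

end abs

variable {n : Type} [Fintype n] [DecidableEq n]

/-- A functional in the coordinates given by `P`. -/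
theorem apply_eq (P : (n → ℝ) ≃ₗ[ℝ] (n → ℝ)) (φ : (n → ℝ) →ₗ[ℝ] ℝ) (y : n → ℝ) :
    φ (P.symm y) = ∑ k, φ (P.symm (Pi.single k 1)) * y k := by
  have h := LinearMap.pi_apply_eq_sum_univ (φ ∘ₗ P.symm.toLinearMap) y
  simp only [LinearMap.comp_apply, LinearEquiv.coe_coe, smul_eq_mul] at h
  rw [h]
  refine sum_congr rfl fun k _ => ?_
  rw [mul_comm]
  congr 3
  funext j
  simp [Pi.single_apply, eq_comm]

theorem whiten {Q : (n → ℝ) → ℝ} (hQ : IsPD Q) :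
    ∃ e : EuclideanSpace ℝ n ≃ₗ[ℝ] (n → ℝ), (∀ y, Q (e y) = ‖y‖ ^ 2) ∧
      ∀ φ : (n → ℝ) →ₗ[ℝ] ℝ, ∃ U : EuclideanSpace ℝ n, ∀ y, φ (e y) = ⟪U, y⟫ := by
  obtain ⟨P, hP⟩ := hQ
  refine ⟨(WithLp.linearEquiv 2 ℝ (n → ℝ)).trans P.symm, fun y => ?_, fun φ =>
    ⟨WithLp.toLp 2 fun k => φ (P.symm (Pi.single k 1)), fun y => ?_⟩⟩
  · simp [hP, EuclideanSpace.real_norm_sq_eq]
  · rw [LinearEquiv.trans_apply, apply_eq]
    simp [PiLp.inner_apply, mul_comm]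

end White

open White

variable {n : Type} [Fintype n] [DecidableEq n]

/-- A nonnegative combination of squares of functionals with trivial zero set. -/
theorem isPD_of_sq {J : Type} (s : Finset J) (w : J → ℝ) (hw : ∀ j ∈ s, 0 ≤ w j)
    (φ : J → (n → ℝ) →ₗ[ℝ] ℝ) (Q : (n → ℝ) → ℝ) (hQ : ∀ x, Q x = ∑ j ∈ s, w j * (φ j x) ^ 2)
    (hpos : ∀ x, Q x = 0 → x = 0) : IsPD Q := by
  let T : (n → ℝ) →ₗ[ℝ] EuclideanSpace ℝ s :=
    (WithLp.linearEquiv 2 ℝ (s → ℝ)).symm.toLinearMap ∘ₗ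
      LinearMap.pi fun j : s => Real.sqrt (w j) • φ j
  have hT : ∀ x, Q x = ‖T x‖ ^ 2 := by
    intro x
    rw [hQ, EuclideanSpace.real_norm_sq_eq, ← sum_coe_sort s]
    refine sum_congr rfl fun j _ => ?_
    simp [T, mul_pow, Real.sq_sqrt (hw j j.2)]
  have hinj : Function.Injective T :=
    (injective_iff_map_eq_zero T).2 fun x hx => hpos x (by simp [hT, hx])
  have hr : Module.finrank ℝ (LinearMap.range T) = Fintype.card n := by
    rw [LinearMap.finrank_range_of_inj hinj, Module.finrank_fintype_fun_eq_card]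
  let b : OrthonormalBasis n ℝ (LinearMap.range T) :=
    (stdOrthonormalBasis ℝ (LinearMap.range T)).reindex
      ((finCongr hr).trans (Fintype.equivFin n).symm)
  refine ⟨((LinearEquiv.ofInjective T hinj).trans b.repr.toLinearEquiv).trans
    (WithLp.linearEquiv 2 ℝ (n → ℝ)), fun x => ?_⟩
  have h1 := EuclideanSpace.real_norm_sq_eq (b.repr (LinearEquiv.ofInjective T hinj x))
  rw [b.repr.norm_map] at h1
  exact (hT x).trans h1

/-- Trace bound: functionals small on a subspace `N` have total norm at most the codimension of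
`N` plus the small part. -/
theorem trace_bound {J : Type} (s : Finset J) {Q : (n → ℝ) → ℝ} (hQ : IsPD Q)
    (φ : J → (n → ℝ) →ₗ[ℝ] ℝ) (hs : ∀ x, ∑ j ∈ s, (φ j x) ^ 2 ≤ Q x)
    (N : Submodule ℝ (n → ℝ)) (γ : ℝ) (hγ : 0 ≤ γ)
    (hN : ∀ j ∈ s, ∀ x ∈ N, (φ j x) ^ 2 ≤ γ * Q x) :
    ∃ ρ : J → ℝ, (∀ j, 0 ≤ ρ j) ∧ (∀ j ∈ s, ∀ x, (φ j x) ^ 2 ≤ ρ j * Q x) ∧
      ∑ j ∈ s, ρ j ≤ ((Fintype.card n : ℝ) - Module.finrank ℝ N) + γ * s.card := by
  obtain ⟨e, he, h⟩ := whiten hQ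
  choose U hU using fun j => h (φ j)
  refine ⟨fun j => ‖U j‖ ^ 2, fun j => sq_nonneg _, fun j _ x => ?_, ?_⟩
  · obtain ⟨y, rfl⟩ := e.surjective x
    rw [hU, he, ← mul_pow, ← sq_abs]
    exact pow_le_pow_left₀ (abs_nonneg _) (abs_real_inner_le_norm _ _) 2
  · have h1 := trace_abs s U (fun y => by simpa only [hU, he] using hs (e y))
      (N.map e.symm.toLinearMap) hγ fun j hj y hy => by
        simpa only [hU, he] using hN j hj (e y) (by
          obtain ⟨x, hx, rfl⟩ := hy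
          simpa using hx)
    have h2 := Submodule.finrank_add_finrank_orthogonal (N.map e.symm.toLinearMap)
    rw [LinearEquiv.finrank_map_eq, finrank_euclideanSpace] at h2
    rw [← h2, Nat.cast_add, add_sub_cancel_left]
    exact h1

/-- Bessel bound: if the functionals of `s` carry a `β` part of `Q` on `W`, and those outside `t`
vanish on `W`, then `t` is large. -/
theorem bessel_bound {J : Type} (s t : Finset J) (hts : t ⊆ s) {Q : (n → ℝ) → ℝ} (hQ : IsPD Q)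
    (φ : J → (n → ℝ) →ₗ[ℝ] ℝ) (c β : ℝ) (hc : 0 ≤ c)
    (hφ : ∀ j ∈ s, ∀ x, (φ j x) ^ 2 ≤ c * Q x) (W : Submodule ℝ (n → ℝ))
    (h0 : ∀ j ∈ s, j ∉ t → ∀ x ∈ W, φ j x = 0)
    (hW : ∀ x ∈ W, β * Q x ≤ ∑ j ∈ s, (φ j x) ^ 2) :
    β * (Module.finrank ℝ W : ℝ) ≤ c * t.card := by
  obtain ⟨e, he, h⟩ := whiten hQ
  choose U hU using fun j => h (φ j)
  have h1 := bessel_abs t U (β := β) hc (W.map e.symm.toLinearMap)
    (fun j hj y _ => by simpa only [hU, he] using hφ j (hts hj) (e y)) fun y hy => by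
      have hm : e y ∈ W := by
        obtain ⟨x, hx, rfl⟩ := hy
        simpa using hx
      have h2 := hW _ hm
      rw [← sum_subset hts fun j hj hjt => by rw [h0 j hj hjt _ hm, zero_pow two_ne_zero]] at h2
      simpa only [hU, he] using h2
  rwa [LinearEquiv.finrank_map_eq] at h1

end Vale.Agent.P061Z
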