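import Vale.Agent.P061Z.Defs
import Vale.Agent.P061Z.White
import Vale.Agent.P061Z.MSS.Main

/-! # P061: the sign theorem for two forms at once -/

namespace Vale.Agent.P061Z

open Finset

namespace MSS2

/-- Coordinates in which the form is the sum of the squares. -/
theorem coords {J n : Type} [Fintype n] [DecidableEq n] {Q : (n → ℝ) → ℝ} (h : IsPD Q)
    (a : J → (n → ℝ) →ₗ[ℝ] ℝ) : ∃ (e : (n → ℝ) → (n → ℝ)) (u : J → n → ℝ),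
      Function.Surjective e ∧ (∀ y, Q (e y) = ∑ k, y k ^ 2) ∧
        ∀ j y, a j (e y) = ∑ k, u j k * y k := by
  obtain ⟨P, hP⟩ := h
  exact ⟨P.symm, fun j k => a j (P.symm (Pi.single k 1)), P.symm.surjective,
    fun y => by simp [hP], fun j y => White.apply_eq P (a j) y⟩

theorem norm_le {n : Type} [Fintype n] {u : n → ℝ} {ε : ℝ} (hε : 0 ≤ ε)
    (h : (∑ k, u k * u k) ^ 2 ≤ ε * ∑ k, u k ^ 2) : ∑ k, u k ^ 2 ≤ ε := by
  simp only [← sq] at h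
  exact White.le_of_sq_le (sum_nonneg fun _ _ => sq_nonneg _) hε h

end MSS2

open MSS2

theorem mss_two {J n₁ n₂ : Type} [DecidableEq J] [Fintype n₁] [DecidableEq n₁] [Fintype n₂]
    [DecidableEq n₂] (F : Finset J) {Q₁ : (n₁ → ℝ) → ℝ} {Q₂ : (n₂ → ℝ) → ℝ}
    (h₁ : IsPD Q₁) (h₂ : IsPD Q₂) (a : J → (n₁ → ℝ) →ₗ[ℝ] ℝ) (b : J → (n₂ → ℝ) →ₗ[ℝ] ℝ)
    (ε : ℝ) (hε : 0 < ε)
    (ha : ∀ j ∈ F, ∀ x, (a j x) ^ 2 ≤ ε * Q₁ x) (hb : ∀ j ∈ F, ∀ y, (b j y) ^ 2 ≤ ε * Q₂ y)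
    (hsa : ∀ x, ∑ j ∈ F, (a j x) ^ 2 ≤ Q₁ x) (hsb : ∀ y, ∑ j ∈ F, (b j y) ^ 2 ≤ Q₂ y) :
    ∃ H ⊆ F,
      (∀ x, ∑ j ∈ H, (a j x) ^ 2 ≤ 1 / 2 * ∑ j ∈ F, (a j x) ^ 2 + 8 * Real.sqrt ε * Q₁ x) ∧
      (∀ y, 1 / 2 * ∑ j ∈ F, (b j y) ^ 2 - 8 * Real.sqrt ε * Q₂ y ≤ ∑ j ∈ H, (b j y) ^ 2) := by
  obtain ⟨e₁, u₁, s₁, q₁, p₁⟩ := coords h₁ a
  obtain ⟨e₂, u₂, s₂, q₂, p₂⟩ := coords h₂ b
  obtain ⟨r, hr⟩ : ∃ r : ℝ, r ^ 2 = 1 / 2 := ⟨_, Real.sq_sqrt (by norm_num)⟩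
  let v : F → n₁ ⊕ n₂ → ℝ := fun i k => r * Sum.elim (u₁ i) (u₂ i) k
  have hv : ∀ (i : F) (x : n₁ ⊕ n₂ → ℝ), (∑ k, v i k * x k) ^ 2 =
      1 / 2 * (a i (e₁ fun k => x (Sum.inl k)) + b i (e₂ fun k => x (Sum.inr k))) ^ 2 := by
    intro i x
    rw [p₁, p₂, ← hr, ← mul_pow]
    simp only [v, Fintype.sum_sum_type, Sum.elim_inl, Sum.elim_inr, mul_assoc, ← mul_sum, mul_add]
  have hx : ∀ x : n₁ ⊕ n₂ → ℝ, ∑ k, x k ^ 2 =
      Q₁ (e₁ fun k => x (Sum.inl k)) + Q₂ (e₂ fun k => x (Sum.inr k)) := by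
    intro x
    rw [q₁, q₂, Fintype.sum_sum_type]
  obtain ⟨s, hs⟩ := mss_sign v ε hε
    (fun i => by
      have k1 := ha i i.2 (e₁ (u₁ i))
      have k2 := hb i i.2 (e₂ (u₂ i))
      rw [p₁, q₁] at k1
      rw [p₂, q₂] at k2
      simp only [v, Fintype.sum_sum_type, Sum.elim_inl, Sum.elim_inr, mul_pow, hr, ← mul_sum]
      linarith [norm_le hε.le k1, norm_le hε.le k2])
    fun x => by
      rw [hx]
      refine le_trans ?_ (add_le_add (hsa _) (hsb _))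
      rw [← sum_add_distrib, ← sum_coe_sort F]
      refine sum_le_sum fun i _ => ?_
      rw [hv]
      nlinarith [sq_nonneg (a i (e₁ fun k => x (Sum.inl k)) - b i (e₂ fun k => x (Sum.inr k)))]
  refine ⟨s.map (Function.Embedding.subtype _), fun j hj => ?_, fun x => ?_, fun y => ?_⟩
  · obtain ⟨i, -, rfl⟩ := mem_map.1 hj
    exact i.2
  · obtain ⟨x, rfl⟩ := s₁ x
    have k := hs (Sum.elim x 0)
    have z1 : ∀ j, b j (e₂ fun _ => 0) = 0 := fun j => by simp [p₂]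
    have z2 : Q₂ (e₂ fun _ => 0) = 0 := by simp [q₂]
    simp only [hv, hx, Sum.elim_inl, Sum.elim_inr, Pi.zero_apply, z1, z2, add_zero,
      ← mul_sum] at k
    rw [sum_map, ← sum_coe_sort F]
    have k2 := (abs_le.1 k).2
    simp only [Function.Embedding.coe_subtype]
    linarith
  · obtain ⟨y, rfl⟩ := s₂ y
    have k := hs (Sum.elim 0 y)
    have z1 : ∀ j, a j (e₁ fun _ => 0) = 0 := fun j => by simp [p₁]
    have z2 : Q₁ (e₁ fun _ => 0) = 0 := by simp [q₁]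
    simp only [hv, hx, Sum.elim_inl, Sum.elim_inr, Pi.zero_apply, z1, z2, zero_add,
      ← mul_sum] at k
    rw [sum_map, ← sum_coe_sort F]
    have k2 := (abs_le.1 k).1
    simp only [Function.Embedding.coe_subtype]
    linarith

end Vale.Agent.P061Z
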