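import Vale.Agent.P061Z.Chain
import Vale.Agent.P061Z.Fix
import Vale.Agent.P061Z.ForsterB
import Vale.Agent.P061Z.MSS2

/-! # P061: the halving lemma -/

namespace Vale.Agent.P061Z

open Finset

namespace Halve

variable {V E : Type} [Fintype V] [DecidableEq V] [Fintype E] [DecidableEq E]

omit [DecidableEq V] in
theorem one_le_nparts [Nonempty V] (π : V → ℕ) : (1 : ℝ) ≤ nparts π := by
  have h : 0 < nparts π := card_pos.2 (univ_nonempty.image π)
  exact_mod_cast h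

omit [DecidableEq V] [Fintype E] [DecidableEq E] in
theorem pc_anti [Nonempty V] {u v : E → V} {A : Finset E} {κ κ' : ℝ} (h : PC u v A κ)
    (hκ : κ' ≤ κ) : PC u v A κ' := fun π =>
  (mul_le_mul_of_nonneg_right hκ (sub_nonneg.2 (one_le_nparts π))).trans (h π)

omit [Fintype V] [DecidableEq E] in
theorem partsEC_anti {u v : E → V} {π : V → ℕ} {κ κ' : ℝ} (h : PartsEC u v π κ) (hκ : κ' ≤ κ) :
    PartsEC u v π κ' := fun S a b h1 h2 h3 => hκ.trans (h S a b h1 h2 h3)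

omit [DecidableEq V] [DecidableEq E] in
theorem sum_sq_le_qB (u v : E → V) {D : V → V → ℝ} (hD : ∀ a b, 0 ≤ D a b) (F : Finset E)
    (x : V → ℝ) : ∑ e ∈ F, (x (u e) - x (v e)) ^ 2 ≤ qB u v D x := by
  unfold qB
  have h1 : ∑ e ∈ F, (x (u e) - x (v e)) ^ 2 ≤ ∑ e, (x (u e) - x (v e)) ^ 2 :=
    sum_le_sum_of_subset_of_nonneg (subset_univ F) fun _ _ _ => sq_nonneg _
  have h2 : 0 ≤ ∑ a, ∑ b, D a b * (x a - x b) ^ 2 :=
    sum_nonneg fun a _ => sum_nonneg fun b _ => mul_nonneg (hD a b) (sq_nonneg _)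
  have h3 : 0 ≤ (1 / (Fintype.card V : ℝ)) * ∑ a, x a ^ 2 :=
    mul_nonneg (by positivity) (sum_nonneg fun _ _ => sq_nonneg _)
  linarith

omit [Fintype V] [Fintype E] [DecidableEq E] in
theorem sum_sq_indicator (u v : E → V) (A : Finset E) (S : Finset V) :
    ∑ e ∈ A, ((if u e ∈ S then (1 : ℝ) else 0) - if v e ∈ S then (1 : ℝ) else 0) ^ 2
      = ((cutE u v A S).card : ℝ) := by
  unfold cutE
  rw [card_filter]
  push_cast
  refine sum_congr rfl fun e _ => ?_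
  by_cases h1 : u e ∈ S <;> by_cases h2 : v e ∈ S <;> simp [Sep, h1, h2]

omit [Fintype V] [Fintype E] [DecidableEq E] in
theorem cutE_mono (u v : E → V) {A B : Finset E} (h : A ⊆ B) (S : Finset V) :
    cutE u v A S ⊆ cutE u v B S := filter_subset_filter _ h

theorem isPD_nonneg {n : Type} [Fintype n] {Q : (n → ℝ) → ℝ} (h : IsPD Q) (x : n → ℝ) :
    0 ≤ Q x := by
  obtain ⟨P, hP⟩ := h
  rw [hP]
  exact sum_nonneg fun _ _ => sq_nonneg _

theorem sqrt_bound {s : ℝ} (hs : 0 < s) : 8 * Real.sqrt (2 * (28 / s ^ 2)) ≤ 60 / s := by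
  have h : Real.sqrt (2 * (28 / s ^ 2)) ≤ 15 / 2 / s := by
    rw [Real.sqrt_le_left (by positivity), div_pow, ← mul_div_assoc]
    exact div_le_div_of_nonneg_right (by norm_num) (by positivity)
  calc 8 * Real.sqrt (2 * (28 / s ^ 2)) ≤ 8 * (15 / 2 / s) := by linarith
    _ = 60 / s := by ring

theorem pc_const {s k γ : ℝ} (hs : 3 ≤ s) (hk : 0 < k) (hγ : γ ≤ 60 / s) :
    (1 / 2 - 12180 / s) * k ≤ (1 / 2 - γ) / ((1 + 1 / s) / ((1 - 1 / s) * k)) := by
  have hs0 : 0 < s := by linarith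
  obtain ⟨r, hr⟩ : ∃ r, r = 1 / s := ⟨_, rfl⟩
  have hr0 : 0 < r := by rw [hr]; positivity
  have hr1 : r ≤ 1 / 3 := by rw [hr]; exact one_div_le_one_div_of_le (by norm_num) hs
  have e1 : 12180 / s = 12180 * r := by rw [hr]; ring
  have e2 : 60 / s = 60 * r := by rw [hr]; ring
  rw [e1, ← hr, div_div_eq_mul_div, le_div_iff₀ (by linarith)]
  rw [e2] at hγ
  have h1 : (1 / 2 - 12180 * r) * (1 + r) ≤ (1 / 2 - γ) * (1 - r) := by
    have := mul_le_mul_of_nonneg_right hγ (by linarith : 0 ≤ 1 - r)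
    nlinarith
  nlinarith

theorem c_small {s k : ℝ} (hs : 3 ≤ s) (hk : 2 * s ^ 12 ≤ k) :
    (1 + 1 / s) / ((1 - 1 / s) * k) ≤ 2 * (28 / s ^ 2) := by
  have hs0 : 0 < s := by linarith
  have hr1 : 1 / s ≤ 1 / 3 := one_div_le_one_div_of_le (by norm_num) hs
  have hr0 : 0 < 1 / s := by positivity
  have h1 : s ^ 2 ≤ s ^ 12 := pow_le_pow_right₀ (by linarith) (by norm_num)
  have h2 : 0 < s ^ 2 := by positivity
  have hk0 : 0 < k := by linarith
  rw [← mul_div_assoc, div_le_div_iff₀ (mul_pos (by linarith) hk0) h2]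
  have h3 : (1 + 1 / s) * s ^ 2 ≤ 2 * s ^ 2 := mul_le_mul_of_nonneg_right (by linarith) h2.le
  have h4 : 1 / 2 * k ≤ (1 - 1 / s) * k := mul_le_mul_of_nonneg_right (by linarith) hk0.le
  linarith

theorem cut_const {s h f g q : ℝ} (hs : 0 < s) (hg : 1 ≤ g) (hf : f ≤ g) (hq : q ≤ 201 * g + 2)
    (hh : h ≤ 1 / 2 * f + 60 / s * q) : h ≤ (1 / 2 + 12180 / s) * g := by
  have h1 : 60 / s * q ≤ 60 / s * (203 * g) :=
    mul_le_mul_of_nonneg_left (by linarith) (by positivity)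
  have h2 : 60 / s * (203 * g) = 12180 / s * g := by ring
  linarith

end Halve

open Halve in
theorem halve : ∃ C : ℝ, 0 < C ∧ ∀ (V E : Type) [Fintype V] [DecidableEq V] [Fintype E]
    [DecidableEq E] [Nonempty V] (u v : E → V) (k : ℝ) (s : ℕ), 3 ≤ s → 2 * (s : ℝ) ^ 12 ≤ k →
    PC u v univ k → ∃ H : Finset E, PC u v H ((1 / 2 - C / s) * k) ∧
      ∀ S, ((cutE u v H S).card : ℝ) ≤ (1 / 2 + C / s) * (cutE u v univ S).card := by
  refine ⟨12180, by norm_num, ?_⟩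
  intro V E _ _ _ _ _ u v k s hs hk hpc
  have hs3 : (3 : ℝ) ≤ s := by exact_mod_cast hs
  have hs0 : (0 : ℝ) < s := by linarith
  have hs12 : (0 : ℝ) < (s : ℝ) ^ 12 := by positivity
  have hk0 : 0 < k := by linarith
  have hr1 : 1 / (s : ℝ) ≤ 1 / 3 := one_div_le_one_div_of_le (by norm_num) hs3
  have hr0 : 0 < 1 / (s : ℝ) := by positivity
  have hm : 16 ≤ s ^ 3 := le_trans (by norm_num) (Nat.pow_le_pow_left hs 3)
  have hm4 : (((s ^ 3 : ℕ) : ℝ)) ^ 4 ≤ (1 - 1 / (s : ℝ)) * k := by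
    push_cast
    rw [← pow_mul]
    have h4 : 1 / 2 * k ≤ (1 - 1 / (s : ℝ)) * k :=
      mul_le_mul_of_nonneg_right (by linarith) hk0.le
    norm_num at h4 ⊢
    linarith
  have hκ0 : 0 < (1 - 1 / (s : ℝ)) * k := mul_pos (by linarith) hk0
  have hκk : (1 - 1 / (s : ℝ)) * k ≤ k := mul_le_of_le_one_left hk0.le (by linarith)
  obtain ⟨D, hD, hF⟩ := fix u v k (1 / s) (28 / (s : ℝ) ^ 2) (14 / ((s ^ 3 : ℕ) : ℝ)) 200 hk0 hr0
    (by linarith) (by positivity)
    (by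
      push_cast
      rw [div_mul_div_comm, ← pow_succ', one_mul]
      exact div_lt_div_of_pos_right (by norm_num) (by positivity)) hpc
    fun 𝒦 hch hec => chain u v (s ^ 3) hm (pc_anti hpc (hm4.trans hκk)) 𝒦 hch
      fun π hπ => partsEC_anti (hec π hπ) hm4
  obtain ⟨n, _, _, Q, φ, hQ, hφ1, hφ2, hφ3⟩ := forster_graph u v _ _
    ((1 + 1 / (s : ℝ)) / ((1 - 1 / (s : ℝ)) * k)) hκ0
    (div_lt_div_of_pos_right (by linarith) hκ0) hF
  obtain ⟨H, hHF, hH1, hH2⟩ := mss_two _ (qB_isPD u v hD.1) hQ (bE u v) φ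
    (2 * (28 / (s : ℝ) ^ 2)) (by positivity)
    (fun e he x => (sq_le_res u v hD.1 e x).trans (mul_le_mul_of_nonneg_right
      (mem_filter.1 he).2 (isPD_nonneg (qB_isPD u v hD.1) x)))
    (fun e he y => (hφ1 e he y).trans
      (mul_le_mul_of_nonneg_right (c_small hs3 hk) (isPD_nonneg hQ y)))
    (fun x => sum_sq_le_qB u v hD.1 _ x) hφ2
  refine ⟨H, pc_anti (hφ3 H hHF _ hH2) (pc_const hs3 hk0 (sqrt_bound hs0)), fun S => ?_⟩
  rcases Nat.eq_zero_or_pos (cutE u v univ S).card with h0 | h0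
  · have h1 : (cutE u v H S).card = 0 :=
      Nat.eq_zero_of_le_zero (h0 ▸ card_le_card (cutE_mono u v (subset_univ H) S))
    rw [h0, h1]
    simp
  · have h1 := hH1 fun a => if a ∈ S then 1 else 0
    simp only [bE_apply] at h1
    rw [sum_sq_indicator, sum_sq_indicator] at h1
    have h2 := qB_indicator u v D S
    have h3 := hD.2 S
    refine cut_const hs0 (by exact_mod_cast h0) ?_ ?_ (h1.trans (add_le_add le_rfl
      (mul_le_mul_of_nonneg_right (sqrt_bound hs0) (isPD_nonneg (qB_isPD u v hD.1) _))))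
    · exact_mod_cast card_le_card (cutE_mono u v (subset_univ _) S)
    · linarith

end Vale.Agent.P061Z
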