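import Vale.Agent.P061Z.SL

/-! # P061: the net lemma for a pair of nested partitions -/

namespace Vale.Agent.P061Z

open Finset

variable {V E : Type} [Fintype V] [DecidableEq V] [Fintype E] [DecidableEq E]

namespace Level

/-- The labels of the children of the parent part `U`. -/
def kids (π π' : V → ℕ) (U : ℕ) : Finset ℕ := (univ.filter fun a => π' a = U).image π

/-- The edges inside the parent part `U` that cross the finer partition. -/
def inner (u v : E → V) (π π' : V → ℕ) (U : ℕ) : Finset E :=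
  univ.filter fun e => π' (u e) = U ∧ π' (v e) = U ∧ π (u e) ≠ π (v e)

omit [DecidableEq V] in
theorem mem_kids {π π' : V → ℕ} {U x : ℕ} : x ∈ kids π π' U ↔ ∃ a, π' a = U ∧ π a = x := by
  simp [kids]

omit [Fintype V] [DecidableEq V] [DecidableEq E] in
theorem mem_inner {u v : E → V} {π π' : V → ℕ} {U : ℕ} {e : E} :
    e ∈ inner u v π π' U ↔ π' (u e) = U ∧ π' (v e) = U ∧ π (u e) ≠ π (v e) := by
  simp [inner]

omit [DecidableEq E] in
theorem mem_endsIn {u v : E → V} {π : V → ℕ} {x : ℕ} {a : V} :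
    a ∈ endsIn u v π x ↔ π a = x ∧ ∃ e, π (u e) ≠ π (v e) ∧ (a = u e ∨ a = v e) := by
  simp [endsIn]

omit [Fintype V] [DecidableEq V] [DecidableEq E] in
theorem mem_crossE {u v : E → V} {π : V → ℕ} {e : E} :
    e ∈ crossE u v univ π ↔ π (u e) ≠ π (v e) := by
  simp [crossE]

omit [DecidableEq E] in
theorem con (u v : E → V) (κ : ℕ) {π π' : V → ℕ} (href : Ref π π')
    (hec : PartsEC u v π' κ) (U : ℕ) (S : Finset V) (h1 : Splits S (endsIn u v π' U))
    (h2 : ∀ x ∈ kids π π' U, ¬ Splits S (endsIn u v π x)) :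
    κ ≤ (cutE u v (inner u v π π' U) S).card := by
  classical
  obtain ⟨⟨a, ha, haS⟩, b, hb, hbS⟩ := h1
  have up : ∀ w, w ∈ endsIn u v π' U → π' w = U ∧ w ∈ endsIn u v π (π w) := by
    intro w hw
    obtain ⟨h, e, he, hw⟩ := mem_endsIn.1 hw
    exact ⟨h, mem_endsIn.2 ⟨rfl, e, fun hh => he (href _ _ hh), hw⟩⟩
  set S' : Finset V := univ.filter fun w => ∃ w' ∈ endsIn u v π (π w), w' ∈ S with hS'
  have mem' : ∀ w, w ∈ S' ↔ ∃ w' ∈ endsIn u v π (π w), w' ∈ S := by
    intro w; simp only [hS', mem_filter, mem_univ, true_and]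
  have key : ∀ w, π' w = U → w ∈ endsIn u v π (π w) → (w ∈ S' ↔ w ∈ S) := by
    intro w hU hw
    rw [mem']
    constructor
    · intro h
      by_contra hn
      exact h2 (π w) (mem_kids.2 ⟨w, hU, rfl⟩) ⟨h, w, hw, hn⟩
    · intro h
      exact ⟨w, hw, h⟩
  have ha' : a ∈ S' := (key a (up a ha).1 (up a ha).2).2 haS
  have hb' : b ∉ S' := fun h => hbS ((key b (up b hb).1 (up b hb).2).1 h)
  have h3 := hec S' a b ((up a ha).1.trans (up b hb).1.symm) ha' hb'
  have h4 : (univ.filter fun e => π' (u e) = π' a ∧ π' (v e) = π' a ∧ Sep S' (u e) (v e)) ⊆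
      cutE u v (inner u v π π' U) S := by
    intro e he
    simp only [mem_filter, mem_univ, true_and] at he
    obtain ⟨e1, e2, e3⟩ := he
    rw [(up a ha).1] at e1 e2
    have hne : π (u e) ≠ π (v e) := by
      intro hh
      apply e3
      rw [mem', mem', hh]
    have hu : u e ∈ endsIn u v π (π (u e)) := mem_endsIn.2 ⟨rfl, e, hne, Or.inl rfl⟩
    have hv : v e ∈ endsIn u v π (π (v e)) := mem_endsIn.2 ⟨rfl, e, hne, Or.inr rfl⟩
    simp only [cutE, mem_filter]
    refine ⟨mem_inner.2 ⟨e1, e2, hne⟩, ?_⟩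
    unfold Sep at e3 ⊢
    rwa [key _ e1 hu, key _ e2 hv] at e3
  have h5 : ((univ.filter fun e =>
      π' (u e) = π' a ∧ π' (v e) = π' a ∧ Sep S' (u e) (v e)).card : ℝ) ≤
      ((cutE u v (inner u v π π' U) S).card : ℝ) := by
    exact_mod_cast card_le_card h4
  exact_mod_cast h3.trans h5

omit [DecidableEq V] in
theorem sum_kids {π π' : V → ℕ} (href : Ref π π') (g : ℕ → ℝ) :
    ∑ U ∈ univ.image π', ∑ x ∈ kids π π' U, g x = ∑ x ∈ univ.image π, g x := by
  rw [← sum_biUnion]
  · refine sum_congr ?_ fun _ _ => rfl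
    ext x
    simp only [mem_biUnion, mem_image, mem_univ, true_and, mem_kids]
    constructor
    · rintro ⟨U, _, a, _, h⟩
      exact ⟨a, h⟩
    · rintro ⟨a, h⟩
      exact ⟨π' a, ⟨a, rfl⟩, a, rfl, h⟩
  · intro U _ U' _ hne
    refine disjoint_left.2 fun x h1 h2 => hne ?_
    obtain ⟨a, ha, hx⟩ := mem_kids.1 h1
    obtain ⟨b, hb, hy⟩ := mem_kids.1 h2
    rw [← ha, ← hb]
    exact href _ _ (hx.trans hy.symm)

omit [DecidableEq V] in
theorem sum_inner (u v : E → V) {π π' : V → ℕ} (href : Ref π π') (g : E → ℝ) :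
    ∑ U ∈ univ.image π', ∑ e ∈ inner u v π π' U, g e =
      ∑ e ∈ crossE u v univ π, g e - ∑ e ∈ crossE u v univ π', g e := by
  have hsub : crossE u v univ π' ⊆ crossE u v univ π := fun e he =>
    mem_crossE.2 fun hh => mem_crossE.1 he (href _ _ hh)
  rw [← sum_sdiff hsub, add_sub_cancel_right, ← sum_biUnion]
  · refine sum_congr ?_ fun _ _ => rfl
    ext e
    simp only [mem_biUnion, mem_image, mem_univ, true_and, mem_inner, mem_sdiff, mem_crossE]
    constructor
    · rintro ⟨U, _, h1, h2, h3⟩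
      exact ⟨h3, fun h => h (h1.trans h2.symm)⟩
    · rintro ⟨h1, h2⟩
      exact ⟨π' (u e), ⟨_, rfl⟩, rfl, (not_not.1 h2).symm, h1⟩
  · intro U _ U' _ hne
    refine disjoint_left.2 fun e h1 h2 => hne ?_
    exact (mem_inner.1 h1).1.symm.trans (mem_inner.1 h2).1

omit [DecidableEq E] in
theorem sum_ends (u v : E → V) (π : V → ℕ) :
    ∑ U ∈ univ.image π, ((endsIn u v π U).card : ℝ) ≤ 2 * (crossE u v univ π).card := by
  have h1 : ∑ U ∈ univ.image π, (endsIn u v π U).card =
      ((univ.image π).biUnion (endsIn u v π)).card := by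
    rw [card_biUnion]
    intro U _ U' _ hne
    refine disjoint_left.2 fun a h1 h2 => hne ?_
    exact (mem_endsIn.1 h1).1.symm.trans (mem_endsIn.1 h2).1
  have h2 : (univ.image π).biUnion (endsIn u v π) ⊆
      (crossE u v univ π).image u ∪ (crossE u v univ π).image v := by
    intro a ha
    obtain ⟨U, _, ha⟩ := mem_biUnion.1 ha
    obtain ⟨_, e, he, h⟩ := mem_endsIn.1 ha
    rcases h with h | h
    · exact mem_union_left _ (mem_image.2 ⟨e, mem_crossE.2 he, h.symm⟩)
    · exact mem_union_right _ (mem_image.2 ⟨e, mem_crossE.2 he, h.symm⟩)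
  have h3 := (card_le_card h2).trans (card_union_le _ _)
  have h4 := card_image_le (s := crossE u v univ π) (f := u)
  have h5 := card_image_le (s := crossE u v univ π) (f := v)
  have h6 : ∑ U ∈ univ.image π, (endsIn u v π U).card ≤ 2 * (crossE u v univ π).card := by
    omega
  exact_mod_cast h6

end Level

open Level in
theorem level (u v : E → V) {d : V → V → ℕ} (hd : IsMet d) (κ : ℕ) (hκ : 0 < κ)
    {π π' : V → ℕ} (href : Ref π π') (hec : PartsEC u v π' κ) (l R : ℕ) (hR : 0 < R) :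
    Psi u v d κ π' ≤ Psi u v d κ π ∧ ∃ (K : Finset E) (Z : Finset V), K ⊆ crossE u v univ π ∧
      (∀ e ∈ K, (∃ z ∈ Z, d (u e) z < 2 * R) ∧ ∃ z ∈ Z, d (v e) z < 2 * R) ∧
      (l : ℝ) * (crossE u v univ π \ K).card ≤
        κ * (Psi u v d κ π - Psi u v d κ π') + l * (crossE u v univ π').card ∧
      (R : ℝ) * Z.card ≤ R * nparts π + 3 * (Psi u v d κ π - Psi u v d κ π') +
        (2 * l + 12 * R + 1) * (2 * nparts π + 16 * (crossE u v univ π').card) := by
  set σ : ℕ → ℝ := fun U => ∑ x ∈ kids π π' U, (pv d (endsIn u v π x) : ℝ) +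
    (∑ e ∈ inner u v π π' U, (d (u e) (v e) : ℝ)) / κ - pv d (endsIn u v π' U) with hσ
  have H := fun U => sl hd (kids π π' U) (endsIn u v π) (endsIn u v π' U) (inner u v π π' U)
    u v (fun e => π (u e)) (fun e => π (v e))
    (fun e he => by
      obtain ⟨h1, h2, h3⟩ := mem_inner.1 he
      exact ⟨mem_kids.2 ⟨_, h1, rfl⟩, mem_kids.2 ⟨_, h2, rfl⟩, h3,
        mem_endsIn.2 ⟨rfl, e, h3, Or.inl rfl⟩, mem_endsIn.2 ⟨rfl, e, h3, Or.inr rfl⟩⟩)
    κ hκ (con u v κ href hec U) l R hR (σ U) rfl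
  have hsum : ∑ U ∈ univ.image π', σ U = Psi u v d κ π - Psi u v d κ π' := by
    simp only [hσ, sum_sub_distrib, sum_add_distrib, ← sum_div]
    rw [sum_kids href, sum_inner u v href]
    unfold Psi
    ring
  choose K Z hK hZ hl hz using fun U => (H U).2
  refine ⟨?_, (univ.image π').biUnion K, (univ.image π').biUnion Z, ?_, ?_, ?_, ?_⟩
  · have := sum_nonneg fun U (_ : U ∈ univ.image π') => (H U).1
    linarith
  · intro e he
    obtain ⟨U, _, he⟩ := mem_biUnion.1 he
    exact mem_crossE.2 (mem_inner.1 (hK U he)).2.2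
  · intro e he
    obtain ⟨U, hU, he⟩ := mem_biUnion.1 he
    obtain ⟨⟨z, hz1, hz2⟩, z', hz3, hz4⟩ := hZ U e he
    exact ⟨⟨z, mem_biUnion.2 ⟨U, hU, hz1⟩, hz2⟩, z', mem_biUnion.2 ⟨U, hU, hz3⟩, hz4⟩
  · have h1 : crossE u v univ π \ (univ.image π').biUnion K ⊆
        ((univ.image π').biUnion fun U => inner u v π π' U \ K U) ∪ crossE u v univ π' := by
      intro e he
      obtain ⟨h1, h2⟩ := mem_sdiff.1 he
      by_cases h : π' (u e) = π' (v e)
      · have hU : π' (u e) ∈ univ.image π' := mem_image_of_mem _ (mem_univ _)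
        refine mem_union_left _ (mem_biUnion.2 ⟨π' (u e), hU, mem_sdiff.2 ⟨?_, fun h3 => ?_⟩⟩)
        · exact mem_inner.2 ⟨rfl, h.symm, mem_crossE.1 h1⟩
        · exact h2 (mem_biUnion.2 ⟨_, hU, h3⟩)
      · exact mem_union_right _ (mem_crossE.2 h)
    have h2 := ((card_le_card h1).trans (card_union_le _ _)).trans
      (Nat.add_le_add_right card_biUnion_le _)
    have h3 : ((crossE u v univ π \ (univ.image π').biUnion K).card : ℝ) ≤
        ∑ U ∈ univ.image π', ((inner u v π π' U \ K U).card : ℝ) +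
          (crossE u v univ π').card := by
      exact_mod_cast h2
    have h4 : (l : ℝ) * ∑ U ∈ univ.image π', ((inner u v π π' U \ K U).card : ℝ) ≤
        κ * (Psi u v d κ π - Psi u v d κ π') := by
      rw [← hsum, mul_sum, mul_sum]
      exact sum_le_sum fun U _ => hl U
    have h5 := mul_le_mul_of_nonneg_left h3 (Nat.cast_nonneg (α := ℝ) l)
    rw [mul_add] at h5
    linarith
  · have h1 : (((univ.image π').biUnion Z).card : ℝ) ≤
        ∑ U ∈ univ.image π', ((Z U).card : ℝ) := by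
      exact_mod_cast (card_biUnion_le (s := univ.image π') (t := Z))
    have h2 : ∑ U ∈ univ.image π', ((kids π π' U).card : ℝ) = nparts π := by
      have := sum_kids href fun _ => (1 : ℝ)
      simpa [nparts] using this
    have h3 := sum_ends u v π'
    have h4 : (R : ℝ) * ∑ U ∈ univ.image π', ((Z U).card : ℝ) ≤
        R * nparts π + 3 * (Psi u v d κ π - Psi u v d κ π') + (2 * l + 12 * R + 1) *
          (2 * nparts π + 8 * ∑ U ∈ univ.image π', ((endsIn u v π' U).card : ℝ)) := by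
      rw [← hsum, ← h2]
      simp only [mul_sum, ← sum_add_distrib]
      exact sum_le_sum fun U _ => hz U
    have h5 := mul_le_mul_of_nonneg_left h1 (Nat.cast_nonneg (α := ℝ) R)
    have h6 : (0 : ℝ) ≤ 2 * l + 12 * R + 1 := by positivity
    have h7 := mul_le_mul_of_nonneg_left (show (2 * nparts π +
      8 * ∑ U ∈ univ.image π', ((endsIn u v π' U).card : ℝ)) ≤
        2 * nparts π + 16 * (crossE u v univ π').card by linarith) h6
    linarith

omit [DecidableEq E] in
theorem psi_nonneg (u v : E → V) (d : V → V → ℕ) (κ : ℕ) (π : V → ℕ) : 0 ≤ Psi u v d κ π := by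
  unfold Psi
  positivity

theorem psi_le (u v : E → V) {d : V → V → ℕ} (hd : IsMet d) (κ : ℕ) (hκ : 0 < κ)
    {π : V → ℕ} (hec : PartsEC u v π κ) :
    Psi u v d κ π ≤ (∑ e, (d (u e) (v e) : ℝ)) / κ := by
  set π0 : V → ℕ := fun a => (Fintype.equivFin V a : ℕ) with hπ0
  have hinj : ∀ a b, π0 a = π0 b → a = b := fun a b h =>
    (Fintype.equivFin V).injective (Fin.ext h)
  have href : Ref π0 π := fun a b h => by rw [hinj a b h]
  refine (level u v hd κ hκ href hec 0 1 one_pos).1.trans ?_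
  unfold Psi
  have h1 : ∑ x ∈ univ.image π0, (pv d (endsIn u v π0 x) : ℝ) = 0 := by
    refine sum_eq_zero fun x _ => ?_
    rw [pv_eq_zero d, Nat.cast_zero]
    refine card_le_one.2 fun a ha b hb => hinj a b ?_
    exact (Level.mem_endsIn.1 ha).1.trans (Level.mem_endsIn.1 hb).1.symm
  rw [h1, zero_add]
  refine div_le_div_of_nonneg_right ?_ (Nat.cast_nonneg _)
  exact sum_le_sum_of_subset_of_nonneg (subset_univ _) fun _ _ _ => Nat.cast_nonneg _

end Vale.Agent.P061Z
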