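import Vale.Agent.P061Z.Defs

/-! # P061: packings of cuts and their normal form -/

namespace Vale.Agent.P061Z

open Finset

variable {V : Type} [Fintype V] [DecidableEq V]

namespace Pack

theorem card_le {d : V → V → ℕ} {W : Finset V} {J : Type} {s : Finset J} {S : J → Finset V}
    (h : IsPack d W s S) : s.card ≤ ∑ p : V × V, d p.1 p.2 := by
  classical
  have h1 : s ⊆ univ.biUnion fun p : V × V => s.filter fun j => Sep (S j) p.1 p.2 := by
    intro j hj
    obtain ⟨⟨a, -, ha⟩, b, -, hb⟩ := h.1 j hj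
    exact mem_biUnion.2 ⟨(a, b), mem_univ _, mem_filter.2 ⟨hj, fun hab => hb (hab.1 ha)⟩⟩
  exact (card_le_card h1).trans (card_biUnion_le.trans (sum_le_sum fun p _ => h.2.2 p.1 p.2))

theorem comp {d : V → V → ℕ} {W : Finset V} {I J : Type} {s : Finset J} {S : J → Finset V}
    (h : IsPack d W s S) {t : Finset I} {g : I → J} (hg : ∀ i ∈ t, g i ∈ s)
    (hi : Set.InjOn g t) : IsPack d W t fun i => S (g i) := by
  refine ⟨fun i hi => h.1 _ (hg i hi), fun i hi j hj => h.2.1 _ (hg i hi) _ (hg j hj),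
    fun a b => le_trans (card_le_card_of_injOn g (fun i hi' => ?_) ?_) (h.2.2 a b)⟩
  · have := mem_filter.1 (mem_coe.1 hi')
    exact mem_coe.2 (mem_filter.2 ⟨hg i this.1, this.2⟩)
  · exact hi.mono (coe_subset.2 (filter_subset _ _))

theorem bdd (d : V → V → ℕ) (W : Finset V) :
    BddAbove {m : ℕ | ∃ S : ℕ → Finset V, IsPack d W (range m) S} := by
  refine ⟨∑ p : V × V, d p.1 p.2, fun m ⟨S, hS⟩ => ?_⟩
  have := card_le hS
  rwa [card_range] at this

theorem exists_opt (d : V → V → ℕ) (W : Finset V) :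
    ∃ S : ℕ → Finset V, IsPack d W (range (pv d W)) S := by
  refine Nat.sSup_mem (s := {m : ℕ | ∃ S : ℕ → Finset V, IsPack d W (range m) S})
    ⟨0, fun _ => ∅, ?_, ?_, ?_⟩ (bdd d W)
  · simp
  · simp
  · simp

omit [Fintype V] in
theorem laminar_card (W : Finset V) : ∀ C : Finset (Finset V), (∀ c ∈ C, c.Nonempty ∧ c ⊆ W) →
    (∀ c ∈ C, ∀ c' ∈ C, Disjoint c c' ∨ c ⊆ c' ∨ c' ⊆ c) → C.card ≤ 2 * W.card := by
  induction W using Finset.induction_on with
  | empty =>
    intro C h _
    rw [card_empty, mul_zero, Nat.le_zero, card_eq_zero, eq_empty_iff_forall_notMem]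
    exact fun c hc => (h c hc).1.ne_empty (subset_empty.1 (h c hc).2)
  | insert a W ha ih =>
    intro C h hl
    have key : ∀ c ∈ C.filter fun c => a ∉ c ∧ insert a c ∈ C,
        ∀ c' ∈ C.filter fun c => a ∉ c ∧ insert a c ∈ C, insert a c ⊆ insert a c' → c = c' := by
      intro c hc c' hc' hs
      obtain ⟨h1, h2, h3⟩ := mem_filter.1 hc
      obtain ⟨h4, h5, -⟩ := mem_filter.1 hc'
      have h7 : c ⊆ c' := (subset_insert_iff_of_notMem h2).1 ((subset_insert a c).trans hs)
      rcases hl _ h3 _ h4 with h8 | h8 | h8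
      · obtain ⟨x, hx⟩ := (h c h1).1
        exact absurd (h7 hx) (disjoint_left.1 h8 (mem_insert_of_mem hx))
      · exact absurd (h8 (mem_insert_self a c)) h5
      · exact Subset.antisymm h7 ((subset_insert_iff_of_notMem h5).1 h8)
    have hB : (C.filter fun c => a ∉ c ∧ insert a c ∈ C).card ≤ 1 := by
      refine card_le_one.2 fun c hc c' hc' => ?_
      rcases hl _ (mem_filter.1 hc).2.2 _ (mem_filter.1 hc').2.2 with h8 | h8 | h8
      · exact absurd (mem_insert_self a c') (disjoint_left.1 h8 (mem_insert_self a c))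
      · exact key c hc c' hc' h8
      · exact (key c' hc' c hc h8).symm
    have hinj : Set.InjOn (fun c : Finset V => c.erase a)
        (((C.erase {a}) \ C.filter fun c => a ∉ c ∧ insert a c ∈ C : Finset (Finset V)) :
          Set (Finset V)) := by
      intro c hc c' hc' he
      obtain ⟨h1, h2⟩ := mem_sdiff.1 (mem_coe.1 hc)
      obtain ⟨h3, h4⟩ := mem_sdiff.1 (mem_coe.1 hc')
      have he : c.erase a = c'.erase a := he
      by_cases h5 : a ∈ c <;> by_cases h6 : a ∈ c'
      · rw [← insert_erase h5, he, insert_erase h6]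
      · refine absurd (mem_filter.2 ⟨mem_of_mem_erase h3, h6, ?_⟩) h4
        rw [← erase_eq_of_notMem h6, ← he, insert_erase h5]
        exact mem_of_mem_erase h1
      · refine absurd (mem_filter.2 ⟨mem_of_mem_erase h1, h5, ?_⟩) h2
        rw [← erase_eq_of_notMem h5, he, insert_erase h6]
        exact mem_of_mem_erase h3
      · rw [← erase_eq_of_notMem h5, he, erase_eq_of_notMem h6]
    have h1 := ih (((C.erase {a}) \ C.filter fun c => a ∉ c ∧ insert a c ∈ C).image
      fun c => c.erase a) (fun c hc => ?_) fun c hc c' hc' => ?_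
    · rw [card_image_of_injOn hinj] at h1
      have h2 := le_card_sdiff (C.filter fun c => a ∉ c ∧ insert a c ∈ C) (C.erase {a})
      have h3 := pred_card_le_card_erase (s := C) (a := {a})
      rw [card_insert_of_notMem ha]
      omega
    · obtain ⟨c, hc0, rfl⟩ := mem_image.1 hc
      obtain ⟨h2, h3⟩ := mem_erase.1 (mem_sdiff.1 hc0).1
      refine ⟨?_, subset_insert_iff.1 (h c h3).2⟩
      by_contra hne
      rw [not_nonempty_iff_eq_empty, erase_eq_empty_iff] at hne
      rcases hne with hne | hne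
      · exact (h c h3).1.ne_empty hne
      · exact h2 hne
    · obtain ⟨c, hc0, rfl⟩ := mem_image.1 hc
      obtain ⟨c', hc1, rfl⟩ := mem_image.1 hc'
      rcases hl c (mem_of_mem_erase (mem_sdiff.1 hc0).1) c' (mem_of_mem_erase (mem_sdiff.1 hc1).1)
        with h8 | h8 | h8
      · exact Or.inl (h8.mono (erase_subset _ _) (erase_subset _ _))
      · exact Or.inr (Or.inl (erase_subset_erase _ h8))
      · exact Or.inr (Or.inr (erase_subset_erase _ h8))

theorem cf_symm {S T : Finset V} (h : CrossFree S T) : CrossFree T S := by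
  rcases h with h | h | h | h
  · exact Or.inl h.symm
  · exact Or.inr (Or.inr (Or.inl h))
  · exact Or.inr (Or.inl h)
  · exact Or.inr (Or.inr (Or.inr (by rwa [union_comm])))

theorem cf_compl {S T : Finset V} (h : CrossFree S T) : CrossFree Sᶜ T := by
  rcases h with h | h | h | h
  · exact Or.inr (Or.inr (Or.inl fun x hx => mem_compl.2 (disjoint_right.1 h hx)))
  · refine Or.inr (Or.inr (Or.inr (eq_univ_of_forall fun x => ?_)))
    by_cases hx : x ∈ S
    · exact mem_union_right _ (h hx)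
    · exact mem_union_left _ (mem_compl.2 hx)
  · exact Or.inl (disjoint_left.2 fun x hx hT => mem_compl.1 hx (h hT))
  · refine Or.inr (Or.inl fun x hx => ?_)
    exact (mem_union.1 (h ▸ mem_univ x : x ∈ S ∪ T)).resolve_left (mem_compl.1 hx)

/-- All cuts of a packing may be assumed to avoid a given vertex. -/
theorem avoid {d : V → V → ℕ} {W : Finset V} {J : Type} {s : Finset J} {S : J → Finset V}
    (h : IsPack d W s S) (w : V) : ∃ L : J → Finset V, IsPack d W s L ∧ ∀ j, w ∉ L j := by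
  refine ⟨fun j => if w ∈ S j then (S j)ᶜ else S j, ⟨fun j hj => ?_, fun i hi j hj => ?_,
    fun a b => le_trans (card_le_card fun j hj => ?_) (h.2.2 a b)⟩, fun j => ?_⟩
  · obtain ⟨⟨a, ha, ha'⟩, b, hb, hb'⟩ := h.1 j hj
    beta_reduce
    split_ifs
    · exact ⟨⟨b, hb, mem_compl.2 hb'⟩, a, ha, fun hc => mem_compl.1 hc ha'⟩
    · exact ⟨⟨a, ha, ha'⟩, b, hb, hb'⟩
  · have h1 := h.2.1 i hi j hj
    beta_reduce
    split_ifs
    · exact cf_compl (cf_symm (cf_compl (cf_symm h1)))
    · exact cf_compl h1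
    · exact cf_symm (cf_compl (cf_symm h1))
    · exact h1
  · obtain ⟨h1, h2⟩ := mem_filter.1 hj
    refine mem_filter.2 ⟨h1, ?_⟩
    beta_reduce at h2
    split_ifs at h2
    · exact fun hab => h2 (by rw [mem_compl, mem_compl, hab])
    · exact h2
  · beta_reduce
    split_ifs with hw
    · exact fun hc => mem_compl.1 hc hw
    · exact hw

end Pack

open Pack

theorem le_pv {d : V → V → ℕ} {W : Finset V} {J : Type} {s : Finset J} {S : J → Finset V}
    (h : IsPack d W s S) : s.card ≤ pv d W := by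
  rcases s.eq_empty_or_nonempty with rfl | ⟨j0, -⟩
  · exact Nat.zero_le _
  refine le_csSup (bdd d W) ⟨_, comp h
    (g := fun n => if hn : n < s.card then (s.equivFin.symm ⟨n, hn⟩ : J) else j0) ?_ ?_⟩
  · intro i hi
    rw [dif_pos (mem_range.1 hi)]
    exact coe_mem _
  · intro i hi j hj hij
    have hi' := mem_range.1 (mem_coe.1 hi)
    have hj' := mem_range.1 (mem_coe.1 hj)
    simp only [dif_pos hi', dif_pos hj'] at hij
    exact congrArg Fin.val (s.equivFin.symm.injective (Subtype.ext hij))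

theorem pv_eq_zero (d : V → V → ℕ) {W : Finset V} (h : W.card ≤ 1) : pv d W = 0 := by
  obtain ⟨S, hS⟩ := exists_opt d W
  by_contra hne
  obtain ⟨⟨a, ha, ha'⟩, b, hb, hb'⟩ := hS.1 0 (mem_range.2 (Nat.pos_of_ne_zero hne))
  exact hb' (card_le_one.1 h a ha b hb ▸ ha')

/-- Normal form of an optimal packing: at most `2 |W|` chains; the cuts are the sets
`{a | f c a ≤ t}` for `t < len c`. -/
theorem exists_nf (d : V → V → ℕ) (W : Finset V) :
    ∃ (C : Finset (Finset V)) (len : Finset V → ℕ) (f : Finset V → V → ℕ),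
      C.card ≤ 2 * W.card ∧ ∑ c ∈ C, len c = pv d W ∧
      (∀ c ∈ C, ∀ a, f c a ≤ len c) ∧
      (∀ c ∈ C, ∃ a ∈ W, f c a = 0) ∧ (∀ c ∈ C, ∃ b ∈ W, f c b = len c) ∧
      (∀ a b, ∑ c ∈ C, Nat.dist (f c a) (f c b) ≤ d a b) ∧
      (∀ c ∈ C, ∀ c' ∈ C, c ≠ c' →
        (∀ a, f c a < len c → f c' a = 0) ∨ (∀ a, f c' a < len c' → f c a = 0) ∨
          (∀ a, f c a = len c ∨ f c' a = len c')) := by
  obtain ⟨S, hS⟩ := exists_opt d W
  generalize pv d W = m at hS ⊢
  rcases Nat.eq_zero_or_pos m with rfl | hm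
  · exact ⟨∅, fun _ => 0, fun _ _ => 0, by simp⟩
  obtain ⟨⟨w, hw, -⟩, -⟩ := hS.1 0 (mem_range.2 hm)
  obtain ⟨L, hL, hwL⟩ := avoid hS w
  have hlam : ∀ i ∈ range m, ∀ j ∈ range m, Disjoint (L i) (L j) ∨ L i ⊆ L j ∨ L j ⊆ L i := by
    intro i hi j hj
    rcases hL.2.1 i hi j hj with h | h | h | h
    · exact Or.inl h
    · exact Or.inr (Or.inl h)
    · exact Or.inr (Or.inr h)
    · exact absurd (mem_union.1 (h ▸ mem_univ w : w ∈ L i ∪ L j)) (not_or.2 ⟨hwL i, hwL j⟩)
  have hne : ∀ j ∈ range m, (L j ∩ W).Nonempty := fun j hj => by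
    obtain ⟨⟨a, ha, ha'⟩, -⟩ := hL.1 j hj
    exact ⟨a, mem_inter.2 ⟨ha', ha⟩⟩
  have hle : ∀ (c : Finset V) (a : V), ((range m).filter fun j => L j ∩ W = c ∧ a ∉ L j).card ≤
      ((range m).filter fun j => L j ∩ W = c).card := fun c a =>
    card_le_card fun j hj => mem_filter.2 ⟨(mem_filter.1 hj).1, (mem_filter.1 hj).2.1⟩
  have hex : ∀ (c : Finset V) (a : V), ((range m).filter fun j => L j ∩ W = c ∧ a ∉ L j).card ≠
      ((range m).filter fun j => L j ∩ W = c).card → ∃ j ∈ range m, L j ∩ W = c ∧ a ∈ L j := by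
    intro c a h
    by_contra hc
    refine h (congrArg card (filter_congr fun j hj => ⟨fun h1 => h1.1, fun h1 => ⟨h1, ?_⟩⟩))
    exact fun h2 => hc ⟨j, hj, h1, h2⟩
  have hsub : ∀ c c' : Finset V, c ≠ c' → c ⊆ c' → ∀ a,
      ((range m).filter fun j => L j ∩ W = c ∧ a ∉ L j).card <
        ((range m).filter fun j => L j ∩ W = c).card →
      ((range m).filter fun j => L j ∩ W = c' ∧ a ∉ L j).card = 0 := by
    intro c c' hcc hs a h
    obtain ⟨j, hj, rfl, ha⟩ := hex c a h.ne
    rw [card_eq_zero, filter_eq_empty_iff]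
    rintro j' hj' ⟨rfl, ha'⟩
    rcases hlam j hj j' hj' with h1 | h1 | h1
    · obtain ⟨x, hx⟩ := hne j hj
      exact disjoint_left.1 h1 (mem_inter.1 hx).1 (mem_inter.1 (hs hx)).1
    · exact ha' (h1 ha)
    · exact hcc (Subset.antisymm hs (inter_subset_inter_right h1))
  have hdist : ∀ (c : Finset V) (a b : V),
      ((range m).filter fun j => L j ∩ W = c ∧ a ∉ L j).card ≤
        ((range m).filter fun j => L j ∩ W = c ∧ b ∉ L j).card +
          (((range m).filter fun j => Sep (L j) a b).filter fun j => L j ∩ W = c).card := by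
    intro c a b
    refine le_trans (card_le_card fun j hj => ?_) (card_union_le _ _)
    obtain ⟨h1, h2, h3⟩ := mem_filter.1 hj
    by_cases h4 : b ∈ L j
    · exact mem_union_right _ (mem_filter.2 ⟨mem_filter.2 ⟨h1, fun h => h3 (h.2 h4)⟩, h2⟩)
    · exact mem_union_left _ (mem_filter.2 ⟨h1, h2, h4⟩)
  refine ⟨(range m).image fun j => L j ∩ W, fun c => ((range m).filter fun j => L j ∩ W = c).card,
    fun c a => ((range m).filter fun j => L j ∩ W = c ∧ a ∉ L j).card, ?_, ?_,
    fun c _ a => hle c a, ?_, ?_, ?_, ?_⟩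
  · refine laminar_card W _ (fun c hc => ?_) fun c hc c' hc' => ?_
    · obtain ⟨j, hj, rfl⟩ := mem_image.1 hc
      exact ⟨hne j hj, inter_subset_right⟩
    · obtain ⟨j, hj, rfl⟩ := mem_image.1 hc
      obtain ⟨j', hj', rfl⟩ := mem_image.1 hc'
      rcases hlam j hj j' hj' with h | h | h
      · exact Or.inl (h.mono inter_subset_left inter_subset_left)
      · exact Or.inr (Or.inl (inter_subset_inter_right h))
      · exact Or.inr (Or.inr (inter_subset_inter_right h))
  · rw [← card_eq_sum_card_image, card_range]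
  · intro c hc
    obtain ⟨j, hj, rfl⟩ := mem_image.1 hc
    obtain ⟨a, ha⟩ := hne j hj
    refine ⟨a, (mem_inter.1 ha).2, ?_⟩
    rw [card_eq_zero, filter_eq_empty_iff]
    rintro j' - ⟨h1, h2⟩
    exact h2 (mem_inter.1 (h1 ▸ ha)).1
  · exact fun c _ => ⟨w, hw, congrArg card (filter_congr fun j _ => and_iff_left (hwL j))⟩
  · intro a b
    refine le_trans ?_ (hL.2.2 a b)
    rw [card_eq_sum_card_fiberwise (s := (range m).filter fun j => Sep (L j) a b)
      (t := (range m).image fun j => L j ∩ W) (f := fun j => L j ∩ W)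
      fun j hj => mem_coe.2 (mem_image_of_mem _ (mem_filter.1 (mem_coe.1 hj)).1)]
    refine sum_le_sum fun c _ => ?_
    have h1 := hdist c a b
    have h2 := hdist c b a
    have h3 : ((range m).filter fun j => Sep (L j) b a) = (range m).filter fun j => Sep (L j) a b :=
      filter_congr fun j _ => not_congr Iff.comm
    rw [h3] at h2
    beta_reduce
    unfold Nat.dist
    omega
  · intro c _ c' _ hcc
    by_cases h1 : c ⊆ c'
    · exact Or.inl (hsub c c' hcc h1)
    by_cases h2 : c' ⊆ c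
    · exact Or.inr (Or.inl (hsub c' c hcc.symm h2))
    refine Or.inr (Or.inr fun a => ?_)
    by_contra hc
    obtain ⟨j, hj, rfl, ha⟩ := hex c a (not_or.1 hc).1
    obtain ⟨j', hj', rfl, ha'⟩ := hex c' a (not_or.1 hc).2
    rcases hlam j hj j' hj' with h | h | h
    · exact disjoint_left.1 h ha ha'
    · exact h1 (inter_subset_inter_right h)
    · exact h2 (inter_subset_inter_right h)

end Vale.Agent.P061Z
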