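import Vale.Agent.P061Z.SLB

/-! # P061: the net lemma inside one parent part -/

namespace Vale.Agent.P061Z

open Finset

variable {V E : Type} [Fintype V] [DecidableEq V] [Fintype E] [DecidableEq E]

theorem sl {d : V → V → ℕ} (hd : IsMet d) (Xs : Finset ℕ) (W : ℕ → Finset V) (W' : Finset V)
    (EU : Finset E) (u v : E → V) (xu xv : E → ℕ)
    (hx : ∀ e ∈ EU, xu e ∈ Xs ∧ xv e ∈ Xs ∧ xu e ≠ xv e ∧ u e ∈ W (xu e) ∧ v e ∈ W (xv e))
    (κ : ℕ) (hκ : 0 < κ)
    (hcon : ∀ S, Splits S W' → (∀ x ∈ Xs, ¬ Splits S (W x)) → κ ≤ (cutE u v EU S).card)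
    (l R : ℕ) (hR : 0 < R) (σ : ℝ)
    (hσ : σ = ∑ x ∈ Xs, (pv d (W x) : ℝ) + (∑ e ∈ EU, (d (u e) (v e) : ℝ)) / κ - pv d W') :
    0 ≤ σ ∧ ∃ (K : Finset E) (Z : Finset V), K ⊆ EU ∧
      (∀ e ∈ K, (∃ z ∈ Z, d (u e) z < 2 * R) ∧ ∃ z ∈ Z, d (v e) z < 2 * R) ∧
      (l : ℝ) * (EU \ K).card ≤ κ * σ ∧
      (R : ℝ) * Z.card ≤ R * Xs.card + 3 * σ +
        (2 * l + 12 * R + 1) * (2 * Xs.card + 8 * W'.card) := by
  obtain ⟨C, len, f, hC, hlen, hle, h0, h1, hdom, halt⟩ := exists_nf d W'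
  have h : SL.NF d C len f := ⟨hle, hdom, halt⟩
  set J := SL.cuts C len with hJ
  set m := SL.mm f Xs W with hm
  set n : (Σ _ : Finset V, ℕ) → ℕ := fun j => (cutE u v EU (SL.cutS f j)).card with hn
  -- every cut splits the parent set
  have hsplit : ∀ j ∈ J, Splits (SL.cutS f j) W' := by
    intro j hj
    obtain ⟨hc, ht⟩ := SL.mem_cuts.1 hj
    obtain ⟨a, ha, ha0⟩ := h0 _ hc
    obtain ⟨b, hb, hb1⟩ := h1 _ hc
    refine ⟨⟨a, ha, SL.mem_cutS.2 (by omega)⟩, b, hb, fun hh => ?_⟩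
    have := SL.mem_cutS.1 hh
    omega
  have hkey : ∀ j ∈ J, κ ≤ κ * m j + n j := by
    intro j hj
    rcases Nat.eq_zero_or_pos (m j) with hz | hz
    · have h2 := hcon _ (hsplit j hj) fun x hx hs => by
        have : 0 < m j := card_pos.2 ⟨x, mem_filter.2 ⟨hx, hs⟩⟩
        omega
      exact le_trans h2 (Nat.le_add_left _ _)
    · exact le_trans (Nat.le_mul_of_pos_right _ hz) (Nat.le_add_right _ _)
  -- double counting
  have hmsum : ∀ s : Finset (Σ _ : Finset V, ℕ), ∑ j ∈ s, m j =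
      ∑ x ∈ Xs, (s.filter fun j => Splits (SL.cutS f j) (W x)).card := by
    intro s
    simp only [hm, SL.mm, card_filter]
    exact sum_comm
  have hnsum : ∀ s : Finset (Σ _ : Finset V, ℕ), ∑ j ∈ s, n j =
      ∑ e ∈ EU, (s.filter fun j => Sep (SL.cutS f j) (u e) (v e)).card := by
    intro s
    simp only [hn, cutE, card_filter]
    exact sum_comm
  have hnle : ∑ j ∈ J, n j ≤ ∑ e ∈ EU, d (u e) (v e) := by
    rw [hnsum]
    exact sum_le_sum fun e _ => h.card_sep _ _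
  have hmle : ∑ j ∈ J, m j ≤ ∑ x ∈ Xs, pv d (W x) := by
    rw [hmsum]
    exact sum_le_sum fun x _ => le_pv (h.pack (W x) _ (filter_subset _ _)
      fun j hj => (mem_filter.1 hj).2)
  have hJc : J.card = pv d W' := by rw [hJ, SL.card_cuts, hlen]
  -- the excess of a cut
  obtain ⟨ex, hex⟩ : ∃ ex : (Σ _ : Finset V, ℕ) → ℕ, ∀ j ∈ J, ex j + κ = κ * m j + n j :=
    ⟨fun j => κ * m j + n j - κ, fun j hj => Nat.sub_add_cancel (hkey j hj)⟩
  have hA : ∑ j ∈ J, ex j + κ * pv d W' = κ * ∑ j ∈ J, m j + ∑ j ∈ J, n j := by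
    rw [mul_sum, ← sum_add_distrib, ← sum_congr rfl hex, sum_add_distrib, sum_const, hJc,
      smul_eq_mul, mul_comm]
  -- kept edges
  set K := EU.filter fun e =>
    (J.filter fun j => 1 ≤ m j ∧ Sep (SL.cutS f j) (u e) (v e)).card < l with hK
  have hdrop : l * (EU \ K).card ≤ ∑ j ∈ J, ex j := by
    have e1 : ∑ j ∈ J.filter (fun j => 1 ≤ m j), n j ≤ ∑ j ∈ J, ex j := by
      refine le_trans (sum_le_sum fun j hj => ?_)
        (sum_le_sum_of_subset (f := ex) (filter_subset (fun j => 1 ≤ m j) J))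
      obtain ⟨hj, hj1⟩ := mem_filter.1 hj
      have h2 := hex j hj
      have h3 : κ ≤ κ * m j := Nat.le_mul_of_pos_right _ hj1
      omega
    refine le_trans ?_ e1
    rw [hnsum, mul_comm, ← smul_eq_mul, ← sum_const]
    refine le_trans (sum_le_sum fun e he => ?_) (sum_le_sum_of_subset (sdiff_subset (t := K)))
    obtain ⟨he, hne⟩ := mem_sdiff.1 he
    rw [filter_filter]
    exact not_lt.1 fun hh => hne (mem_filter.2 ⟨he, hh⟩)
  set T := K.image u ∪ K.image v with hT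
  have hTx : ∀ a ∈ T, ∃ b x y, x ∈ Xs ∧ y ∈ Xs ∧ x ≠ y ∧ a ∈ W x ∧ b ∈ W y ∧
      (J.filter fun j => 1 ≤ m j ∧ Sep (SL.cutS f j) a b).card < l := by
    intro a ha
    rcases mem_union.1 ha with ha | ha
    · obtain ⟨e, he, rfl⟩ := mem_image.1 ha
      obtain ⟨he, hl⟩ := mem_filter.1 he
      obtain ⟨a1, a2, a3, a4, a5⟩ := hx e he
      exact ⟨v e, xu e, xv e, a1, a2, a3, a4, a5, hl⟩
    · obtain ⟨e, he, rfl⟩ := mem_image.1 ha
      obtain ⟨he, hl⟩ := mem_filter.1 he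
      obtain ⟨a1, a2, a3, a4, a5⟩ := hx e he
      refine ⟨u e, xv e, xu e, a2, a1, a3.symm, a5, a4, ?_⟩
      simpa only [SL.sep_comm (a := v e) (b := u e)] using hl
  have hcount := h.count Xs W T l R hTx
  obtain ⟨Z, hZT, hsep, hcov⟩ := SL.exists_net hd T (r := 2 * R) (by omega)
  -- centres per child
  have hZ : R * Z.card + ∑ j ∈ J.filter (fun j => ¬ SL.Sp f T R j), m j ≤
      R * Xs.card + ∑ x ∈ Xs, pv d (W x) := by
    have e1 : Z.card ≤ ∑ x ∈ Xs, (Z ∩ W x).card := by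
      refine le_trans (card_le_card fun z hz => ?_) card_biUnion_le
      obtain ⟨-, x, -, hx1, -, -, hx2, -⟩ := hTx z (hZT hz)
      exact mem_biUnion.2 ⟨x, hx1, mem_inter.2 ⟨hz, hx2⟩⟩
    have e2 : ∀ x ∈ Xs, R * (Z ∩ W x).card + ((J.filter fun j => ¬ SL.Sp f T R j).filter
        fun j => Splits (SL.cutS f j) (W x)).card ≤ R + pv d (W x) := by
      intro x _
      have h2 := h.net hd T (Z ∩ W x) (W x) R (inter_subset_left.trans hZT) inter_subset_right
        fun z hz z' hz' => hsep z (mem_inter.1 hz).1 z' (mem_inter.1 hz').1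
      rw [filter_comm, filter_filter]
      exact h2
    have e3 := sum_le_sum e2
    rw [sum_add_distrib, sum_add_distrib, ← mul_sum, sum_const, smul_eq_mul, ← hmsum,
      mul_comm Xs.card] at e3
    have e4 := Nat.mul_le_mul_left R e1
    omega
  have hSp : κ * ∑ j ∈ J.filter (SL.Sp f T R), m j ≤
      κ * (J.filter fun j => SL.Sp f T R j ∧ m j ≤ 1).card + 2 * ∑ j ∈ J, ex j := by
    rw [← filter_filter, card_filter, mul_sum, mul_sum]
    refine le_trans ?_ (Nat.add_le_add_left (Nat.mul_le_mul_left 2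
      (sum_le_sum_of_subset (f := ex) (filter_subset (SL.Sp f T R) J))) _)
    rw [mul_sum, ← sum_add_distrib]
    refine sum_le_sum fun j hj => ?_
    have h2 := hex j (mem_filter.1 hj).1
    split_ifs with h3
    · have := Nat.mul_le_mul_left κ h3
      omega
    · have : κ * 2 ≤ κ * m j := Nat.mul_le_mul_left κ (by omega)
      omega
  have hpart : ∑ j ∈ J.filter (SL.Sp f T R), m j +
      ∑ j ∈ J.filter (fun j => ¬ SL.Sp f T R j), m j = ∑ j ∈ J, m j :=
    sum_filter_add_sum_filter_not _ _ _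
  -- pass to the reals
  have hκ' : (0 : ℝ) < κ := Nat.cast_pos.2 hκ
  have hσ' : (κ : ℝ) * σ = κ * ((∑ x ∈ Xs, pv d (W x) : ℕ) : ℝ) +
      ((∑ e ∈ EU, d (u e) (v e) : ℕ) : ℝ) - κ * (pv d W' : ℝ) := by
    rw [hσ]
    push_cast
    field_simp
  have hwin : (J.filter fun j => SL.Sp f T R j ∧ m j ≤ 1).card ≤
      (2 * l + 12 * R + 1) * (2 * Xs.card + 8 * W'.card) :=
    le_trans hcount (Nat.mul_le_mul (by omega) (by omega))
  generalize (J.filter fun j => SL.Sp f T R j ∧ m j ≤ 1).card = w at hwin hSp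
  generalize ∑ j ∈ J.filter (SL.Sp f T R), m j = m₁ at hSp hpart
  generalize ∑ j ∈ J.filter (fun j => ¬ SL.Sp f T R j), m j = m₂ at hZ hpart
  generalize ∑ j ∈ J, m j = M at hpart hA hmle
  generalize ∑ j ∈ J, n j = N at hA hnle
  generalize ∑ j ∈ J, ex j = A at hA hSp hdrop
  generalize ∑ x ∈ Xs, pv d (W x) = P at hσ' hZ hmle
  generalize ∑ e ∈ EU, d (u e) (v e) = L at hσ' hnle
  have rA : (A : ℝ) + κ * (pv d W' : ℝ) = κ * M + N := by exact_mod_cast hA
  have rN : (N : ℝ) ≤ L := by exact_mod_cast hnle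
  have rM : (M : ℝ) ≤ P := by exact_mod_cast hmle
  have rD : (l : ℝ) * (EU \ K).card ≤ A := by exact_mod_cast hdrop
  have rZ : (R : ℝ) * Z.card + m₂ ≤ R * Xs.card + P := by exact_mod_cast hZ
  have rS : (κ : ℝ) * m₁ ≤ κ * w + 2 * A := by exact_mod_cast hSp
  have rP : (m₁ : ℝ) + m₂ = M := by exact_mod_cast hpart
  have rW : (w : ℝ) ≤ (2 * l + 12 * R + 1) * (2 * Xs.card + 8 * W'.card) := by
    exact_mod_cast hwin
  have rA0 : (0 : ℝ) ≤ A := Nat.cast_nonneg _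
  have hB : 0 ≤ (κ : ℝ) * (P - M) := mul_nonneg hκ'.le (by linarith)
  have hmain : (κ : ℝ) * (P - M) + A ≤ κ * σ := by
    rw [hσ']
    linarith
  have hσ0 : 0 ≤ σ := by
    by_contra hh
    have := mul_neg_of_pos_of_neg hκ' (not_le.1 hh)
    linarith
  refine ⟨hσ0, K, Z, filter_subset _ _, fun e he => ⟨?_, ?_⟩, by linarith, ?_⟩
  · exact hcov _ (mem_union_left _ (mem_image_of_mem _ he))
  · exact hcov _ (mem_union_right _ (mem_image_of_mem _ he))
  · have h2 : (κ : ℝ) * (P - M + m₁) ≤ κ * (2 * σ + w) := by linarith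
    have h3 := le_of_mul_le_mul_left h2 hκ'
    linarith

end Vale.Agent.P061Z
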