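import Vale.Agent.P061Z.Pack

/-! # P061: chains of cuts, the window count and the ball packing -/

namespace Vale.Agent.P061Z.SL

open Finset

theorem card_range_sep (n p q : ℕ) :
    ((range n).filter fun t => ¬ (p ≤ t ↔ q ≤ t)).card = Nat.dist (min p n) (min q n) := by
  rcases le_total p q with h | h
  · have : ((range n).filter fun t => ¬ (p ≤ t ↔ q ≤ t)) = Ico (min p n) (min q n) := by
      ext t
      simp only [mem_filter, mem_range, mem_Ico]
      omega
    rw [this, Nat.card_Ico]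
    unfold Nat.dist
    omega
  · have : ((range n).filter fun t => ¬ (p ≤ t ↔ q ≤ t)) = Ico (min q n) (min p n) := by
      ext t
      simp only [mem_filter, mem_range, mem_Ico]
      omega
    rw [this, Nat.card_Ico]
    unfold Nat.dist
    omega

/-- The window count on one chain. -/
theorem oneD (Xs X0 : Finset ℕ) (lo hi : ℕ → ℕ) (len L : ℕ) (N : Finset ℕ)
    (hX0 : ∀ x ∈ Xs, x ∉ X0 → lo x = 0 ∨ hi x = len)
    (hN : ∀ t ∈ N, t < len ∧
      (∀ x ∈ Xs, ∀ y ∈ Xs, lo x ≤ t → t < hi x → lo y ≤ t → t < hi y → x = y) ∧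
      ∃ x ∈ Xs, Nat.dist t (lo x) ≤ L ∨ Nat.dist t (hi x) ≤ L) :
    N.card ≤ (2 * L + 1) * (2 * X0.card + 4) := by
  rcases N.eq_empty_or_nonempty with rfl | hne
  · simp
  have hτ : N.min' hne ∈ N := min'_mem _ _
  have hτ' : N.max' hne ∈ N := max'_mem _ _
  have hle : ∀ t ∈ N, N.min' hne ≤ t := fun t ht => min'_le _ _ ht
  have hle' : ∀ t ∈ N, t ≤ N.max' hne := fun t ht => le_max' _ _ ht
  generalize N.min' hne = τ at hτ hle
  generalize N.max' hne = τ' at hτ' hle'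
  obtain ⟨μ₁, hμ₁⟩ : ∃ μ₁, ∀ x ∈ Xs, lo x = 0 → τ < hi x → hi x = μ₁ := by
    by_cases h : ∃ y ∈ Xs, lo y = 0 ∧ τ < hi y
    · obtain ⟨y, hy, h0, h1⟩ := h
      refine ⟨hi y, fun x hx hx0 hx1 => ?_⟩
      rw [(hN τ hτ).2.1 x hx y hy (by omega) hx1 (by omega) h1]
    · exact ⟨0, fun x hx hx0 hx1 => (h ⟨x, hx, hx0, hx1⟩).elim⟩
  obtain ⟨μ₂, hμ₂⟩ : ∃ μ₂, ∀ x ∈ Xs, hi x = len → lo x ≤ τ' → lo x = μ₂ := by
    by_cases h : ∃ y ∈ Xs, hi y = len ∧ lo y ≤ τ'
    · obtain ⟨y, hy, h0, h1⟩ := h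
      have hl := (hN τ' hτ').1
      refine ⟨lo y, fun x hx hx0 hx1 => ?_⟩
      rw [(hN τ' hτ').2.1 x hx y hy hx1 (by omega) h1 (by omega)]
    · exact ⟨0, fun x hx hx0 hx1 => (h ⟨x, hx, hx0, hx1⟩).elim⟩
  have hl' := (hN τ' hτ').1
  let M : Finset ℕ := (X0.image lo ∪ X0.image hi) ∪ {τ, τ', μ₁, μ₂}
  have hM : M.card ≤ 2 * X0.card + 4 := by
    have h1 := card_union_le (X0.image lo ∪ X0.image hi) ({τ, τ', μ₁, μ₂} : Finset ℕ)
    have h2 := card_union_le (X0.image lo) (X0.image hi)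
    have h3 : (X0.image lo).card ≤ X0.card := card_image_le
    have h4 : (X0.image hi).card ≤ X0.card := card_image_le
    have h5 : ({τ, τ', μ₁, μ₂} : Finset ℕ).card ≤ 4 := card_le_four
    show ((X0.image lo ∪ X0.image hi) ∪ {τ, τ', μ₁, μ₂}).card ≤ _
    omega
  have hcov : ∀ t ∈ N, ∃ μ ∈ M, Nat.dist t μ ≤ L := by
    intro t ht
    obtain ⟨htl, -, x, hx, hd⟩ := hN t ht
    have a1 := hle t ht
    have a2 := hle' t ht
    have m1 : τ ∈ M := by simp [M]
    have m2 : τ' ∈ M := by simp [M]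
    have m3 : μ₁ ∈ M := by simp [M]
    have m4 : μ₂ ∈ M := by simp [M]
    by_cases hx0 : x ∈ X0
    · rcases hd with hd | hd
      · exact ⟨lo x, mem_union_left _ (mem_union_left _ (mem_image_of_mem _ hx0)), hd⟩
      · exact ⟨hi x, mem_union_left _ (mem_union_right _ (mem_image_of_mem _ hx0)), hd⟩
    · rcases hX0 x hx hx0 with h0 | h0
      · rcases hd with hd | hd
        · refine ⟨τ, m1, ?_⟩
          unfold Nat.dist at hd ⊢
          omega
        · by_cases hc : τ < hi x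
          · exact ⟨μ₁, m3, hμ₁ x hx h0 hc ▸ hd⟩
          · refine ⟨τ, m1, ?_⟩
            unfold Nat.dist at hd ⊢
            omega
      · rcases hd with hd | hd
        · by_cases hc : lo x ≤ τ'
          · exact ⟨μ₂, m4, hμ₂ x hx h0 hc ▸ hd⟩
          · refine ⟨τ', m2, ?_⟩
            unfold Nat.dist at hd ⊢
            omega
        · refine ⟨τ', m2, ?_⟩
          unfold Nat.dist at hd ⊢
          omega
  have hsub : N ⊆ M.biUnion fun μ => Icc (μ - L) (μ + L) := by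
    intro t ht
    obtain ⟨μ, hμ, hd⟩ := hcov t ht
    refine mem_biUnion.2 ⟨μ, hμ, ?_⟩
    unfold Nat.dist at hd
    rw [mem_Icc]
    omega
  calc N.card ≤ (M.biUnion fun μ => Icc (μ - L) (μ + L)).card := card_le_card hsub
    _ ≤ M.card * (2 * L + 1) := by
        refine card_biUnion_le_card_mul _ _ _ fun μ _ => ?_
        rw [Nat.card_Icc]
        omega
    _ ≤ (2 * L + 1) * (2 * X0.card + 4) := by
        rw [mul_comm]
        exact Nat.mul_le_mul_left _ hM

variable {V : Type} [Fintype V] [DecidableEq V] {ι : Type} [DecidableEq ι]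

/-- The cut with index `(c, t)`. -/
def cutS (f : ι → V → ℕ) (j : Σ _ : ι, ℕ) : Finset V := univ.filter fun a => f j.1 a ≤ j.2

/-- The index set of the cuts. -/
def cuts (C : Finset ι) (len : ι → ℕ) : Finset (Σ _ : ι, ℕ) := C.sigma fun c => range (len c)

/-- A family of chains in normal form. -/
structure NF (d : V → V → ℕ) (C : Finset ι) (len : ι → ℕ) (f : ι → V → ℕ) : Prop where
  le : ∀ c ∈ C, ∀ a, f c a ≤ len c
  dom : ∀ a b, ∑ c ∈ C, Nat.dist (f c a) (f c b) ≤ d a b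
  alt : ∀ c ∈ C, ∀ c' ∈ C, c ≠ c' →
    (∀ a, f c a < len c → f c' a = 0) ∨ (∀ a, f c' a < len c' → f c a = 0) ∨
      (∀ a, f c a = len c ∨ f c' a = len c')

omit [DecidableEq V] [DecidableEq ι] in
theorem mem_cutS {f : ι → V → ℕ} {j : Σ _ : ι, ℕ} {a : V} : a ∈ cutS f j ↔ f j.1 a ≤ j.2 := by
  simp [cutS]

omit [DecidableEq ι] in
theorem mem_cuts {C : Finset ι} {len : ι → ℕ} {j : Σ _ : ι, ℕ} :
    j ∈ cuts C len ↔ j.1 ∈ C ∧ j.2 < len j.1 := by
  simp [cuts]

omit [DecidableEq V] [DecidableEq ι] in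
theorem sep_cutS {f : ι → V → ℕ} {j : Σ _ : ι, ℕ} {a b : V} :
    Sep (cutS f j) a b ↔ ¬ (f j.1 a ≤ j.2 ↔ f j.1 b ≤ j.2) := by
  unfold Sep
  rw [mem_cutS, mem_cutS]

omit [DecidableEq ι] in
theorem card_cuts (C : Finset ι) (len : ι → ℕ) : (cuts C len).card = ∑ c ∈ C, len c := by
  simp [cuts, card_sigma]

variable {d : V → V → ℕ} {C : Finset ι} {len : ι → ℕ} {f : ι → V → ℕ}

omit [DecidableEq ι] in
theorem NF.card_sep (h : NF d C len f) (a b : V) :
    ((cuts C len).filter fun j => Sep (cutS f j) a b).card ≤ d a b := by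
  refine le_trans (le_of_eq ?_) (h.dom a b)
  unfold cuts
  rw [filter_sigma, card_sigma]
  refine sum_congr rfl fun c hc => ?_
  have h1 := card_range_sep (len c) (f c a) (f c b)
  rw [min_eq_left (h.le c hc a), min_eq_left (h.le c hc b)] at h1
  rw [← h1]
  congr 1
  ext t
  simp only [mem_filter, sep_cutS]

theorem NF.crossFree (h : NF d C len f) {i j : Σ _ : ι, ℕ} (hi : i ∈ cuts C len)
    (hj : j ∈ cuts C len) : CrossFree (cutS f i) (cutS f j) := by
  rw [mem_cuts] at hi hj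
  unfold CrossFree
  by_cases hc : i.1 = j.1
  · rcases le_total i.2 j.2 with h1 | h1
    · refine Or.inr (Or.inl fun a ha => ?_)
      rw [mem_cutS] at ha ⊢
      rw [← hc]
      omega
    · refine Or.inr (Or.inr (Or.inl fun a ha => ?_))
      rw [mem_cutS] at ha ⊢
      rw [hc]
      omega
  · rcases h.alt _ hi.1 _ hj.1 hc with h1 | h1 | h1
    · refine Or.inr (Or.inl fun a ha => ?_)
      rw [mem_cutS] at ha ⊢
      have := h1 a (by omega)
      omega
    · refine Or.inr (Or.inr (Or.inl fun a ha => ?_))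
      rw [mem_cutS] at ha ⊢
      have := h1 a (by omega)
      omega
    · refine Or.inl (disjoint_left.2 fun a ha ha' => ?_)
      rw [mem_cutS] at ha ha'
      have := h1 a
      omega

omit [Fintype V] [DecidableEq V] [DecidableEq ι] in
theorem NF.lip (h : NF d C len f) {c : ι} (hc : c ∈ C) (a b : V) :
    Nat.dist (f c a) (f c b) ≤ d a b :=
  le_trans (single_le_sum (f := fun c => Nat.dist (f c a) (f c b)) (fun _ _ => Nat.zero_le _) hc)
    (h.dom a b)

omit [Fintype V] [DecidableEq V] [DecidableEq ι] in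
theorem NF.uniq (h : NF d C len f) {c c' : ι} (hc : c ∈ C) (hc' : c' ∈ C) {a : V}
    (h0 : 0 < f c a) (h1 : f c a < len c) (h0' : 0 < f c' a) (h1' : f c' a < len c') :
    c = c' := by
  by_contra hne
  rcases h.alt c hc c' hc' hne with h2 | h2 | h2
  · have := h2 a h1
    omega
  · have := h2 a h1'
    omega
  · have := h2 a
    omega

theorem NF.pack (h : NF d C len f) (W : Finset V) (s : Finset (Σ _ : ι, ℕ))
    (hs : s ⊆ cuts C len) (hW : ∀ j ∈ s, Splits (cutS f j) W) : IsPack d W s (cutS f) :=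
  ⟨hW, fun _ hi _ hj => h.crossFree (hs hi) (hs hj), fun a b =>
    le_trans (card_le_card (filter_subset_filter _ hs)) (h.card_sep a b)⟩

theorem card_ge_of_Ico {c : ι} (hc : c ∈ C) (p k : ℕ) (hk : p + k ≤ len c)
    (P : (Σ _ : ι, ℕ) → Prop) [DecidablePred P] (hP : ∀ t, p ≤ t → t < p + k → P ⟨c, t⟩) :
    k ≤ ((cuts C len).filter P).card := by
  have hsub : (Ico p (p + k)).image (fun t => (⟨c, t⟩ : Σ _ : ι, ℕ)) ⊆ (cuts C len).filter P := by
    intro j hj
    obtain ⟨t, ht, rfl⟩ := mem_image.1 hj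
    rw [mem_Ico] at ht
    refine mem_filter.2 ⟨mem_cuts.2 ⟨hc, ?_⟩, hP t ht.1 ht.2⟩
    show t < len c
    omega
  have h1 := card_le_card hsub
  rw [card_image_of_injective _ (fun a b hab => by simpa using hab), Nat.card_Ico] at h1
  omega

/-- The cuts within `3 R` of the position of a point of `T`. -/
def Sp (f : ι → V → ℕ) (T : Finset V) (R : ℕ) (j : Σ _ : ι, ℕ) : Prop :=
  ∃ a ∈ T, f j.1 a ≤ j.2 + 3 * R ∧ j.2 < f j.1 a + 3 * R

instance (f : ι → V → ℕ) (T : Finset V) (R : ℕ) : DecidablePred (Sp f T R) := by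
  intro j
  unfold Sp
  infer_instance

/-- The number of children split by a cut. -/
def mm (f : ι → V → ℕ) (Xs : Finset ℕ) (W : ℕ → Finset V) (j : Σ _ : ι, ℕ) : ℕ :=
  (Xs.filter fun x => Splits (cutS f j) (W x)).card

omit [DecidableEq V] in
theorem exists_lohi (g : V → ℕ) (n : ℕ) (hg : ∀ a, g a ≤ n) (W : Finset V) :
    ∃ lo hi : ℕ, (∀ a ∈ W, lo ≤ g a ∧ g a ≤ hi) ∧
      (∀ t, lo ≤ t → t < hi → Splits (univ.filter fun a => g a ≤ t) W) ∧
      (¬ (W.Nonempty ∧ ∀ a ∈ W, 0 < g a ∧ g a < n) → lo = 0 ∨ hi = n) := by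
  rcases W.eq_empty_or_nonempty with rfl | hne
  · exact ⟨0, 0, by simp, fun t _ h => absurd h (Nat.not_lt_zero _), fun _ => Or.inl rfl⟩
  obtain ⟨a, ha, hmin⟩ := exists_min_image W g hne
  obtain ⟨b, hb, hmax⟩ := exists_max_image W g hne
  refine ⟨g a, g b, fun x hx => ⟨hmin x hx, hmax x hx⟩, fun t h1 h2 => ?_, fun h => ?_⟩
  · refine ⟨⟨a, ha, by simpa using h1⟩, b, hb, ?_⟩
    simp only [mem_filter, mem_univ, true_and]
    omega
  · by_contra hcon
    refine h ⟨hne, fun x hx => ?_⟩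
    have h1 := hmin x hx
    have h2 := hmax x hx
    have h3 := hg b
    omega

/-- The number of light cuts near the positions of the points of `T`. -/
theorem NF.count (h : NF d C len f) (Xs : Finset ℕ) (W : ℕ → Finset V) (T : Finset V) (l R : ℕ)
    (hT : ∀ a ∈ T, ∃ b x y, x ∈ Xs ∧ y ∈ Xs ∧ x ≠ y ∧ a ∈ W x ∧ b ∈ W y ∧
      ((cuts C len).filter fun j => 1 ≤ mm f Xs W j ∧ Sep (cutS f j) a b).card < l) :
    ((cuts C len).filter fun j => Sp f T R j ∧ mm f Xs W j ≤ 1).card ≤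
      (2 * (l + 6 * R) + 1) * (2 * Xs.card + 4 * C.card) := by
  classical
  let X0 : ι → Finset ℕ := fun c =>
    Xs.filter fun x => (W x).Nonempty ∧ ∀ a ∈ W x, 0 < f c a ∧ f c a < len c
  have hX0 : ∑ c ∈ C, (X0 c).card ≤ Xs.card := by
    rw [← card_biUnion]
    · exact card_le_card (biUnion_subset.2 fun c _ => filter_subset _ _)
    · intro c hc c' hc' hne
      refine disjoint_left.2 fun x hx hx' => hne ?_
      obtain ⟨-, ⟨a, ha⟩, h1⟩ := mem_filter.1 hx
      obtain ⟨-, -, h2⟩ := mem_filter.1 hx'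
      exact h.uniq hc hc' (h1 a ha).1 (h1 a ha).2 (h2 a ha).1 (h2 a ha).2
  have hc : ∀ c ∈ C, ((range (len c)).filter fun t =>
      Sp f T R ⟨c, t⟩ ∧ mm f Xs W ⟨c, t⟩ ≤ 1).card ≤
        (2 * (l + 6 * R) + 1) * (2 * (X0 c).card + 4) := by
    intro c hc
    choose lo hi hb hs hz using fun x => exists_lohi (f c) (len c) (h.le c hc) (W x)
    have hone : ∀ t, ∀ x ∈ Xs, lo x ≤ t → t < hi x → 1 ≤ mm f Xs W ⟨c, t⟩ := by
      intro t x hx h1 h2
      exact card_pos.2 ⟨x, mem_filter.2 ⟨hx, hs x t h1 h2⟩⟩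
    refine oneD Xs (X0 c) lo hi (len c) (l + 6 * R) _ (fun x hx hx0 => hz x fun hh => ?_)
      fun t ht => ?_
    · exact hx0 (mem_filter.2 ⟨hx, hh⟩)
    obtain ⟨htl, ⟨a, haT, ha1, ha2⟩, hm⟩ := mem_filter.1 ht
    rw [mem_range] at htl
    have huniq : ∀ x ∈ Xs, ∀ y ∈ Xs, lo x ≤ t → t < hi x → lo y ≤ t → t < hi y → x = y := by
      intro x hx y hy h1 h2 h3 h4
      exact card_le_one.1 hm x (mem_filter.2 ⟨hx, hs x t h1 h2⟩) y
        (mem_filter.2 ⟨hy, hs y t h3 h4⟩)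
    refine ⟨htl, huniq, ?_⟩
    obtain ⟨b, x, y, hx, hy, hxy, hax, hby, hl⟩ := hT a haT
    by_contra hcon
    have hnx : ¬ (Nat.dist t (lo x) ≤ l + 6 * R ∨ Nat.dist t (hi x) ≤ l + 6 * R) :=
      fun hh => hcon ⟨x, hx, hh⟩
    have hny : ¬ (Nat.dist t (lo y) ≤ l + 6 * R ∨ Nat.dist t (hi y) ≤ l + 6 * R) :=
      fun hh => hcon ⟨y, hy, hh⟩
    unfold Nat.dist at hnx hny
    have b1 := hb x a hax
    have b2 := hb y b hby
    have e1 : f c a ≤ t + 3 * R := ha1
    have e2 : t < f c a + 3 * R := ha2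
    have lb := h.le c hc b
    have la := h.le c hc a
    have c1 : f c b < f c a + l := by
      by_contra hh
      refine absurd hl (not_lt.2 (card_ge_of_Ico hc (f c a) l (by omega) _ fun s h1 h2 => ?_))
      refine ⟨hone s x hx (by omega) (by omega), sep_cutS.2 ?_⟩
      show ¬ (f c a ≤ s ↔ f c b ≤ s)
      omega
    have c2 : f c a < f c b + l := by
      by_contra hh
      refine absurd hl (not_lt.2 (card_ge_of_Ico hc (f c a - l) l (by omega) _ fun s h1 h2 => ?_))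
      refine ⟨hone s x hx (by omega) (by omega), sep_cutS.2 ?_⟩
      show ¬ (f c a ≤ s ↔ f c b ≤ s)
      omega
    exact hxy (huniq x hx y hy (by omega) (by omega) (by omega) (by omega))
  unfold cuts
  rw [filter_sigma, card_sigma]
  refine le_trans (sum_le_sum hc) ?_
  rw [← mul_sum, sum_add_distrib, ← mul_sum, sum_const, smul_eq_mul]
  refine Nat.mul_le_mul_left _ ?_
  omega

end Vale.Agent.P061Z.SL
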