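import Vale.Agent.P061Z.SLA

/-! # P061: the ball packing inside one child -/

namespace Vale.Agent.P061Z.SL

open Finset

variable {V : Type} [Fintype V] [DecidableEq V] {ι : Type} [DecidableEq ι]

/-- The ball with centre `p.1` and radius `p.2`. -/
def ballS (d : V → V → ℕ) (p : V × ℕ) : Finset V := univ.filter fun a => d p.1 a ≤ p.2

omit [DecidableEq V] in
theorem mem_ballS {d : V → V → ℕ} {p : V × ℕ} {a : V} : a ∈ ballS d p ↔ d p.1 a ≤ p.2 := by
  simp [ballS]

variable {d : V → V → ℕ} {C : Finset ι} {len : ι → ℕ} {f : ι → V → ℕ}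

theorem card_balls (Z : Finset V) (R : ℕ) (a b : V) :
    ((Z ×ˢ range R).filter fun p => Sep (ballS d p) a b).card =
      ∑ z ∈ Z, Nat.dist (min (d z a) R) (min (d z b) R) := by
  rw [card_filter, sum_product]
  refine sum_congr rfl fun z _ => ?_
  rw [← card_range_sep, card_filter]
  refine sum_congr rfl fun t _ => ?_
  have : Sep (ballS d (z, t)) a b ↔ ¬ (d z a ≤ t ↔ d z b ≤ t) := by
    unfold Sep
    rw [mem_ballS, mem_ballS]
  simp only [this]

omit [Fintype V] in
theorem balls_le (hd : IsMet d) (Z : Finset V) (R : ℕ)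
    (hsep : ∀ z ∈ Z, ∀ z' ∈ Z, z ≠ z' → 2 * R ≤ d z z') (a b : V) :
    ∑ z ∈ Z, Nat.dist (min (d z a) R) (min (d z b) R) ≤ min (d a b) (2 * R) := by
  obtain ⟨-, hs, ht⟩ := hd
  have huniq : ∀ x, ∀ z ∈ Z, ∀ z' ∈ Z, d z x < R → d z' x < R → z = z' := by
    intro x z hz z' hz' h1 h2
    by_contra hne
    have h3 := hsep z hz z' hz' hne
    have h4 := ht z x z'
    have h5 := hs x z'
    omega
  have hone : ∀ z, Nat.dist (min (d z a) R) (min (d z b) R) ≤ min (d a b) (2 * R) := by
    intro z
    have h1 := ht z a b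
    have h2 := ht z b a
    have h3 := hs a b
    unfold Nat.dist
    omega
  have hzero : ∀ z, ¬ d z a < R → ¬ d z b < R →
      Nat.dist (min (d z a) R) (min (d z b) R) = 0 := by
    intro z h1 h2
    unfold Nat.dist
    omega
  by_cases ha : ∃ z ∈ Z, d z a < R
  · obtain ⟨za, hza, ha⟩ := ha
    by_cases hb : ∃ z ∈ Z, z ≠ za ∧ d z b < R
    · obtain ⟨zb, hzb, hne, hb⟩ := hb
      rw [← sum_subset (s₁ := {za, zb})]
      · rw [sum_pair hne.symm]
        have h1 : ¬ d za b < R := fun h => hne (huniq b zb hzb za hza hb h)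
        have h2 : ¬ d zb a < R := fun h => hne (huniq a zb hzb za hza h ha)
        have h3 := hsep za hza zb hzb hne.symm
        have h4 := ht za a zb
        have h5 := ht a b zb
        have h6 := hs b zb
        unfold Nat.dist
        omega
      · intro z hz
        rcases mem_insert.1 hz with rfl | hz
        · exact hza
        · rw [mem_singleton.1 hz]
          exact hzb
      · intro z hz hn
        refine hzero z (fun h => hn ?_) fun h => hn ?_
        · rw [huniq a z hz za hza h ha]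
          exact mem_insert_self _ _
        · rw [huniq b z hz zb hzb h hb]
          exact mem_insert_of_mem (mem_singleton_self _)
    · rw [sum_eq_single za]
      · exact hone za
      · intro z hz hne
        exact hzero z (fun h => hne (huniq a z hz za hza h ha)) fun h => hb ⟨z, hz, hne, h⟩
      · exact fun h => (h hza).elim
  · by_cases hb : ∃ z ∈ Z, d z b < R
    · obtain ⟨zb, hzb, hb⟩ := hb
      rw [sum_eq_single zb]
      · exact hone zb
      · intro z hz hne
        exact hzero z (fun h => ha ⟨z, hz, h⟩) fun h => hne (huniq b z hz zb hzb h hb)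
      · exact fun h => (h hzb).elim
    · rw [sum_eq_zero]
      · exact Nat.zero_le _
      · intro z hz
        exact hzero z (fun h => ha ⟨z, hz, h⟩) fun h => hb ⟨z, hz, h⟩

omit [Fintype V] [DecidableEq V] in
theorem sep_comm {S : Finset V} {a b : V} : Sep S a b ↔ Sep S b a := by
  unfold Sep
  tauto

/-- A cut outside `Sp` separating a point of a ball from `b` forces `2 R` cuts of `Sp`
separating them. -/
theorem NF.many (h : NF d C len f) (T : Finset V) (R : ℕ) {z a b : V} (hz : z ∈ T)
    (hza : d z a < R) {j : Σ _ : ι, ℕ} (hj : j ∈ cuts C len) (hn : ¬ Sp f T R j)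
    (hs : Sep (cutS f j) a b) :
    2 * R ≤ ((cuts C len).filter fun i => Sp f T R i ∧ Sep (cutS f i) a b).card := by
  obtain ⟨c, t⟩ := j
  obtain ⟨hc, ht⟩ := mem_cuts.1 hj
  have hc : c ∈ C := hc
  have ht : t < len c := ht
  have h1 := h.lip hc z a
  unfold Nat.dist at h1
  have h2 : ¬ (f c z ≤ t + 3 * R ∧ t < f c z + 3 * R) := fun hh => hn ⟨z, hz, hh⟩
  have h3 : ¬ (f c a ≤ t ↔ f c b ≤ t) := sep_cutS.1 hs
  have lz := h.le c hc z
  have lb := h.le c hc b
  by_cases hcase : f c z ≤ t + 3 * R
  · refine card_ge_of_Ico hc (f c z + R) (2 * R) (by omega) _ fun s h4 h5 => ⟨⟨z, hz, ?_⟩, ?_⟩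
    · show f c z ≤ s + 3 * R ∧ s < f c z + 3 * R
      omega
    · refine sep_cutS.2 ?_
      show ¬ (f c a ≤ s ↔ f c b ≤ s)
      omega
  · refine card_ge_of_Ico hc (f c z - 3 * R) (2 * R) (by omega) _
      fun s h4 h5 => ⟨⟨z, hz, ?_⟩, ?_⟩
    · show f c z ≤ s + 3 * R ∧ s < f c z + 3 * R
      omega
    · refine sep_cutS.2 ?_
      show ¬ (f c a ≤ s ↔ f c b ≤ s)
      omega

omit [DecidableEq V] [DecidableEq ι] in
theorem NF.cross_ball (h : NF d C len f) (T : Finset V) (R : ℕ) {p : V × ℕ} (hz : p.1 ∈ T)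
    (hp : p.2 < R) {j : Σ _ : ι, ℕ} (hj : j ∈ cuts C len) (hn : ¬ Sp f T R j) :
    Disjoint (cutS f j) (ballS d p) ∨ ballS d p ⊆ cutS f j := by
  obtain ⟨hc, -⟩ := mem_cuts.1 hj
  have h2 : ¬ (f j.1 p.1 ≤ j.2 + 3 * R ∧ j.2 < f j.1 p.1 + 3 * R) := fun hh => hn ⟨p.1, hz, hh⟩
  by_cases hcase : f j.1 p.1 ≤ j.2 + 3 * R
  · refine Or.inr fun a ha => ?_
    rw [mem_ballS] at ha
    rw [mem_cutS]
    have h1 := h.lip hc p.1 a
    unfold Nat.dist at h1
    omega
  · refine Or.inl (disjoint_left.2 fun a ha ha' => ?_)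
    rw [mem_ballS] at ha'
    rw [mem_cutS] at ha
    have h1 := h.lip hc p.1 a
    unfold Nat.dist at h1
    omega

/-- The cuts outside `Sp` together with the balls around the centres form a packing. -/
theorem NF.net (hd : IsMet d) (h : NF d C len f) (T Z W : Finset V) (R : ℕ) (hZT : Z ⊆ T)
    (hZW : Z ⊆ W) (hsep : ∀ z ∈ Z, ∀ z' ∈ Z, z ≠ z' → 2 * R ≤ d z z') :
    R * Z.card + ((cuts C len).filter fun j => Splits (cutS f j) W ∧ ¬ Sp f T R j).card ≤
      R + pv d W := by
  set A := (cuts C len).filter fun j => Splits (cutS f j) W ∧ ¬ Sp f T R j with hA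
  have hAc : A ⊆ cuts C len := filter_subset _ _
  have hAs : ∀ j ∈ A, Splits (cutS f j) W := fun j hj => (mem_filter.1 hj).2.1
  have hAn : ∀ j ∈ A, ¬ Sp f T R j := fun j hj => (mem_filter.1 hj).2.2
  by_cases hZ : Z.card ≤ 1
  · have h1 := le_pv (h.pack W A hAc hAs)
    have h2 : R * Z.card ≤ R * 1 := Nat.mul_le_mul_left _ hZ
    omega
  have hpack : IsPack d W (A.disjSum (Z ×ˢ range R)) (Sum.elim (cutS f) (ballS d)) := by
    refine ⟨?_, ?_, ?_⟩
    · rintro (j | p) hj
      · exact hAs j (inl_mem_disjSum.1 hj)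
      · obtain ⟨hz, hp⟩ := mem_product.1 (inr_mem_disjSum.1 hj)
        rw [mem_range] at hp
        obtain ⟨z', hz', hne⟩ := exists_mem_ne (not_le.1 hZ) p.1
        have h1 := hsep p.1 hz z' hz' hne.symm
        refine ⟨⟨p.1, hZW hz, ?_⟩, z', hZW hz', ?_⟩
        · show p.1 ∈ ballS d p
          rw [mem_ballS, hd.1]
          exact Nat.zero_le _
        · show z' ∉ ballS d p
          rw [mem_ballS]
          omega
    · rintro (i | p) hi (j | q) hj
      · exact h.crossFree (hAc (inl_mem_disjSum.1 hi)) (hAc (inl_mem_disjSum.1 hj))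
      · obtain ⟨hz, hp⟩ := mem_product.1 (inr_mem_disjSum.1 hj)
        have hi := inl_mem_disjSum.1 hi
        rcases h.cross_ball T R (hZT hz) (mem_range.1 hp) (hAc hi) (hAn i hi) with h1 | h1
        · exact Or.inl h1
        · exact Or.inr (Or.inr (Or.inl h1))
      · obtain ⟨hz, hp⟩ := mem_product.1 (inr_mem_disjSum.1 hi)
        have hj := inl_mem_disjSum.1 hj
        rcases h.cross_ball T R (hZT hz) (mem_range.1 hp) (hAc hj) (hAn j hj) with h1 | h1
        · exact Or.inl h1.symm
        · exact Or.inr (Or.inl h1)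
      · obtain ⟨hz, hp⟩ := mem_product.1 (inr_mem_disjSum.1 hi)
        obtain ⟨hz', hq⟩ := mem_product.1 (inr_mem_disjSum.1 hj)
        rw [mem_range] at hp hq
        show CrossFree (ballS d p) (ballS d q)
        by_cases he : p.1 = q.1
        · rcases le_total p.2 q.2 with h1 | h1
          · refine Or.inr (Or.inl fun a ha => ?_)
            rw [mem_ballS] at ha ⊢
            rw [← he]
            omega
          · refine Or.inr (Or.inr (Or.inl fun a ha => ?_))
            rw [mem_ballS] at ha ⊢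
            rw [he]
            omega
        · refine Or.inl (disjoint_left.2 fun a ha ha' => ?_)
          rw [mem_ballS] at ha ha'
          have h1 := hsep p.1 hz q.1 hz' he
          have h2 := hd.2.2 p.1 a q.1
          have h3 := hd.2.1 a q.1
          omega
    · intro a b
      have e1 : ((A.disjSum (Z ×ˢ range R)).filter
          fun j => Sep (Sum.elim (cutS f) (ballS d) j) a b).card =
          (A.filter fun j => Sep (cutS f j) a b).card +
            ((Z ×ˢ range R).filter fun p => Sep (ballS d p) a b).card := by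
        rw [card_filter, sum_disjSum, card_filter, card_filter]
        rfl
      rw [e1, card_balls]
      have b1 := balls_le hd Z R hsep a b
      have c1 := h.card_sep a b
      have c2 : (A.filter fun j => Sep (cutS f j) a b).card +
          ((cuts C len).filter fun i => Sp f T R i ∧ Sep (cutS f i) a b).card ≤
          ((cuts C len).filter fun j => Sep (cutS f j) a b).card := by
        rw [← card_union_of_disjoint]
        · refine card_le_card (union_subset (filter_subset_filter _ hAc) fun i hi => ?_)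
          obtain ⟨h1, -, h2⟩ := mem_filter.1 hi
          exact mem_filter.2 ⟨h1, h2⟩
        · refine disjoint_left.2 fun i hi hi' => ?_
          exact hAn i (mem_filter.1 hi).1 (mem_filter.1 hi').2.1
      rcases (A.filter fun j => Sep (cutS f j) a b).eq_empty_or_nonempty with h0 | ⟨j, hj⟩
      · rw [h0, card_empty]
        omega
      obtain ⟨hjA, hjs⟩ := mem_filter.1 hj
      by_cases ha : ∃ z ∈ Z, d z a < R
      · obtain ⟨z, hz, hza⟩ := ha
        have := h.many T R (hZT hz) hza (hAc hjA) (hAn j hjA) hjs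
        omega
      by_cases hb : ∃ z ∈ Z, d z b < R
      · obtain ⟨z, hz, hzb⟩ := hb
        have h1 := h.many T R (hZT hz) hzb (hAc hjA) (hAn j hjA) (sep_comm.1 hjs)
        simp only [sep_comm (a := b) (b := a)] at h1
        omega
      rw [sum_eq_zero]
      · omega
      · intro z hz
        have h1 : ¬ d z a < R := fun hh => ha ⟨z, hz, hh⟩
        have h2 : ¬ d z b < R := fun hh => hb ⟨z, hz, hh⟩
        unfold Nat.dist
        omega
  have h1 := le_pv hpack
  rw [card_disjSum, card_product, card_range, mul_comm] at h1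
  omega

omit [Fintype V] in
theorem exists_net (hd : IsMet d) (T : Finset V) {r : ℕ} (hr : 0 < r) :
    ∃ Z ⊆ T, (∀ z ∈ Z, ∀ z' ∈ Z, z ≠ z' → r ≤ d z z') ∧ ∀ a ∈ T, ∃ z ∈ Z, d a z < r := by
  classical
  obtain ⟨P, hP⟩ : ∃ P : Finset V → Prop,
      ∀ Z, P Z ↔ ∀ z ∈ Z, ∀ z' ∈ Z, z ≠ z' → r ≤ d z z' := ⟨_, fun _ => Iff.rfl⟩
  obtain ⟨Z, hZ, hmax⟩ := exists_max_image (T.powerset.filter P) card
    ⟨∅, mem_filter.2 ⟨empty_mem_powerset _, (hP _).2 (by simp)⟩⟩
  obtain ⟨hZT, hsep⟩ := mem_filter.1 hZ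
  rw [mem_powerset] at hZT
  rw [hP] at hsep
  refine ⟨Z, hZT, hsep, fun a ha => ?_⟩
  by_contra hcon
  have hfar : ∀ z ∈ Z, r ≤ d a z := fun z hz => not_lt.1 fun hh => hcon ⟨z, hz, hh⟩
  have haZ : a ∉ Z := fun hh => by
    have := hfar a hh
    rw [hd.1] at this
    omega
  have h1 := hmax (insert a Z)
    (mem_filter.2 ⟨mem_powerset.2 (insert_subset ha hZT), (hP _).2 ?_⟩)
  · rw [card_insert_of_notMem haZ] at h1
    omega
  · intro z hz z' hz' hne
    rcases mem_insert.1 hz with h2 | h2
    · rcases mem_insert.1 hz' with h3 | h3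
      · exact (hne (h2.trans h3.symm)).elim
      · rw [h2]
        exact hfar z' h3
    · rcases mem_insert.1 hz' with h3 | h3
      · rw [h3, hd.2.1]
        exact hfar z h2
      · exact hsep z h2 z' h3 hne

end Vale.Agent.P061Z.SL
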