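import Vale.Agent.P061Z.Defs

/-! # P061: counting light cuts near the end points of ranges on one chain -/

namespace Vale.Agent.P061Z.SLC

open Finset

theorem card_near (M T : Finset ℕ) (L : ℕ) (h : ∀ t ∈ T, ∃ μ ∈ M, Nat.dist t μ ≤ L) :
    T.card ≤ (2 * L + 1) * M.card := by
  have h1 : T ⊆ M.biUnion fun μ => Icc (μ - L) (μ + L) := by
    intro t ht
    obtain ⟨μ, hμ, hd⟩ := h t ht
    refine mem_biUnion.2 ⟨μ, hμ, mem_Icc.2 ?_⟩
    unfold Nat.dist at hd
    omega
  refine (card_le_card h1).trans (card_biUnion_le.trans ?_)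
  rw [mul_comm, ← smul_eq_mul]
  refine sum_le_card_nsmul _ _ _ fun μ _ => ?_
  rw [Nat.card_Icc]
  omega

/-- On a chain of length `len` with ranges `[lo x, hi x]` and anchors `an x`, the positions that
are covered by at most one range and are close to an end point are few. -/
theorem oneD {X : Type} (Xs : Finset X) (lo hi an : X → ℕ) (len L : ℕ)
    (h : ∀ x ∈ Xs, lo x ≤ an x ∧ an x ≤ hi x ∧ hi x ≤ len) (T : Finset ℕ)
    (hT : ∀ t ∈ T, t < len ∧ (Xs.filter fun x => lo x ≤ t ∧ t < hi x).card ≤ 1 ∧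
      ∃ x ∈ Xs, Nat.dist t (lo x) ≤ L ∨ Nat.dist t (hi x) ≤ L) :
    T.card ≤ (2 * L + 1) * (2 * (Xs.filter fun x => 0 < an x ∧ an x < len).card + 4) := by
  rcases T.eq_empty_or_nonempty with rfl | hne
  · exact Nat.zero_le _
  obtain ⟨a, ha, ha'⟩ := exists_min_image T id hne
  obtain ⟨b, hb, hb'⟩ := exists_max_image T id hne
  refine (card_near ((Xs.filter fun x => 0 < an x ∧ an x < len).image lo ∪
    (Xs.filter fun x => 0 < an x ∧ an x < len).image hi ∪
    insert a ((Xs.filter fun x => lo x ≤ a ∧ a < hi x).image hi) ∪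
    insert b ((Xs.filter fun x => lo x ≤ b ∧ b < hi x).image lo)) T L fun t ht => ?_).trans
      (Nat.mul_le_mul_left _ ?_)
  · obtain ⟨h1, -, x, hx, h2⟩ := hT t ht
    obtain ⟨h3, h4, h5⟩ := h x hx
    have h6 : a ≤ t := ha' t ht
    have h7 : t ≤ b := hb' t ht
    have h8 := (hT b hb).1
    simp only [mem_union, mem_insert]
    by_cases c1 : an x = 0
    · by_cases c2 : Nat.dist t a ≤ L
      · exact ⟨a, Or.inl (Or.inr (Or.inl rfl)), c2⟩
      · unfold Nat.dist at c2 h2 ⊢
        exact ⟨hi x, Or.inl (Or.inr (Or.inr (mem_image_of_mem _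
          (mem_filter.2 ⟨hx, by omega, by omega⟩)))), by omega⟩
    by_cases c3 : an x = len
    · by_cases c2 : Nat.dist t b ≤ L
      · exact ⟨b, Or.inr (Or.inl rfl), c2⟩
      · unfold Nat.dist at c2 h2 ⊢
        exact ⟨lo x, Or.inr (Or.inr (mem_image_of_mem _
          (mem_filter.2 ⟨hx, by omega, by omega⟩))), by omega⟩
    have hx0 : x ∈ Xs.filter fun x => 0 < an x ∧ an x < len :=
      mem_filter.2 ⟨hx, by omega, by omega⟩
    rcases h2 with h2 | h2
    · exact ⟨lo x, Or.inl (Or.inl (Or.inl (mem_image_of_mem _ hx0))), h2⟩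
    · exact ⟨hi x, Or.inl (Or.inl (Or.inr (mem_image_of_mem _ hx0))), h2⟩
  · have a1 := card_image_le (s := Xs.filter fun x => 0 < an x ∧ an x < len) (f := lo)
    have a2 := card_image_le (s := Xs.filter fun x => 0 < an x ∧ an x < len) (f := hi)
    have a3 := (card_insert_le a _).trans (Nat.add_le_add_right
      ((card_image_le (s := Xs.filter fun x => lo x ≤ a ∧ a < hi x) (f := hi)).trans
        (hT a ha).2.1) 1)
    have a4 := (card_insert_le b _).trans (Nat.add_le_add_right
      ((card_image_le (s := Xs.filter fun x => lo x ≤ b ∧ b < hi x) (f := lo)).trans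
        (hT b hb).2.1) 1)
    refine (card_union_le _ _).trans ((Nat.add_le_add_right ((card_union_le _ _).trans
      (Nat.add_le_add_right (card_union_le _ _) _)) _).trans ?_)
    omega

end Vale.Agent.P061Z.SLC
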