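import Mathlib

/-!
# P061: the notions used in the statement

A finite multigraph is given by a finite vertex type `V`, a finite type `E` of edge copies and the
map `ends : E → Sym2 V` sending an edge copy to its unordered pair of endpoints.
-/

namespace Vale.Agent.P061Z

open Finset

variable {V E : Type} [Fintype V] [DecidableEq V] [Fintype E] [DecidableEq E]

/-- The edge copies of `A` with exactly one endpoint in `S`. -/
def cut (ends : E → Sym2 V) (A : Finset E) (S : Finset V) : Finset E :=
  A.filter fun e => ∃ a ∈ S, ∃ b, b ∉ S ∧ ends e = s(a, b)

/-- Every nonempty proper vertex set is left by at least `k` edge copies. -/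
def EdgeConnected (ends : E → Sym2 V) (k : ℕ) : Prop :=
  ∀ S : Finset V, S.Nonempty → S ≠ univ → k ≤ (cut ends univ S).card

/-- `T` is a set of `n - 1` edge copies, no two parallel, forming a tree on `V`. -/
def IsSpanningTree (ends : E → Sym2 V) (T : Finset E) : Prop :=
  T.card + 1 = Fintype.card V ∧ Set.InjOn ends (T : Set E) ∧
    (SimpleGraph.fromEdgeSet (ends '' (T : Set E))).IsTree

end Vale.Agent.P061Z
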